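import Vale.Agent.P366I.Sph1

/-! Order calculus at infinity. -/

noncomputable section

open Matrix MeasureTheory Set Filter Topology Asymptotics
open scoped ContDiff

namespace Vale.Agent.P366

variable {n : ℕ} {ι : Type} [Fintype ι] [DecidableEq ι]

/-- `f = O(‖x‖ ^ a)` at infinity. -/
def OO (a : ℝ) (f : Euc n → ℝ) : Prop := f =O[lc n] fun x => ‖x‖ ^ a

theorem lc_ev (R : ℝ) : ∀ᶠ x in lc n, R < ‖x‖ :=
  tendsto_comap.eventually (eventually_gt_atTop R)

section
variable {a b : ℝ} {f f' : Euc n → ℝ}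

theorem OO.add (hf : OO a f) (hf' : OO a f') : OO a (fun x => f x + f' x) :=
  IsBigO.add hf hf'

theorem OO.sub (hf : OO a f) (hf' : OO a f') : OO a (fun x => f x - f' x) :=
  IsBigO.sub hf hf'

theorem OO.mul (hf : OO a f) (hf' : OO b f') : OO (a + b) (fun x => f x * f' x) := by
  refine (IsBigO.mul hf hf').congr' EventuallyEq.rfl ?_
  filter_upwards [lc_ev 0] with x hx
  exact (Real.rpow_add hx a b).symm

theorem OO.cmul (c : ℝ) (hf : OO a f) : OO a (fun x => c * f x) :=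
  IsBigO.const_mul_left hf c

theorem OO.sum {α : Type} (s : Finset α) {F : α → Euc n → ℝ} (hF : ∀ i ∈ s, OO a (F i)) :
    OO a (fun x => ∑ i ∈ s, F i x) :=
  IsBigO.fun_sum hF

theorem OO.mono (hf : OO a f) (hab : a ≤ b) : OO b f := by
  refine IsBigO.trans hf (IsBigO.of_bound' ?_)
  filter_upwards [lc_ev 1] with x hx
  rw [Real.norm_of_nonneg (by positivity), Real.norm_of_nonneg (by positivity)]
  exact Real.rpow_le_rpow_of_exponent_le hx.le hab

theorem OO.congr (hf : OO a f) (e : ∀ᶠ x in lc n, f x = f' x) : OO a f' :=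
  IsBigO.congr' hf e EventuallyEq.rfl

theorem OO.const (c : ℝ) : OO 0 (fun _ : Euc n => c) := by
  simp only [OO, Real.rpow_zero]
  exact isBigO_const_one ℝ c _

theorem OO.rpow (a : ℝ) : OO a (fun x : Euc n => ‖x‖ ^ a) :=
  isBigO_refl _ _

theorem OO.inv_norm : OO (-1) (fun x : Euc n => ‖x‖⁻¹) := by
  simp only [OO, Real.rpow_neg_one]
  exact isBigO_refl _ _

theorem OO.coord (i : Fin n) : OO 1 (fun x : Euc n => x i) := by
  simp only [OO, Real.rpow_one]
  exact IsBigO.of_bound' (Eventually.of_forall fun x => by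
    rw [norm_norm]
    exact PiLp.norm_apply_le x i)

theorem OO.theta (i : Fin n) : OO 0 (fun x : Euc n => x i / ‖x‖) := by
  have h := (OO.coord i).mul OO.inv_norm
  rw [add_neg_cancel] at h
  exact h

/-- `f = c + O(r^a)` with `a ≤ 0` is bounded. -/
theorem OO.bdd {c : ℝ} (hf : OO a (fun x => f x - c)) (ha : a ≤ 0) : OO 0 f :=
  ((hf.mono ha).add (OO.const c)).congr (Eventually.of_forall fun _ => sub_add_cancel _ _)

theorem OO.tendsto {c : ℝ} (hf : OO a (fun x => f x - c)) (ha : a < 0) :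
    Tendsto f (lc n) (𝓝 c) := by
  have h1 := (tendsto_rpow_neg_atTop (neg_pos.2 ha)).comp (tendsto_comap (f := fun x : Euc n => ‖x‖))
  rw [neg_neg] at h1
  exact tendsto_sub_nhds_zero_iff.1 (IsBigO.trans_tendsto hf h1)

/-- Composition with a function that is differentiable at the limit. -/
theorem OO.comp {c : ℝ} {F : ℝ → ℝ} (hf : OO a (fun x => f x - c)) (ha : a < 0)
    (hF : DifferentiableAt ℝ F c) : OO a (fun x => F (f x) - F c) :=
  (hF.isBigO_sub.comp_tendsto (hf.tendsto ha)).trans hf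

theorem OO.int_O (hf : OO a f) :
    (fun t => sInt t f) =O[atTop] fun t : ℝ => t ^ ((n : ℝ) - 1 + a) := by
  rcases Nat.eq_zero_or_pos n with rfl | hn
  · have : IsEmpty (Metric.sphere (0 : Euc 0) 1) := ⟨fun θ => by
      have h := norm_eq_of_mem_sphere θ
      rw [Subsingleton.elim θ.1 0, norm_zero] at h
      exact zero_ne_one h⟩
    simp only [sInt, integral_of_isEmpty, mul_zero]
    exact isBigO_zero _ _
  obtain ⟨c, hc⟩ := IsBigO.bound hf
  refine IsBigO.of_bound (omega n * c) ?_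
  filter_upwards [eventually_comap.1 hc, eventually_gt_atTop 0] with t h1 ht
  refine (sInt_abs_le ht (c := c * t ^ a) fun x hx => ?_).trans (le_of_eq ?_)
  · have h2 := h1 x hx
    rwa [hx, Real.norm_of_nonneg (Real.rpow_nonneg ht.le a)] at h2
  · rw [Real.norm_of_nonneg (Real.rpow_nonneg ht.le _), Real.rpow_add ht, ← Nat.cast_pred hn,
      Real.rpow_natCast]
    ring

theorem OO.int_zero (hf : OO a f) (ha : (n : ℝ) - 1 + a < 0) :
    Tendsto (fun t => sInt t f) atTop (𝓝 0) := by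
  have h1 := tendsto_rpow_neg_atTop (neg_pos.2 ha)
  rw [neg_neg] at h1
  exact hf.int_O.trans_tendsto h1

/-- A radial function. -/
theorem OO.rad (hn : 0 < n) {φ : ℝ → ℝ} (hf : OO a f) (e : ∀ᶠ x in lc n, f x = φ ‖x‖) :
    φ =O[atTop] fun t : ℝ => t ^ a := by
  have h0 : ‖(EuclideanSpace.single ⟨0, hn⟩ 1 : Euc n)‖ = 1 := by simp
  have h1 : ∀ᶠ t : ℝ in atTop, ‖t • (EuclideanSpace.single ⟨0, hn⟩ 1 : Euc n)‖ = t := by
    filter_upwards [eventually_gt_atTop 0] with t ht
    exact norm_smul_sph ht h0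
  have h2 : Tendsto (fun t : ℝ => t • (EuclideanSpace.single ⟨0, hn⟩ 1 : Euc n)) atTop (lc n) :=
    tendsto_comap_iff.2 (tendsto_id.congr' (h1.mono fun _ ht => ht.symm))
  refine (IsBigO.comp_tendsto (hf.congr e) h2).congr' ?_ ?_
  · filter_upwards [h1] with t ht
    rw [Function.comp_apply, ht]
  · filter_upwards [h1] with t ht
    rw [Function.comp_apply, ht]

theorem OO.of_rad {φ : ℝ → ℝ} (hφ : φ =O[atTop] fun t : ℝ => t ^ a) :
    OO a (fun x : Euc n => φ ‖x‖) :=
  hφ.comp_tendsto tendsto_comap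

end

theorem decU_of {q C R₀ : ℝ} {g K : Fld n}
    (hdec : ∀ x : Euc n, R₀ < ‖x‖ → ∀ i j k,
      |g x i j - (1 : Matrix (Fin n) (Fin n) ℝ) i j| ≤ C * ‖x‖ ^ (-q) ∧
      |pd (fun y => g y i j) k x| ≤ C * ‖x‖ ^ (-q - 1) ∧ |K x i j| ≤ C * ‖x‖ ^ (-q - 1)) :
    DecU q g K := by
  have h1 : ∀ (s : ℝ) (x : Euc n), ‖‖x‖ ^ s‖ = ‖x‖ ^ s := fun s x =>
    Real.norm_of_nonneg (by positivity)
  refine ⟨fun i j => IsBigO.of_bound C ?_, fun i j k => IsBigO.of_bound C ?_,
    fun i j => IsBigO.of_bound C ?_⟩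
  · filter_upwards [lc_ev R₀] with x hx
    rw [h1]
    exact (hdec x hx i j i).1
  · filter_upwards [lc_ev R₀] with x hx
    rw [h1]
    exact (hdec x hx i j k).2.1
  · filter_upwards [lc_ev R₀] with x hx
    rw [h1]
    exact (hdec x hx i j i).2.2

/-- Chain rule; `F` is Lipschitz near `1` and `fderiv F` is bounded near `1`. -/
theorem comp_dec {ρ q : ℝ} {g K : Fld n} (h : Met ρ g) (hq : 0 < q) (hd : DecU q g K)
    {F : (Fin n → Fin n → ℝ) → ℝ} (hF : ContDiffAt ℝ ∞ F (fun a b => (1 : Mn n) a b)) :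
    OO (-q) (fun x => F (fun a b => g x a b) - F (fun a b => (1 : Mn n) a b)) ∧
      ∀ k, OO (-q - 1) (fun x => pd (fun y => F (fun a b => g y a b)) k x) := by
  have h1 : (fun x : Euc n => (fun a b => g x a b : Fin n → Fin n → ℝ) -
      fun a b => (1 : Mn n) a b) =O[lc n] fun x => ‖x‖ ^ (-q) :=
    isBigO_pi.2 fun a => isBigO_pi.2 fun b => hd.dg0 a b
  have h2 : Tendsto (fun x : Euc n => (fun a b => g x a b : Fin n → Fin n → ℝ)) (lc n)
      (𝓝 fun a b => (1 : Mn n) a b) :=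
    tendsto_pi_nhds.2 fun a => tendsto_pi_nhds.2 fun b =>
      OO.tendsto (a := -q) (hd.dg0 a b) (neg_neg_of_pos hq)
  refine ⟨((hF.differentiableAt (by simp)).isBigO_sub.comp_tendsto h2).trans h1, fun k => ?_⟩
  have h3 : (fun x : Euc n => (fun a b => pd (fun y => g y a b) k x : Fin n → Fin n → ℝ))
      =O[lc n] fun x => ‖x‖ ^ (-q - 1) :=
    isBigO_pi.2 fun a => isBigO_pi.2 fun b => hd.dg1 a b k
  have h4 := ((hF.fderiv_right (m := ∞) le_rfl).continuousAt.tendsto.comp h2).isBigO_one ℝ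
  have h5 := h4.norm_left.mul h3.norm_left
  simp only [one_mul] at h5
  refine IsBigO.trans (IsBigO.of_bound' ?_) h5
  have h6 : ∀ᶠ M in 𝓝 (fun a b => (1 : Mn n) a b : Fin n → Fin n → ℝ), ContDiffAt ℝ 1 F M :=
    (hF.of_le (by exact_mod_cast le_top)).eventually (by simp)
  filter_upwards [lc_ev ρ, h2.eventually h6] with x hx hx'
  have h7 : HasFDerivAt (fun y : Euc n => (fun a b => g y a b : Fin n → Fin n → ℝ))
      (ContinuousLinearMap.pi fun a => ContinuousLinearMap.pi fun b =>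
        fderiv ℝ (fun y => g y a b) x) x :=
    hasFDerivAt_pi.2 fun a => hasFDerivAt_pi.2 fun b =>
      ((h.sm x hx a b).differentiableAt (by simp)).hasFDerivAt
  have h8 := ((hx'.differentiableAt one_ne_zero).hasFDerivAt.comp x h7).fderiv
  have h9 : pd (fun y => F (fun a b => g y a b)) k x =
      fderiv ℝ F (fun a b => g x a b) fun a b => pd (fun y => g y a b) k x :=
    congrArg (fun L : Euc n →L[ℝ] ℝ => L (EuclideanSpace.single k 1)) h8
  rw [h9, Real.norm_of_nonneg (mul_nonneg (norm_nonneg _) (norm_nonneg _))]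
  exact ContinuousLinearMap.le_opNorm _ _

end Vale.Agent.P366
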