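import Vale.Agent.P366I.Sm0

/-! Geometry of the unit normal. -/

noncomputable section

open Matrix MeasureTheory Set Filter Topology Asymptotics
open scoped ContDiff

namespace Vale.Agent.P366

variable {n : ℕ} {ι : Type} [Fintype ι] [DecidableEq ι]

section
variable {ρ : ℝ} {g : Fld n} (h : Met ρ g) {x : Euc n} (hx : ρ < ‖x‖)
include h hx

theorem nor_norm : 0 < ‖x‖ := h.pos.trans hx

theorem nor_s : 0 < √(∑ a, ∑ b, (g x)⁻¹ a b * x a * x b) :=
  (div_pos_iff_of_pos_left (nor_norm h hx)).1 (h.lapse_pos hx)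

theorem nor_nl (j : Fin n) : nl g j x = x j / √(∑ a, ∑ b, (g x)⁻¹ a b * x a * x b) := by
  have h1 := nor_norm h hx
  unfold nl lapse
  field_simp

theorem nor_nu (i : Fin n) : nu g i x = ∑ j, (g x)⁻¹ i j * nl g j x := by
  simp only [nor_nl h hx, nu, Finset.sum_div, mul_div_assoc]

theorem nor_gi (i j : Fin n) : (g x)⁻¹ i j = (g x)⁻¹ j i := ((h.symm hx).inv.apply j i)

theorem nor_x : ∑ k, nu g k x * x k = √(∑ a, ∑ b, (g x)⁻¹ a b * x a * x b) := by
  have h1 := nor_s h hx
  have h2 : ∑ k, nu g k x * x k =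
      (∑ a, ∑ b, (g x)⁻¹ a b * x a * x b) / √(∑ a, ∑ b, (g x)⁻¹ a b * x a * x b) := by
    rw [Finset.sum_div]
    refine Finset.sum_congr rfl fun k _ => ?_
    rw [nu, div_mul_eq_mul_div, Finset.sum_mul]
    congr 1
    exact Finset.sum_congr rfl fun j _ => by ring
  rw [h2, Real.div_sqrt]

theorem nor_unit : ∑ i, nu g i x * nl g i x = 1 := by
  simp only [nor_nl h hx, ← mul_div_assoc]
  rw [← Finset.sum_div, nor_x h hx, div_self (nor_s h hx).ne']

theorem nor_dnu (i : Fin n) : DifferentiableAt ℝ (nu g i) x :=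
  (h.sm_nu hx i).differentiableAt (by simp)

theorem nor_dnl (i : Fin n) : DifferentiableAt ℝ (nl g i) x :=
  (h.sm_nl hx i).differentiableAt (by simp)

theorem nor_cov (k i : Fin n) : pd (nu g i) k x + ∑ l, chr g i k l x * nu g l x
    = ∑ j, (g x)⁻¹ i j * dnu g k j x := by
  have d1 : ∀ j, DifferentiableAt ℝ (fun y => (g y)⁻¹ i j) x := fun j =>
    (h.sm_inv hx i j).differentiableAt (by simp)
  have e1 : pd (nu g i) k x = ∑ j, (-(∑ l, (chr g i k l x * (g x)⁻¹ l j +
      chr g j k l x * (g x)⁻¹ i l)) * nl g j x + (g x)⁻¹ i j * pd (nl g j) k x) := by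
    rw [pd_congr ((ev_out hx).mono fun y hy => nor_nu h hy i),
      pd_sum Finset.univ (F := fun j y => (g y)⁻¹ i j * nl g j y)
        fun j _ => (d1 j).mul (nor_dnl h hx j)]
    refine Finset.sum_congr rfl fun j _ => ?_
    rw [pd_mul (d1 j) (nor_dnl h hx j), h.pd_inv hx]
  have e2 : ∑ l, chr g i k l x * nu g l x =
      ∑ j, ∑ l, chr g i k l x * (g x)⁻¹ l j * nl g j x := by
    rw [Finset.sum_comm]
    simp only [nor_nu h hx, Finset.mul_sum, mul_assoc]
  have e3 : ∑ j, (g x)⁻¹ i j * ∑ m, chr g m k j x * nl g m x =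
      ∑ j, ∑ l, chr g j k l x * (g x)⁻¹ i l * nl g j x := by
    rw [Finset.sum_comm]
    simp only [Finset.mul_sum]
    exact Finset.sum_congr rfl fun j _ => Finset.sum_congr rfl fun l _ => by ring
  simp only [dnu, mul_sub, Finset.sum_sub_distrib]
  rw [e1, e2, e3]
  simp only [neg_mul, Finset.sum_mul, add_mul, Finset.sum_add_distrib, Finset.sum_neg_distrib]
  ring

theorem nor_pdnl (k j : Fin n) : pd (nl g j) k x = pd (lapse g) k x * (x j / ‖x‖) +
    lapse g x * ((if j = k then 1 else 0) / ‖x‖ - x j * x k / ‖x‖ ^ 3) := by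
  have h0 := nor_norm h hx
  have hx0 : x ≠ 0 := norm_pos_iff.1 h0
  have d1 : DifferentiableAt ℝ (fun y : Euc n => ‖y‖) x := differentiableAt_id.norm ℝ hx0
  have d2 : DifferentiableAt ℝ (fun y : Euc n => y j) x := by fun_prop
  have d3 : DifferentiableAt ℝ (fun y : Euc n => ‖y‖⁻¹) x := d1.inv h0.ne'
  have e : nl g j = fun y => lapse g y * (y j * ‖y‖⁻¹) := by
    funext y
    rw [nl, mul_div_assoc, div_eq_mul_inv]
  rw [e, pd_mul ((h.sm_lapse hx).differentiableAt (by simp)) (d2.fun_mul d3), pd_mul d2 d3, pd_coord,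
    pd_comp (φ := fun r => r⁻¹) (differentiableAt_inv h0.ne') d1, pd_norm hx0, deriv_inv]
  field_simp
  ring

theorem nuV_eq : nuV g x = (g x)⁻¹ *ᵥ nlV g x := by
  funext i
  exact nor_nu h hx i

theorem nu_unit : nuV g x ⬝ᵥ nlV g x = 1 := by
  exact nor_unit h hx

theorem nu_dot_x : ∑ k, nu g k x * x k = ‖x‖ / lapse g x := by
  have h1 := nor_norm h hx
  have h2 := nor_s h hx
  rw [nor_x h hx, lapse]
  field_simp

/-- Differentiate `g^{ij} ν_i ν_j = 1` with `Met.pd_inv`. -/
theorem dnu_nu (k : Fin n) : ∑ j, dnu g k j x * nu g j x = 0 := by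
  have e0 : pd (fun y => ∑ i, nu g i y * nl g i y) k x = 0 :=
    (pd_congr ((ev_out hx).mono fun y hy => nor_unit h hy)).trans (pd_const 1)
  rw [pd_sum Finset.univ (F := fun i y => nu g i y * nl g i y)
    fun i _ => (nor_dnu h hx i).mul (nor_dnl h hx i)] at e0
  have e1 : ∀ i, pd (fun y => nu g i y * nl g i y) k x =
      (∑ j, (g x)⁻¹ i j * dnu g k j x) * nl g i x - (∑ l, chr g i k l x * nu g l x) * nl g i x +
        (dnu g k i x * nu g i x + nu g i x * ∑ m, chr g m k i x * nl g m x) := fun i => by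
    rw [pd_mul (nor_dnu h hx i) (nor_dnl h hx i), ← nor_cov h hx, dnu]
    ring
  have e2 : ∑ i, (∑ j, (g x)⁻¹ i j * dnu g k j x) * nl g i x = ∑ j, dnu g k j x * nu g j x := by
    simp only [nor_nu h hx, Finset.mul_sum, Finset.sum_mul]
    rw [Finset.sum_comm]
    refine Finset.sum_congr rfl fun j _ => Finset.sum_congr rfl fun i _ => ?_
    rw [nor_gi h hx i j]
    ring
  have e3 : ∑ i, (∑ l, chr g i k l x * nu g l x) * nl g i x =
      ∑ i, nu g i x * ∑ m, chr g m k i x * nl g m x := by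
    simp only [Finset.mul_sum, Finset.sum_mul]
    rw [Finset.sum_comm]
    exact Finset.sum_congr rfl fun j _ => Finset.sum_congr rfl fun i _ => by ring
  simp only [e1, Finset.sum_add_distrib, Finset.sum_sub_distrib] at e0
  rw [e2, e3] at e0
  linarith

/-- `ν_j = u ∂_j r`. -/
theorem dnu_antisym (k j : Fin n) : dnu g k j x - dnu g j k x
    = (pd (lapse g) k x * nl g j x - pd (lapse g) j x * nl g k x) / lapse g x := by
  have h0 := nor_norm h hx
  have h1 := h.lapse_pos hx
  have e : ∑ m, chr g m k j x * nl g m x = ∑ m, chr g m j k x * nl g m x :=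
    Finset.sum_congr rfl fun m _ => by rw [h.chr_symm hx m k j]
  rw [dnu, dnu, e, nor_pdnl h hx, nor_pdnl h hx, nl, nl]
  simp only [eq_comm (a := k)]
  field_simp
  ring

theorem acc_eq (j : Fin n) :
    acc g x j = -(pd (lapse g) j x - nl g j x * dn g (lapse g) x) / lapse g x := by
  have e : ∀ k, nu g k x * dnu g k j x = dnu g j k x * nu g k x +
      (nl g j x * (nu g k x * pd (lapse g) k x) -
        pd (lapse g) j x * (nu g k x * nl g k x)) / lapse g x := fun k => by
    rw [eq_add_of_sub_eq (dnu_antisym h hx k j)]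
    ring
  simp only [acc, e]
  rw [Finset.sum_add_distrib, dnu_nu h hx, ← Finset.sum_div, Finset.sum_sub_distrib,
    ← Finset.mul_sum, ← Finset.mul_sum, nor_unit h hx, dn]
  ring

theorem sff_symm : (sff g x).IsSymm := by
  refine Matrix.IsSymm.ext fun k j => ?_
  simp only [sff, Matrix.of_apply]
  rw [eq_add_of_sub_eq (dnu_antisym h hx k j), acc_eq h hx, acc_eq h hx]
  ring

theorem nor_acc : ∑ j, acc g x j * nu g j x = 0 := by
  simp only [acc, Finset.sum_mul, mul_assoc]
  rw [Finset.sum_comm]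
  refine Finset.sum_eq_zero fun k _ => ?_
  rw [← Finset.mul_sum, dnu_nu h hx, mul_zero]

theorem sff_nu : sff g x *ᵥ nuV g x = 0 := by
  funext k
  have e : ∑ j, acc g x j * nu g j x = 0 := nor_acc h hx
  simp only [Matrix.mulVec, dotProduct, sff, Matrix.of_apply, nuV, sub_mul, mul_assoc,
    Finset.sum_sub_distrib, ← Finset.mul_sum]
  rw [dnu_nu h hx, e]
  simp

theorem acc_nu : acc g x ⬝ᵥ nuV g x = 0 := by
  exact nor_acc h hx

/-- Raising the index commutes with the covariant derivative. -/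
theorem cov_nu (k i : Fin n) : pd (nu g i) k x + ∑ l, chr g i k l x * nu g l x
    = ∑ j, (g x)⁻¹ i j * dnu g k j x := by
  exact nor_cov h hx k i

theorem trA_sff : trA (g x)⁻¹ (sff g x) = meanH g x := by
  have e1 : ∑ k, ∑ j, (g x)⁻¹ k j * (nl g k x * acc g x j) = ∑ j, acc g x j * nu g j x := by
    rw [Finset.sum_comm]
    simp only [nor_nu h hx, Finset.mul_sum]
    refine Finset.sum_congr rfl fun j _ => Finset.sum_congr rfl fun i _ => ?_
    rw [nor_gi h hx i j]
    ring
  simp only [trA, sff, Matrix.of_apply, mul_sub, Finset.sum_sub_distrib]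
  rw [e1, nor_acc h hx, sub_zero, meanH, ← Finset.sum_add_distrib]
  exact Finset.sum_congr rfl fun k _ => (nor_cov h hx k k).symm

theorem dn_rad {φ : ℝ → ℝ} (hφ : DifferentiableAt ℝ φ ‖x‖) :
    dn g (fun y => φ ‖y‖) x = deriv φ ‖x‖ / lapse g x := by
  have h0 := nor_norm h hx
  have hx0 : x ≠ 0 := norm_pos_iff.1 h0
  have d1 : DifferentiableAt ℝ (fun y : Euc n => ‖y‖) x := differentiableAt_id.norm ℝ hx0
  have e : ∀ k, nu g k x * pd (fun y => φ ‖y‖) k x =
      deriv φ ‖x‖ / ‖x‖ * (nu g k x * x k) := fun k => by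
    rw [pd_comp (f := fun y : Euc n => ‖y‖) hφ d1, pd_norm hx0]
    ring
  simp only [dn, e]
  rw [← Finset.mul_sum, nu_dot_x h hx]
  field_simp

theorem divg_mul {f : Euc n → ℝ} {V : Fin n → Euc n → ℝ} (hf : DifferentiableAt ℝ f x)
    (hV : ∀ i, DifferentiableAt ℝ (V i) x) :
    divg g (fun i y => f y * V i y) x = ∑ i, pd f i x * V i x + f x * divg g V x := by
  simp only [divg, pd_mul hf (hV _), Finset.sum_add_distrib, mul_add, Finset.mul_sum,
    mul_left_comm (f x)]
  ring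

theorem divg_fnu {f : Euc n → ℝ} (hf : DifferentiableAt ℝ f x) :
    divg g (fun i y => f y * nu g i y) x = dn g f x + meanH g x * f x := by
  rw [divg_mul h hx hf (nor_dnu h hx), dn, mul_comm (meanH g x)]
  simp only [mul_comm (nu g _ x)]
  rfl

end

theorem pt_of {ρ : ℝ} {g : Fld n} {γ S : Euc n → Fin n → Ms ι} (h : Geo ρ g γ S) {x : Euc n}
    (hx : ρ < ‖x‖) : Pt (g x)⁻¹ (γ x) (nuV g x) (nlV g x) (sff g x) (acc g x) := by
  exact ⟨(h.met.posDef x hx).inv, h.skγ x hx, h.ac x hx, nuV_eq h.met hx, nu_unit h.met hx,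
    sff_symm h.met hx, sff_nu h.met hx, acc_nu h.met hx⟩

end Vale.Agent.P366
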