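import Vale.Agent.P366I.As0
import Vale.Agent.P366I.Nor

/-! Decay of the metric quantities. -/

noncomputable section

open Matrix MeasureTheory Set Filter Topology Asymptotics
open scoped ContDiff

namespace Vale.Agent.P366

variable {n : ℕ} {ι : Type} [Fintype ι] [DecidableEq ι]

/-- Symbols of order `a` with one derivative. -/
def as1_S (a : ℝ) (f : Euc n → ℝ) : Prop :=
  OO a f ∧ (∀ k, OO (a - 1) (pd f k)) ∧ ∀ᶠ x in lc n, DifferentiableAt ℝ f x

section
variable {a b : ℝ} {f f' : Euc n → ℝ}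

theorem as1_eq (hf : OO a f) (e : a = b) : OO b f := e ▸ hf

theorem as1_add (hf : as1_S a f) (hf' : as1_S a f') : as1_S a fun x => f x + f' x :=
  ⟨hf.1.add hf'.1, fun k => ((hf.2.1 k).add (hf'.2.1 k)).congr
    ((hf.2.2.and hf'.2.2).mono fun _ hx => (pd_add hx.1 hx.2).symm),
    (hf.2.2.and hf'.2.2).mono fun _ hx => hx.1.add hx.2⟩

theorem as1_mul (hf : as1_S a f) (hf' : as1_S b f') : as1_S (a + b) fun x => f x * f' x :=
  ⟨hf.1.mul hf'.1, fun k => ((as1_eq ((hf.2.1 k).mul hf'.1) (by ring)).add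
    (as1_eq (hf.1.mul (hf'.2.1 k)) (by ring))).congr
    ((hf.2.2.and hf'.2.2).mono fun _ hx => (pd_mul hx.1 hx.2).symm),
    (hf.2.2.and hf'.2.2).mono fun _ hx => hx.1.mul hx.2⟩

theorem as1_mul0 (hf : as1_S a f) (hf' : as1_S 0 f') : as1_S a fun x => f x * f' x := by
  simpa only [add_zero] using as1_mul hf hf'

theorem as1_sum {α : Type} [Fintype α] {F : α → Euc n → ℝ} (hF : ∀ i, as1_S a (F i)) :
    as1_S a fun x => ∑ i, F i x := by
  have h := eventually_all.2 fun i => (hF i).2.2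
  exact ⟨OO.sum _ fun i _ => (hF i).1, fun k => (OO.sum _ fun i _ => (hF i).2.1 k).congr
    (h.mono fun _ hx => (pd_sum _ fun i _ => hx i).symm),
    h.mono fun _ hx => DifferentiableAt.fun_sum fun i _ => hx i⟩

theorem as1_mono (hf : as1_S a f) (hab : a ≤ b) : as1_S b f :=
  ⟨hf.1.mono hab, fun k => (hf.2.1 k).mono (by linarith), hf.2.2⟩

theorem as1_congr {ρ : ℝ} (hf : as1_S a f) (e : ∀ x, ρ < ‖x‖ → f x = f' x) : as1_S a f' :=
  ⟨hf.1.congr ((lc_ev ρ).mono e), fun k => (hf.2.1 k).congr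
    ((lc_ev ρ).mono fun _ hx => pd_congr ((ev_out hx).mono e)),
    (hf.2.2.and (lc_ev ρ)).mono fun _ hx =>
      hx.1.congr_of_eventuallyEq ((ev_out hx.2).mono fun y hy => (e y hy).symm)⟩

theorem as1_pdc (c : ℝ) (k : Fin n) : pd (fun x => f x - c) k = pd f k :=
  funext fun x => by rw [pd, fderiv_sub_const, pd]

theorem as1_comp {F : ℝ → ℝ} (hf : as1_S a f) (ha : a < 0) (hF : ContDiffAt ℝ 1 F 0) :
    as1_S a fun x => F (f x) - F 0 := by
  have h0 : OO a fun x => f x - 0 := by simpa only [sub_zero] using hf.1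
  have h1 := (h0.tendsto ha).eventually (hF.eventually (by simp))
  have h2 : OO 0 fun x => deriv F (f x) := by
    simp only [OO, Real.rpow_zero]
    exact (((hF.continuousAt_fderiv one_ne_zero).clm_apply
      (continuousAt_const (y := (1 : ℝ)))).tendsto.comp (h0.tendsto ha)).isBigO_one ℝ
  refine ⟨h0.comp ha (hF.differentiableAt one_ne_zero), fun k => ?_, (h1.and hf.2.2).mono fun x hx =>
    ((hx.1.differentiableAt one_ne_zero).comp x hx.2).sub_const _⟩
  rw [as1_pdc]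
  exact (as1_eq (h2.mul (hf.2.1 k)) (zero_add _)).congr ((h1.and hf.2.2).mono fun x hx =>
    (pd_comp (hx.1.differentiableAt one_ne_zero) hx.2).symm)

end

theorem as1_pdth {x : Euc n} (hx : 0 < ‖x‖) (j k : Fin n) :
    DifferentiableAt ℝ (fun y : Euc n => y j / ‖y‖) x ∧ pd (fun y : Euc n => y j / ‖y‖) k x =
      ((if j = k then 1 else 0) - x j / ‖x‖ * (x k / ‖x‖)) * ‖x‖⁻¹ := by
  have hx0 : x ≠ 0 := norm_pos_iff.1 hx
  have d1 : DifferentiableAt ℝ (fun y : Euc n => ‖y‖) x := differentiableAt_id.norm ℝ hx0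
  have d2 : DifferentiableAt ℝ (fun y : Euc n => y j) x := by fun_prop
  have d3 : DifferentiableAt ℝ (fun y : Euc n => ‖y‖⁻¹) x := d1.inv hx.ne'
  simp only [div_eq_mul_inv]
  refine ⟨d2.fun_mul d3, ?_⟩
  rw [pd_mul d2 d3, pd_coord, pd_comp (φ := fun r => r⁻¹) (differentiableAt_inv hx.ne') d1,
    pd_norm hx0, deriv_inv]
  field_simp
  ring

theorem as1_th (j : Fin n) : as1_S 0 fun y : Euc n => y j / ‖y‖ :=
  ⟨OO.theta j, fun k => (as1_eq (((OO.const _).sub (as1_eq ((OO.theta j).mul (OO.theta k))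
    (add_zero 0))).mul OO.inv_norm) (by ring)).congr
    ((lc_ev 0).mono fun _ hx => (as1_pdth hx j k).2.symm),
    (lc_ev 0).mono fun _ hx => (as1_pdth hx j j).1⟩

theorem as1_unit {x : Euc n} (hx : 0 < ‖x‖) : ∑ i, x i / ‖x‖ * (x i / ‖x‖) = 1 := by
  simp only [← sq, div_pow, ← Finset.sum_div]
  rw [← EuclideanSpace.real_norm_sq_eq, div_self (pow_ne_zero 2 hx.ne')]

theorem as1_one (i : Fin n) (v : Fin n → ℝ) : ∑ j, (1 : Mn n) i j * v j = v i := by
  simp [Matrix.one_apply]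

section
variable {ρ q : ℝ} {g K : Fld n} (h : Met ρ g) (hq : 0 < q) (hd : DecU q g K)
include h hq hd

theorem oo_inv (i j : Fin n) : OO (-q) (fun x => (g x)⁻¹ i j - (1 : Mn n) i j) ∧
    ∀ k, OO (-q - 1) (fun x => pd (fun y => (g y)⁻¹ i j) k x) := by
  have h1 := comp_dec h hq hd (F := fun M => (Matrix.of M)⁻¹ i j)
    (contDiffAt_inv (g := fun M : Fin n → Fin n → ℝ => Matrix.of M)
      (fun a b => (contDiff_apply_apply ℝ ℝ a b).contDiffAt)
      (by rw [show Matrix.of (fun a b => (1 : Mn n) a b) = 1 from rfl, det_one]; exact one_ne_zero) i j)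
  rw [show Matrix.of (fun a b => (1 : Mn n) a b) = 1 from rfl, inv_one] at h1
  exact h1

theorem as1_e (i j : Fin n) : as1_S (-q) fun x => (g x)⁻¹ i j - (1 : Mn n) i j :=
  ⟨(oo_inv h hq hd i j).1, fun k => by rw [as1_pdc]; exact (oo_inv h hq hd i j).2 k,
    (lc_ev ρ).mono fun _ hx => ((h.sm_inv hx i j).differentiableAt (by simp)).sub_const _⟩

theorem as1_gi (i j : Fin n) : OO 0 fun x => (g x)⁻¹ i j :=
  (oo_inv h hq hd i j).1.bdd (neg_nonpos.2 hq.le)

theorem oo_sqrt_det : OO (-q) (fun x => √((g x).det) - 1) := by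
  have h1 := (comp_dec h hq hd (F := fun M => √((Matrix.of M).det))
    ((contDiffAt_det (g := fun M : Fin n → Fin n → ℝ => Matrix.of M)
      fun a b => (contDiff_apply_apply ℝ ℝ a b).contDiffAt).sqrt
      (by rw [show Matrix.of (fun a b => (1 : Mn n) a b) = 1 from rfl, det_one]; exact one_ne_zero))).1
  rw [show Matrix.of (fun a b => (1 : Mn n) a b) = 1 from rfl, det_one, Real.sqrt_one] at h1
  exact h1

theorem oo_chr (k i j : Fin n) : OO (-q - 1) (chr g k i j) :=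
  OO.cmul _ (OO.sum _ fun l _ => as1_eq ((as1_gi h hq hd k l).mul
    (OO.sub (OO.add (hd.dg1 j l i) (hd.dg1 i l j)) (hd.dg1 i j l))) (zero_add _))

theorem oo_trchr (k : Fin n) : OO (-2 * q - 1)
    (fun x => ∑ i, chr g i i k x - (1 / 2) * ∑ i, pd (fun y => g y i i) k x) := by
  refine (OO.cmul (1 / 2) (OO.sum Finset.univ fun i _ => OO.sum Finset.univ fun j _ =>
    as1_eq ((oo_inv h hq hd i j).1.mul (hd.dg1 i j k)) (by ring))).congr
    ((lc_ev ρ).mono fun x hx => ?_)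
  simp only [chr_eq, tau_eq (h.symm hx).inv (h.dg_symm hx), sub_mul, Finset.sum_sub_distrib,
    as1_one, mul_sub]
  rfl

theorem as1_lapse : as1_S (-q) fun x => lapse g x - 1 := by
  refine as1_congr (ρ := ρ) (as1_comp (F := fun s => (√(1 + s))⁻¹) (as1_sum fun a => as1_sum fun b =>
    as1_mul0 (as1_mul0 (as1_e h hq hd a b) (as1_th b)) (as1_th a)) (neg_neg_of_pos hq)
    (((contDiffAt_const.add contDiffAt_id).sqrt (by simp)).inv (by simp))) fun x hx => ?_
  have h0 := nor_norm h hx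
  have e : 1 + ∑ a, ∑ b, ((g x)⁻¹ a b - (1 : Mn n) a b) * (x b / ‖x‖) * (x a / ‖x‖) =
      (∑ a, ∑ b, (g x)⁻¹ a b * x a * x b) / ‖x‖ ^ 2 := by
    simp only [sub_mul, Finset.sum_sub_distrib, ← Finset.sum_mul, as1_one]
    rw [as1_unit h0, add_sub_cancel]
    simp only [Finset.sum_div, Finset.sum_mul]
    exact Finset.sum_congr rfl fun a _ => Finset.sum_congr rfl fun b _ => by field_simp
  rw [e, Real.sqrt_div' _ (sq_nonneg _), Real.sqrt_sq h0.le, inv_div, add_zero, Real.sqrt_one,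
    inv_one, lapse]

/-- `lapse = (g^{ab} θ_a θ_b)^(-1/2)` and `∑ θ_a ∂_k θ_a = 0`. -/
theorem oo_lapse : OO (-q) (fun x => lapse g x - 1) ∧ ∀ k, OO (-q - 1) (pd (lapse g) k) :=
  ⟨(as1_lapse h hq hd).1, fun k => as1_pdc (f := lapse g) 1 k ▸ (as1_lapse h hq hd).2.1 k⟩

theorem as1_nl (i : Fin n) : as1_S (-q) fun x => nl g i x - x i / ‖x‖ :=
  as1_congr (ρ := ρ) (as1_mul0 (as1_lapse h hq hd) (as1_th i)) fun x _ => by
    rw [nl]
    ring

theorem as1_nu (i : Fin n) : as1_S (-q) fun x => nu g i x - x i / ‖x‖ :=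
  as1_congr (ρ := ρ) (as1_add (as1_sum fun j => as1_mul0 (as1_e h hq hd i j)
    (as1_add (as1_mono (as1_nl h hq hd j) (neg_nonpos.2 hq.le)) (as1_th j))) (as1_nl h hq hd i))
    fun x hx => by
      simp only [sub_add_cancel, sub_mul, Finset.sum_sub_distrib, as1_one, nor_nu h hx]
      ring

theorem oo_nl (i : Fin n) : OO (-q) (fun x => nl g i x - x i / ‖x‖) :=
  (as1_nl h hq hd i).1

theorem oo_nu (i : Fin n) : OO (-q) (fun x => nu g i x - x i / ‖x‖) :=
  (as1_nu h hq hd i).1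

theorem as1_nu0 (i : Fin n) : OO 0 (nu g i) :=
  (((oo_nu h hq hd i).mono (neg_nonpos.2 hq.le)).add (OO.theta i)).congr
    (Eventually.of_forall fun _ => sub_add_cancel _ _)

theorem oo_dens : OO (-q) (fun x => dens g x - 1) := by
  have h1 := (oo_lapse h hq hd).1.comp (F := fun s => s⁻¹) (neg_neg_of_pos hq)
    (differentiableAt_inv one_ne_zero)
  refine ((as1_eq ((oo_sqrt_det h hq hd).mul (h1.bdd (neg_nonpos.2 hq.le))) (add_zero _)).add
    h1).congr (Eventually.of_forall fun x => ?_)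
  rw [dens]
  ring

/-- `nu i = lapse * ∑ g^{ij} θ_j` and `∑ ∂_i θ_i = (n - 1)/r`. -/
theorem oo_meanH : OO (-q) (fun x => ‖x‖ * meanH g x - ((n : ℝ) - 1)) := by
  have h1 : OO 1 fun x : Euc n => ‖x‖ := by simpa only [Real.rpow_one] using OO.rpow (n := n) 1
  refine (as1_eq (h1.mul ((OO.sum Finset.univ fun i _ => (as1_nu h hq hd i).2.1 i).add
    (OO.sum Finset.univ fun i _ => OO.sum Finset.univ fun k _ => as1_eq
      ((oo_chr h hq hd i i k).mul (as1_nu0 h hq hd k)) (add_zero _)))) (by ring)).congr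
    ((lc_ev ρ).mono fun x hx => ?_)
  have h0 := nor_norm h hx
  simp only [fun i => pd_sub (k := i) (nor_dnu h hx i) (as1_pdth h0 i i).1,
    fun i => (as1_pdth h0 i i).2, if_true, Finset.sum_sub_distrib, ← Finset.sum_mul, as1_unit h0,
    meanH, Finset.sum_const, Finset.card_univ, Fintype.card_fin, nsmul_eq_mul, mul_one]
  field_simp
  ring

theorem oo_trK : OO (-q - 1) (trK g K) :=
  OO.sum _ fun i _ => OO.sum _ fun j _ =>
    as1_eq ((as1_gi h hq hd i j).mul (hd.dK i j)) (zero_add _)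

theorem as1_Knn : OO (-q - 1) fun x => ∑ i, ∑ j, K x i j * nu g i x * nu g j x :=
  OO.sum _ fun i _ => OO.sum _ fun j _ =>
    as1_eq ((OO.mul (hd.dK i j) (as1_nu0 h hq hd i)).mul (as1_nu0 h hq hd j)) (by ring)

theorem oo_trS : OO (-q - 1) (trS g K) :=
  (oo_trK h hq hd).sub (as1_Knn h hq hd)

theorem oo_Xv (i : Fin n) : OO (-q - 1) (Xv g K i) :=
  (OO.sum _ fun j _ => OO.sum _ fun l _ => as1_eq
    (((as1_gi h hq hd i j).mul (hd.dK j l)).mul (as1_nu0 h hq hd l)) (by ring)).sub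
    (as1_eq ((as1_Knn h hq hd).mul (as1_nu0 h hq hd i)) (add_zero _))

theorem oo_mom (i : Fin n) : OO (-2 * q - 1) (fun x => ∑ j, mom g K x i j * (x j / ‖x‖)
    - (Xv g K i x - trS g K x * (x i / ‖x‖))) := by
  refine ((((as1_eq ((as1_Knn h hq hd).mul (oo_nu h hq hd i)) (by ring)).sub
    (OO.sum Finset.univ fun l _ => as1_eq (OO.mul (hd.dK i l) (oo_nu h hq hd l)) (by ring))).sub
    (OO.sum Finset.univ fun j _ => as1_eq ((oo_inv h hq hd i j).1.mul
      (OO.sum Finset.univ fun l _ => OO.mul (hd.dK j l) (as1_nu0 h hq hd l))) (by ring))).sub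
    (as1_eq ((oo_trK h hq hd).mul (OO.sum Finset.univ fun j _ =>
      OO.mul (hd.dg0 i j) (OO.theta j))) (by ring))).congr (Eventually.of_forall fun x => ?_)
  have e : ∑ j, ∑ l, (g x)⁻¹ i j * K x j l * nu g l x =
      ∑ j, (g x)⁻¹ i j * ∑ l, K x j l * nu g l x := by
    simp only [Finset.mul_sum, mul_assoc]
  simp only [mom, Xv, trS, e, Matrix.sub_apply, Matrix.smul_apply, smul_eq_mul, sub_mul, mul_sub,
    Finset.sum_sub_distrib, as1_one, mul_assoc (trK g K x), ← Finset.mul_sum]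
  ring

end

end Vale.Agent.P366
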