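import Vale.Agent.P366I.Sm0

/-! Smoothness of the spinorial quantities and of the weight. -/

noncomputable section

open Matrix MeasureTheory Set Filter Topology Asymptotics
open scoped ContDiff

namespace Vale.Agent.P366

variable {n : ℕ} {ι : Type} [Fintype ι] [DecidableEq ι]

section
variable {x : Euc n} {A B : Euc n → Ms ι} {ψ χ : Euc n → ι → ℝ} {f : Euc n → ℝ}

/-- Smooth vector fields at a point. -/
def sm1_V (x : Euc n) (ψ : Euc n → ι → ℝ) : Prop := ∀ s, ContDiffAt ℝ ∞ (fun y => ψ y s) x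

/-- Smooth matrix fields at a point. -/
def sm1_M (x : Euc n) (A : Euc n → Ms ι) : Prop := ∀ s t, ContDiffAt ℝ ∞ (fun y => A y s t) x

omit [DecidableEq ι] in
theorem sm1_dot (hψ : sm1_V x ψ) (hχ : sm1_V x χ) : ContDiffAt ℝ ∞ (fun y => ψ y ⬝ᵥ χ y) x :=
  ContDiffAt.sum fun s _ => (hψ s).mul (hχ s)

omit [DecidableEq ι] in
theorem sm1_mv (hA : sm1_M x A) (hψ : sm1_V x ψ) : sm1_V x fun y => A y *ᵥ ψ y :=
  fun s => ContDiffAt.sum fun t _ => (hA s t).mul (hψ t)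

omit [DecidableEq ι] in
theorem sm1_mm (hA : sm1_M x A) (hB : sm1_M x B) : sm1_M x fun y => A y * B y :=
  fun s t => ContDiffAt.sum fun u _ => (hA s u).mul (hB u t)

omit [Fintype ι] [DecidableEq ι] in
theorem sm1_vadd (hψ : sm1_V x ψ) (hχ : sm1_V x χ) : sm1_V x fun y => ψ y + χ y :=
  fun s => (hψ s).add (hχ s)

omit [Fintype ι] [DecidableEq ι] in
theorem sm1_vsub (hψ : sm1_V x ψ) (hχ : sm1_V x χ) : sm1_V x fun y => ψ y - χ y :=
  fun s => (hψ s).sub (hχ s)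

omit [Fintype ι] [DecidableEq ι] in
theorem sm1_vsmul (hf : ContDiffAt ℝ ∞ f x) (hψ : sm1_V x ψ) : sm1_V x fun y => f y • ψ y :=
  fun s => hf.mul (hψ s)

omit [Fintype ι] [DecidableEq ι] in
theorem sm1_vsum {P : Euc n → Fin n → ι → ℝ} (hP : ∀ k, sm1_V x fun y => P y k) :
    sm1_V x fun y => ∑ k, P y k := fun s => by
  simp only [Finset.sum_apply]
  exact ContDiffAt.sum fun k _ => hP k s

omit [Fintype ι] [DecidableEq ι] in
theorem sm1_madd (hA : sm1_M x A) (hB : sm1_M x B) : sm1_M x fun y => A y + B y :=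
  fun s t => (hA s t).add (hB s t)

omit [Fintype ι] [DecidableEq ι] in
theorem sm1_msmul (hf : ContDiffAt ℝ ∞ f x) (hA : sm1_M x A) : sm1_M x fun y => f y • A y :=
  fun s t => hf.mul (hA s t)

omit [Fintype ι] [DecidableEq ι] in
theorem sm1_msum {P : Euc n → Fin n → Ms ι} (hP : ∀ k, sm1_M x fun y => P y k) :
    sm1_M x fun y => ∑ k, P y k := fun s t => by
  simp only [Matrix.sum_apply]
  exact ContDiffAt.sum fun k _ => hP k s t

omit [Fintype ι] [DecidableEq ι] in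
theorem sm1_mconst (C : Ms ι) : sm1_M x fun _ => C := fun _ _ => contDiffAt_const

end

section
variable {ρ : ℝ} {g : Fld n} {γ S : Euc n → Fin n → Ms ι} (h : Geo ρ g γ S)
include h

theorem Geo.sm_ns {x : Euc n} (hx : ρ < ‖x‖) (s t : ι) :
    ContDiffAt ℝ ∞ (fun y => ns g γ y s t) x := by

  exact sm1_msum (P := fun y j => nl g j y • γ y j)
    (fun j => sm1_msmul (h.met.sm_nl hx j) (h.smγ x hx j)) s t

theorem Geo.sm_bt {x : Euc n} (hx : ρ < ‖x‖) (k : Fin n) (s t : ι) :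
    ContDiffAt ℝ ∞ (fun y => bt g γ y k s t) x := by

  exact sm1_madd (sm1_mm (h.sm_ns hx) (h.smγ x hx k))
    (sm1_msmul (h.met.sm_nu hx k) (sm1_mconst 1)) s t

theorem Geo.sm_Zm {x : Euc n} (hx : ρ < ‖x‖) (s t : ι) :
    ContDiffAt ℝ ∞ (fun y => Zm g γ S y s t) x := by

  exact sm1_msum (P := fun y k => bt g γ y k * S y k)
    (fun k => sm1_mm (h.sm_bt hx k) (h.smS x hx k)) s t

variable {ψ : Euc n → ι → ℝ} (hψ : SmU ρ ψ)
include hψ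

theorem Geo.smU_cov (k : Fin n) : SmU ρ (fun x => cov S ψ x k) := by

  intro x hx
  exact sm1_vadd (ψ := pdV ψ k) (fun s => contDiffAt_pd (hψ x hx s) k)
    (sm1_mv (h.smS x hx k) (hψ x hx))

theorem Geo.smU_ns : SmU ρ (fun x => ns g γ x *ᵥ ψ x) := by

  intro x hx
  exact sm1_mv (h.sm_ns hx) (hψ x hx)

theorem Geo.smU_DS : SmU ρ (DS g γ S ψ) := by

  intro x hx
  have h1 : ContDiffAt ℝ ∞ (fun y => trA (g y)⁻¹ (sff g y) / 2) x :=
    (ContDiffAt.sum fun k _ => ContDiffAt.sum fun j _ =>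
      (h.met.sm_inv hx k j).mul (h.met.sm_sff hx k j)).div_const 2
  exact sm1_vadd (sm1_vsum (P := fun y k => bt g γ y k *ᵥ cov S ψ y k)
    fun k => sm1_mv (h.sm_bt hx k) (h.smU_cov hψ k x hx)) (sm1_vsmul h1 (hψ x hx))

theorem Geo.smU_pn : SmU ρ (pn g S ψ) := by

  intro x hx
  exact sm1_vsum (P := fun y k => nu g k y • cov S ψ y k)
    fun k => sm1_vsmul (h.met.sm_nu hx k) (h.smU_cov hψ k x hx)

theorem Geo.smU_ba : SmU ρ (ba g γ ψ) := by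

  intro x hx
  exact sm1_vsum (P := fun y k => acc g y k • (bt g γ y k *ᵥ ψ y))
    fun k => sm1_vsmul (h.met.sm_acc hx k) (sm1_mv (h.sm_bt hx k) (hψ x hx))


theorem sm1_cT {x : Euc n} (hx : ρ < ‖x‖) (k : Fin n) : sm1_V x fun y => cT g γ S ψ y k :=
  sm1_vsub (sm1_vsub (h.smU_cov hψ k x hx) (sm1_vsmul (h.met.sm_nl hx k) (h.smU_pn hψ x hx)))
    (sm1_vsmul (f := fun _ => (1 / 2 : ℝ)) contDiffAt_const
      (sm1_vsum (P := fun y j => sff g y k j • (bt g γ y j *ᵥ ψ y))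
        fun j => sm1_vsmul (h.met.sm_sff hx k j) (sm1_mv (h.sm_bt hx j) (hψ x hx))))

theorem Geo.sm_nT {x : Euc n} (hx : ρ < ‖x‖) : ContDiffAt ℝ ∞ (nT g γ S ψ) x := by

  unfold nT nTA
  exact ContDiffAt.sum fun k _ => ContDiffAt.sum fun l _ =>
    (h.met.sm_inv hx k l).mul (sm1_dot (sm1_cT h hψ hx k) (sm1_cT h hψ hx l))

theorem Geo.sm_cr {x : Euc n} (hx : ρ < ‖x‖) : ContDiffAt ℝ ∞ (cr g γ S ψ) x := by

  unfold cr crA
  exact ContDiffAt.sum fun k _ => ContDiffAt.sum fun l _ => ContDiffAt.sum fun j _ =>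
    ((h.met.sm_inv hx k l).mul (h.met.sm_sff hx l j)).mul
      (sm1_dot (sm1_cT h hψ hx k) (sm1_mv (h.sm_bt hx j) (hψ x hx)))

theorem Geo.sm_wit {x : Euc n} (hx : ρ < ‖x‖) (k : Fin n) :
    ContDiffAt ℝ ∞ (wit g γ S ψ k) x := by

  exact sm1_dot (hψ x hx) (sm1_vsum
    (P := fun y l => ((g y)⁻¹ k l • (1 : Ms ι) + γ y k * γ y l) *ᵥ cov S ψ y l)
    fun l => sm1_mv (sm1_madd (sm1_msmul (h.met.sm_inv hx k l) (sm1_mconst 1))
      (sm1_mm (h.smγ x hx k) (h.smγ x hx l))) (h.smU_cov hψ l x hx))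

end

theorem SmU.dot {ρ : ℝ} {ψ χ : Euc n → ι → ℝ} (hψ : SmU ρ ψ) (hχ : SmU ρ χ) {x : Euc n}
    (hx : ρ < ‖x‖) : ContDiffAt ℝ ∞ (fun y => ψ y ⬝ᵥ χ y) x := by

  exact sm1_dot (hψ x hx) (hχ x hx)

section
variable {ρ : ℝ} {g K : Fld n} {η κ : ℝ → ℝ} (h : Sh ρ g K η κ) {x : Euc n} (hx : ρ < ‖x‖)
include h hx

theorem Sh.wf_eq : wf g K x = √(η ‖x‖ ^ 2 - κ ‖x‖ ^ 2) / lapse g x := by

  have hl := h.met.lapse_pos hx
  have e : η ‖x‖ ^ 2 - κ ‖x‖ ^ 2 = lapse g x ^ 2 * (meanH g x ^ 2 - trS g K x ^ 2) := by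
    rw [← h.hη x hx, ← h.hκ x hx]
    ring
  rw [e, Real.sqrt_mul (sq_nonneg _), Real.sqrt_sq hl.le, mul_div_cancel_left₀ _ hl.ne', wf]

theorem Sh.xi_pos : 0 < η ‖x‖ ^ 2 - κ ‖x‖ ^ 2 := by

  have h1 := h.un _ hx
  have h2 := abs_nonneg (κ ‖x‖)
  rw [← sq_abs (κ ‖x‖)]
  nlinarith

theorem Sh.wf_pos : 0 < wf g K x := by

  rw [h.wf_eq hx]
  exact div_pos (Real.sqrt_pos.2 (h.xi_pos hx)) (h.met.lapse_pos hx)

theorem Sh.wf_sq : wf g K x ^ 2 = meanH g x ^ 2 - trS g K x ^ 2 := by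

  exact Real.sq_sqrt (Real.sqrt_pos.1 (h.wf_pos hx)).le

theorem Sh.sm_wf : ContDiffAt ℝ ∞ (wf g K) x := by

  exact (((h.met.sm_meanH hx).pow 2).sub (((h.met.sm_trS hx (h.smK x hx)).2.1).pow 2)).sqrt
    (Real.sqrt_pos.1 (h.wf_pos hx)).ne'

theorem Sh.rho_pos : 0 < rho g K x := by

  exact inv_pos.2 (Real.sqrt_pos.2 (mul_pos (h.wf_pos hx) (h.met.Jf_pos hx)))

theorem Sh.sm_rho : ContDiffAt ℝ ∞ (rho g K) x := by

  have hp := mul_pos (h.wf_pos hx) (h.met.Jf_pos hx)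
  exact (((h.sm_wf hx).mul (h.met.sm_Jf hx)).sqrt hp.ne').inv (Real.sqrt_pos.2 hp).ne'

omit hx in
theorem Sh.smU_exs {φ : Euc n → ι → ℝ} (hφ : Sm φ) : SmU ρ (exs g K φ) := by

  intro x hx s
  have h0 : 0 < ‖x‖ := h.met.pos.trans hx
  have h1 : ContDiffAt ℝ ∞ (fun y : Euc n => ‖y‖⁻¹ • y) x :=
    ((contDiffAt_norm ℝ (norm_pos_iff.1 h0)).inv h0.ne').smul contDiffAt_id
  have h2 : ‖‖x‖⁻¹ • x‖ = 1 := by
    rw [norm_smul, norm_inv, norm_norm, inv_mul_cancel₀ h0.ne']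
  exact (h.sm_rho hx).mul (ContDiffAt.comp (g := fun y => φ y s) x (hφ _ h2 s) h1)

end

end Vale.Agent.P366
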