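import Vale.Agent.P366I.Sph1

/-! The divergence theorem for Euclidean spherical shells. -/

noncomputable section

open Matrix MeasureTheory Set Filter Topology Asymptotics
open scoped ContDiff

namespace Vale.Agent.P366

variable {n : ℕ} {ι : Type} [Fintype ι] [DecidableEq ι]

theorem sph2_fd (f : Euc n → ℝ) (x v : Euc n) : ∑ k, pd f k x * v k = fderiv ℝ f x v := by
  conv_rhs => rw [← (EuclideanSpace.basisFun (Fin n) ℝ).sum_repr v]
  simp [pd, mul_comm]

theorem sph2_norm {s : ℝ} (hs : 0 < s) (θ : Metric.sphere (0 : Euc n) 1) :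
    ‖s • (θ : Euc n)‖ = s := norm_smul_sph hs (by simp)

/-- `hasDerivAt_integral_of_dominated_loc_of_deriv_le` on a compact shell. -/
theorem sph_hasDeriv {ρ t : ℝ} (hρ : 0 < ρ) (ht : ρ < t) {f : Euc n → ℝ}
    (hf : ∀ x : Euc n, ρ < ‖x‖ → ContDiffAt ℝ ∞ f x) :
    HasDerivAt (fun s : ℝ => ∫ θ, f (s • (θ : Euc n)) ∂(sph n))
      (∫ θ, ∑ k, pd f k (t • (θ : Euc n)) * (θ : Euc n) k ∂(sph n)) t := by
  have : IsFiniteMeasure (sph n) := by unfold sph; infer_instance
  have hc : ∀ x : Euc n, ρ < ‖x‖ → ContinuousAt (fderiv ℝ f) x := fun x hx =>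
    ((hf x hx).fderiv_right (m := ∞) le_rfl).continuousAt
  have hK : IsCompact (Metric.closedBall (0 : Euc n) (t + 1) ∩ {x | (ρ + t) / 2 ≤ ‖x‖}) :=
    (isCompact_closedBall _ _).inter_right (isClosed_le continuous_const continuous_norm)
  obtain ⟨C, hC⟩ := hK.exists_bound_of_continuousOn (f := fderiv ℝ f) fun x hx =>
    (hc x (lt_of_lt_of_le (by linarith) hx.2)).continuousWithinAt
  have hI : ∀ s, ρ < s → Integrable (fun θ : Metric.sphere (0 : Euc n) 1 => f (s • (θ : Euc n)))
      (sph n) := fun s hs => CS.integrable (hρ.trans hs) fun x hx => (hf x (hx ▸ hs)).continuousAt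
  simp only [sph2_fd]
  refine (hasDerivAt_integral_of_dominated_loc_of_deriv_le (s := Icc ((ρ + t) / 2) (t + 1))
    (bound := fun _ => C) (F' := fun s θ => fderiv ℝ f (s • (θ : Euc n)) θ)
    (Icc_mem_nhds (by linarith) (by linarith))
    ((lt_mem_nhds ht).mono fun s hs => (hI s hs).aestronglyMeasurable) (hI t ht) ?_
    (Eventually.of_forall fun θ s hs => ?_) (integrable_const C)
    (Eventually.of_forall fun θ s hs => ?_)).2
  · refine Continuous.aestronglyMeasurable (continuous_iff_continuousAt.2 fun θ => ?_)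
    refine ContinuousAt.clm_apply ?_ continuous_subtype_val.continuousAt
    exact ContinuousAt.comp (f := fun θ : Metric.sphere (0 : Euc n) 1 => t • (θ : Euc n))
      (hc _ ((sph2_norm (hρ.trans ht) θ).symm ▸ ht)) (by fun_prop)
  · have h0 : 0 < s := by linarith [hs.1]
    refine (ContinuousLinearMap.le_opNorm _ _).trans ?_
    rw [norm_eq_of_mem_sphere, mul_one]
    exact hC _ ⟨mem_closedBall_zero_iff.2 ((sph2_norm h0 θ).trans_le hs.2),
      hs.1.trans (sph2_norm h0 θ).ge⟩
  · have h0 : ρ < s := by linarith [hs.1]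
    have h1 := ((hf _ ((sph2_norm (hρ.trans h0) θ).symm ▸ h0)).differentiableAt
      (by simp)).hasFDerivAt.comp_hasDerivAt s ((hasDerivAt_id s).smul_const (θ : Euc n))
    rw [one_smul] at h1
    exact h1

/-- `integral_mul_fderiv_eq_neg_fderiv_mul_of_integrable` or `integral_fderiv_eq_zero`. -/
theorem int_pd_zero {f : Euc n → ℝ} (hf : ContDiff ℝ ∞ f) (hc : HasCompactSupport f) (k : Fin n) :
    ∫ x, pd f k x = 0 := by
  have h1 : Integrable (pd f k) :=
    (continuous_iff_continuousAt.2 fun x =>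
      (contDiffAt_pd hf.contDiffAt k).continuousAt).integrable_of_hasCompactSupport
      (hc.fderiv_apply ℝ _)
  have h2 := integral_mul_fderiv_eq_neg_fderiv_mul_of_integrable (μ := volume)
    (f := fun _ : Euc n => (1 : ℝ)) (g := f) (v := EuclideanSpace.single k 1) (by simp)
    (by simp only [one_mul]; exact h1) (by simpa using hf.continuous.integrable_of_hasCompactSupport hc)
    (fun _ _ => differentiableAt_const _) fun x _ => hf.differentiable (by simp) x
  simpa [pd] using h2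

theorem sph2_int {ρ : ℝ} {η φ : ℝ → ℝ} (hη : Continuous η) (hc : HasCompactSupport η)
    (hs : tsupport η ⊆ Ioi ρ) (hφ : ContinuousOn φ (Ioi ρ)) : Integrable fun s => η s * φ s :=
  ((hη.continuousOn.mul hφ).continuous_of_tsupport_subset isOpen_Ioi
    (tsupport_mul_subset_left.trans hs)).integrable_of_hasCompactSupport hc.mul_right

/-- The weak form of the divergence theorem. -/
theorem sph2_weak (hn : 0 < n) {ρ : ℝ} (hρ : 0 < ρ) {V : Fin n → Euc n → ℝ}
    (hV : ∀ x : Euc n, ρ < ‖x‖ → ∀ k, ContDiffAt ℝ ∞ (V k) x) {ζ : ℝ → ℝ} (hζ : ContDiff ℝ ∞ ζ)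
    (hc : HasCompactSupport ζ) (hs : tsupport ζ ⊆ Ioi ρ) :
    ∫ s, (ζ s * sInt s (fun x => ∑ k, pd (V k) k x) +
      deriv ζ s * sInt s (fun x => ∑ k, V k x * x k / ‖x‖)) = 0 := by
  have z0 : ∀ s, ¬ρ < s → ζ =ᶠ[𝓝 s] 0 := fun s h => notMem_tsupport_iff_eventuallyEq.1 fun h' =>
    h (hs h')
  have z1 : ∀ s, ¬ρ < s → ζ s = 0 := fun s h => (z0 s h).eq_of_nhds
  have z2 : ∀ s, ¬ρ < s → deriv ζ s = 0 := fun s h => by rw [(z0 s h).deriv_eq]; simp
  have z3 : ∀ k (x : Euc n), ¬ρ < ‖x‖ → (fun y => ζ ‖y‖ * V k y) =ᶠ[𝓝 x] fun _ => 0 :=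
    fun k x h => (continuous_norm.continuousAt.eventually (z0 _ h)).mono fun y hy =>
      mul_eq_zero_of_left hy _
  have w1 : ∀ k, ContDiff ℝ ∞ fun y : Euc n => ζ ‖y‖ * V k y := fun k =>
    contDiff_iff_contDiffAt.2 fun x => by
      by_cases h : ρ < ‖x‖
      · exact (hζ.contDiffAt.comp x (contDiffAt_norm ℝ (norm_pos_iff.1 (hρ.trans h)))).mul
          (hV x h k)
      · exact contDiffAt_const.congr_of_eventuallyEq (z3 k x h)
  obtain ⟨R, hR⟩ := hc.isCompact.isBounded.exists_norm_le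
  have w2 : ∀ k, HasCompactSupport fun y : Euc n => ζ ‖y‖ * V k y := fun k =>
    HasCompactSupport.intro (isCompact_closedBall 0 R) fun y hy => by
      by_contra h0
      exact hy (mem_closedBall_zero_iff.2 ((le_abs_self _).trans
        (hR _ (subset_tsupport ζ (left_ne_zero_of_mul h0)))))
  have w3 : ∀ k, Integrable (pd (fun y : Euc n => ζ ‖y‖ * V k y) k) := fun k =>
    (continuous_iff_continuousAt.2 fun x =>
      (contDiffAt_pd (w1 k).contDiffAt k).continuousAt).integrable_of_hasCompactSupport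
      ((w2 k).fderiv_apply ℝ _)
  have h1 := (polar hn (integrable_finsetSum Finset.univ fun k _ => w3 k)).2
  rw [integral_finsetSum _ fun k _ => w3 k, Finset.sum_eq_zero fun k _ =>
    int_pd_zero (w1 k) (w2 k) k] at h1
  rw [← setIntegral_eq_integral_of_forall_compl_eq_zero (s := Ioi 0) fun s hs => by
    have : ¬ρ < s := fun h => hs (hρ.trans h)
    rw [z1 s this, z2 s this, zero_mul, zero_mul, add_zero]]
  refine (setIntegral_congr_fun measurableSet_Ioi fun s hs0 => ?_).trans h1.symm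
  by_cases h : ρ < s
  · have c1 : CS s fun x => ζ s * ∑ k, pd (V k) k x := fun x hx => continuousAt_const.mul
      (ContDiffAt.sum fun k _ => contDiffAt_pd (hV x (hx ▸ h) k) k).continuousAt
    have c2 : CS s fun x => deriv ζ s * ∑ k, V k x * x k / ‖x‖ := fun x hx => continuousAt_const.mul
      (ContDiffAt.sum fun k _ => ((hV x (hx ▸ h) k).mul (sm0_co k)).div
        (contDiffAt_norm ℝ (norm_pos_iff.1 (hx ▸ hs0))) (hx ▸ ne_of_gt hs0)).continuousAt
    simp only
    rw [← sInt_cmul, ← sInt_cmul, ← sInt_add hs0 c1 c2]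
    refine sInt_congr hs0 fun x hx => ?_
    have hx0 : x ≠ 0 := norm_pos_iff.1 (hx ▸ hs0)
    have d1 : DifferentiableAt ℝ (fun y : Euc n => ‖y‖) x :=
      (contDiffAt_norm (n := 1) ℝ hx0).differentiableAt one_ne_zero
    have d2 : DifferentiableAt ℝ ζ ‖x‖ := hζ.differentiable (by simp) _
    rw [Finset.mul_sum, Finset.mul_sum, ← Finset.sum_add_distrib]
    refine Finset.sum_congr rfl fun k _ => ?_
    rw [pd_mul (f := fun y => ζ ‖y‖) (d2.comp x d1) ((hV x (hx ▸ h) k).differentiableAt (by simp)), pd_comp d2 d1,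
      pd_norm hx0, hx]
    ring
  · simp only
    rw [z1 s h, z2 s h, zero_mul, zero_mul, add_zero, sInt_congr hs0 (h := fun _ => 0), sInt_cst,
      mul_zero]
    exact fun x hx => Finset.sum_eq_zero fun k _ => by
      rw [pd_congr (z3 k x (hx ▸ h)), pd_const]

/-- The sphere integral of a smooth function is continuously differentiable. -/
theorem sph2_c1 {ρ : ℝ} (hρ : 0 < ρ) {f : Euc n → ℝ}
    (hf : ∀ x : Euc n, ρ < ‖x‖ → ContDiffAt ℝ ∞ f x) : ∃ F' : ℝ → ℝ, ContinuousOn F' (Ioi ρ) ∧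
      ∀ s, ρ < s → HasDerivAt (fun s => sInt s f) (F' s) s := by
  refine ⟨fun s => ((n - 1 : ℕ) * s ^ (n - 1 - 1)) * (sInt s f / s ^ (n - 1)) +
    sInt s (fun x => ∑ k, pd f k x * x k / ‖x‖), fun s hs => ?_, fun s hs => ?_⟩
  · have h0 : 0 < s := hρ.trans hs
    refine ContinuousAt.continuousWithinAt (ContinuousAt.add (ContinuousAt.mul (by fun_prop)
      ((sInt_cont hρ hs fun x hx => (hf x hx).continuousAt).div (by fun_prop) (by positivity)))
      (sInt_cont hρ hs fun x hx => ?_))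
    exact (ContDiffAt.sum fun k _ => ((contDiffAt_pd (hf x hx) k).mul (sm0_co k)).div
      (contDiffAt_norm ℝ (norm_pos_iff.1 (hρ.trans hx))) (hρ.trans hx).ne').continuousAt
  · have h0 : 0 < s := hρ.trans hs
    have h1 := (hasDerivAt_pow (n - 1) s).mul (sph_hasDeriv hρ hs hf)
    refine h1.congr_deriv ?_
    refine (congrArg₂ (· + ·) ?_ ?_).symm
    · rw [sInt, mul_div_cancel_left₀ _ (by positivity)]
    · rw [sInt]
      congr 2
      funext θ
      refine Finset.sum_congr rfl fun k _ => ?_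
      rw [sph2_norm h0, PiLp.smul_apply, smul_eq_mul]
      field_simp

/-- The flux `F` is `C^1` on `(ρ, ∞)` (`sph_hasDeriv`, `sInt_cont`). For `ζ` smooth with compact
support in `(ρ, ∞)`, `int_pd_zero` for `ζ ‖x‖ * V k x` and `polar` give `∫ ζ D + ζ' F = 0`; integrate
by parts in one variable and use `IsOpen.ae_eq_zero_of_integral_contDiff_smul_eq_zero` and
continuity. -/
theorem sInt_div (hn : 0 < n) {ρ t : ℝ} (hρ : 0 < ρ) (ht : ρ < t) {V : Fin n → Euc n → ℝ}
    (hV : ∀ x : Euc n, ρ < ‖x‖ → ∀ k, ContDiffAt ℝ ∞ (V k) x) :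
    HasDerivAt (fun s => sInt s (fun x => ∑ k, V k x * x k / ‖x‖))
      (sInt t (fun x => ∑ k, pd (V k) k x)) t := by
  obtain ⟨F', hc, hd⟩ := sph2_c1 hρ (f := fun x => ∑ k, V k x * x k / ‖x‖) fun x hx =>
    ContDiffAt.sum fun k _ => ((hV x hx k).mul (sm0_co k)).div
      (contDiffAt_norm ℝ (norm_pos_iff.1 (hρ.trans hx))) (hρ.trans hx).ne'
  have cD : ContinuousOn (fun s => sInt s (fun x => ∑ k, pd (V k) k x)) (Ioi ρ) := fun s hs =>
    (sInt_cont hρ hs fun x hx =>
      (ContDiffAt.sum fun k _ => contDiffAt_pd (hV x hx k) k).continuousAt).continuousWithinAt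
  have cF : ContinuousOn (fun s => sInt s (fun x => ∑ k, V k x * x k / ‖x‖)) (Ioi ρ) :=
    fun s hs => (hd s hs).continuousAt.continuousWithinAt
  have h1 := isOpen_Ioi.ae_eq_zero_of_integral_contDiff_smul_eq_zero (μ := volume)
    ((cD.sub hc).locallyIntegrableOn measurableSet_Ioi) fun ζ hζ hk hs => by
      have i1 := sph2_int hζ.continuous hk hs cD
      have i2 := sph2_int (hζ.continuous_deriv (by simp)) hk.deriv
        (tsupport_deriv_subset.trans hs) cF
      have i3 := sph2_int hζ.continuous hk hs hc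
      have h2 := sph2_weak hn hρ hV hζ hk hs
      have h3 := integral_mul_deriv_eq_deriv_mul_of_integrable (u := ζ) (u' := deriv ζ)
        (fun s _ => (hζ.differentiable (by simp) s).hasDerivAt) (fun s h => hd s (hs h)) i3 i2
        (sph2_int hζ.continuous hk hs cF)
      rw [integral_add i1 i2] at h2
      simp only [Pi.sub_apply, smul_eq_mul, mul_sub]
      rw [integral_sub i1 i3, h3]
      linarith
  have h4 := Measure.eqOn_open_of_ae_eq ((ae_restrict_iff' measurableSet_Ioi).2 h1) isOpen_Ioi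
    (cD.sub hc) continuousOn_const ht
  exact (hd t ht).congr_deriv (sub_eq_zero.1 h4).symm

theorem sInt_div_tan (hn : 0 < n) {ρ t : ℝ} (hρ : 0 < ρ) (ht : ρ < t) {V : Fin n → Euc n → ℝ}
    (hV : ∀ x : Euc n, ρ < ‖x‖ → ∀ k, ContDiffAt ℝ ∞ (V k) x)
    (h0 : ∀ x : Euc n, ρ < ‖x‖ → ∑ k, V k x * x k = 0) :
    sInt t (fun x => ∑ k, pd (V k) k x) = 0 := by
  refine (sInt_div hn hρ ht hV).unique ((hasDerivAt_const t (0 : ℝ)).congr_of_eventuallyEq ?_)
  filter_upwards [lt_mem_nhds ht] with s hs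
  rw [sInt_congr (hρ.trans hs) (h := fun _ => 0), sInt_cst, mul_zero]
  intro x hx
  rw [← Finset.sum_div, h0 x (hx ▸ hs), zero_div]

/-- The field `‖x‖ ^ 2 e_i - x_i x` is tangential with divergence `(1 - n) x_i`. -/
theorem sInt_coord (hn : 2 ≤ n) {t : ℝ} (ht : 0 < t) (i : Fin n) :
    sInt t (fun x : Euc n => x i) = 0 := by
  have hc : ∀ (x : Euc n) (j : Fin n), DifferentiableAt ℝ (fun y : Euc n => y j) x := fun x j =>
    (sm0_co j).differentiableAt (by simp)
  have h1 := sInt_div_tan (by omega) (half_pos ht) (half_lt_self ht)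
    (V := fun k (x : Euc n) => (if k = i then 1 else 0) * ∑ j, x j * x j - x i * x k)
    (fun x _ k => (contDiffAt_const.mul (ContDiffAt.sum fun j _ =>
      (sm0_co j).mul (sm0_co j))).sub ((sm0_co i).mul (sm0_co k))) fun x _ => by
      simp only [sub_mul, Finset.sum_sub_distrib, ite_mul, one_mul, zero_mul, Finset.sum_ite_eq',
        Finset.mem_univ, if_true, mul_assoc, ← Finset.mul_sum]
      ring
  rw [sInt_congr ht (h := fun x => (1 - (n : ℝ)) * x i), sInt_cmul] at h1
  · refine (mul_eq_zero.1 h1).resolve_left ?_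
    have : (2 : ℝ) ≤ n := by exact_mod_cast hn
    linarith
  · intro x _
    have d : DifferentiableAt ℝ (fun y : Euc n => ∑ j, y j * y j) x := by fun_prop
    have e : ∀ k, pd (fun x : Euc n => (if k = i then 1 else 0) * ∑ j, x j * x j - x i * x k) k x =
        (if k = i then x i else 0) - x i := fun k => by
      rw [pd_sub (d.const_mul _) ((hc x i).fun_mul (hc x k)), pd_cmul _ d,
        pd_sum _ fun j _ => (hc x j).fun_mul (hc x j), pd_mul (hc x i) (hc x k)]
      simp only [pd_mul (hc x _) (hc x _), pd_coord]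
      by_cases h : k = i
      · subst h
        simp [Finset.sum_add_distrib]
      · simp [h, Ne.symm h]
    simp only [e, Finset.sum_sub_distrib, Finset.sum_ite_eq', Finset.mem_univ, if_true,
      Finset.sum_const, Finset.card_univ, Fintype.card_fin, nsmul_eq_mul]
    ring

end Vale.Agent.P366
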