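import Vale.Agent.P366I.Spin2

/-! The Lichnerowicz curvature term and the trace of the boundary term. -/

noncomputable section

open Matrix MeasureTheory Set Filter Topology Asymptotics
open scoped ContDiff

namespace Vale.Agent.P366

variable {n : ℕ} {ι : Type} [Fintype ι] [DecidableEq ι]

omit [DecidableEq ι] in
theorem spin3_sig_smul (c : Fin n → Ms ι) (r : ℝ) (w : Mn n) : sig c (r • w) = r • sig c w := by
  simp only [sig, Finset.smul_sum, smul_smul, Matrix.smul_apply, smul_eq_mul, mul_left_comm r]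

theorem spin3_sig_sum {α : Type} (c : Fin n → Ms ι) (s : Finset α) (w : α → Mn n) :
    sig c (∑ a ∈ s, w a) = ∑ a ∈ s, sig c (w a) := by
  classical
  induction s using Finset.induction_on with
  | empty => simp [sig]
  | insert a s ha ih => rw [Finset.sum_insert ha, Finset.sum_insert ha, sig_add, ih]

omit [DecidableEq ι] in
theorem spin3_pd_sig (c : Fin n → Ms ι) {w : Euc n → Mn n} {x : Euc n}
    (hw : ∀ i j, DifferentiableAt ℝ (fun y => w y i j) x) (k : Fin n) :
    pdM (fun y => sig c (w y)) k x = sig c (pdM w k x) := by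
  ext s t
  have e : ∀ (v : Mn n), sig c v s t = ∑ a, ∑ b, (-(1 / 4) * (c a * c b) s t) * v a b := fun v => by
    simp only [sig, Matrix.sum_apply, Matrix.smul_apply, smul_eq_mul]
    exact Finset.sum_congr rfl fun a _ => Finset.sum_congr rfl fun b _ => by ring
  rw [e]
  simp only [pdM, Matrix.of_apply, e]
  rw [pd_sum _ fun a _ => DifferentiableAt.fun_sum fun b _ => (hw a b).const_mul _]
  refine Finset.sum_congr rfl fun a _ => ?_
  rw [pd_sum _ fun b _ => (hw a b).const_mul _]
  exact Finset.sum_congr rfl fun b _ => pd_cmul _ (hw a b)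

theorem spin3_pd_skew {w : Euc n → Mn n} {x : Euc n}
    (hw : ∀ i j, DifferentiableAt ℝ (fun y => w y i j) x) (hs : ∀ᶠ y in 𝓝 x, (w y)ᵀ = -w y)
    (k : Fin n) : (pdM w k x)ᵀ = -pdM w k x := by
  ext i j
  simp only [pdM, Matrix.transpose_apply, Matrix.neg_apply, Matrix.of_apply]
  rw [← neg_one_mul, ← pd_cmul _ (hw i j)]
  refine pd_congr (hs.mono fun y hy => ?_)
  have := congrFun (congrFun hy i) j
  simpa using this

theorem spin3_cyc (E : Mn n) (e f b : Fin n) (F : Fin n → Fin n → Fin n → ℝ) :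
    ∑ k, ∑ l, ∑ j, E k f * E l b * E j e * F k l j =
      ∑ k, ∑ l, ∑ j, E k e * E l f * E j b * F l j k := by
  rw [Finset.sum_comm (f := fun k l => ∑ j, E k e * E l f * E j b * F l j k)]
  refine Finset.sum_congr rfl fun k _ => ?_
  rw [Finset.sum_comm]
  exact Finset.sum_congr rfl fun l _ => Finset.sum_congr rfl fun j _ => by ring

theorem spin3_alg {c : Fin n → Ms ι} (hc : Cl c) {E Ei gi : Mn n} (h1 : E * Ei = 1)
    (h2 : E * Eᵀ = gi) {R : Fin n → Fin n → Mn n} (hR : ∀ k l, R k l = -R l k)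
    (hB : ∀ k l i j, R k l i j + R l j i k + R j k i l = 0)
    (hs : ∀ k l, (Ei * R k l * E)ᵀ = -(Ei * R k l * E)) :
    ∑ k, ∑ l, cv c (E k) * cv c (E l) * sig c (Ei * R k l * E) =
      ((∑ j, ∑ l, gi j l * ∑ i, R i l i j) / 2) • (1 : Ms ι) := by
  have a3 : ∀ e f a b, (∑ k, ∑ l, (E k e * E l f) • (Ei * R k l * E)) a b =
      ∑ k, ∑ l, ∑ j, E k e * E l f * E j b * (Ei * R k l) a j := fun e f a b => by
    simp only [Matrix.sum_apply, Matrix.smul_apply, smul_eq_mul,
      Matrix.mul_apply (M := Ei * _), Finset.mul_sum]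
    exact Finset.sum_congr rfl fun k _ => Finset.sum_congr rfl fun l _ =>
      Finset.sum_congr rfl fun j _ => by ring
  have key := bianchi_contr hc (Rm := fun e f => ∑ k, ∑ l, (E k e * E l f) • (Ei * R k l * E))
    (fun e f => by
      simp only [Matrix.transpose_sum, Matrix.transpose_smul, hs, smul_neg,
        Finset.sum_neg_distrib])
    (fun e f => by
      rw [Finset.sum_comm, ← Finset.sum_neg_distrib]
      refine Finset.sum_congr rfl fun k _ => ?_
      rw [← Finset.sum_neg_distrib]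
      refine Finset.sum_congr rfl fun l _ => ?_
      rw [hR l k, Matrix.mul_neg, Matrix.neg_mul, smul_neg, mul_comm (E l e)])
    (fun e f a b => by
      rw [a3, a3, a3, spin3_cyc E e f b, ← spin3_cyc E b e f]
      simp only [← Finset.sum_add_distrib, ← mul_add, Matrix.mul_apply, hB, mul_zero,
        Finset.sum_const_zero])
  have a4 : ∑ a, ∑ b, (∑ k, ∑ l, (E k a * E l b) • (Ei * R k l * E)) a b =
      ∑ j, ∑ l, gi j l * ∑ i, R i l i j := by
    have b1 : ∀ k l, ∑ a, ∑ b, E k a * E l b * (Ei * R k l * E) a b = (R k l * gi) k l := by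
      intro k l
      have e : R k l * gi = E * (Ei * R k l * E) * Eᵀ := by
        rw [← h2, ← Matrix.mul_assoc E, ← Matrix.mul_assoc E, h1, Matrix.one_mul,
          Matrix.mul_assoc]
      rw [e]
      generalize Ei * R k l * E = M
      simp only [Matrix.mul_apply, Matrix.transpose_apply, Finset.sum_mul]
      rw [Finset.sum_comm]
      exact Finset.sum_congr rfl fun a _ => Finset.sum_congr rfl fun b _ => by ring
    calc ∑ a, ∑ b, (∑ k, ∑ l, (E k a * E l b) • (Ei * R k l * E)) a b
        = ∑ a, ∑ k, ∑ l, ∑ b, E k a * E l b * (Ei * R k l * E) a b := by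
          simp only [Matrix.sum_apply, Matrix.smul_apply, smul_eq_mul]
          refine Finset.sum_congr rfl fun a _ => ?_
          rw [Finset.sum_comm]
          exact Finset.sum_congr rfl fun k _ => Finset.sum_comm
      _ = ∑ k, ∑ l, (R k l * gi) k l := by
          rw [Finset.sum_comm]
          refine Finset.sum_congr rfl fun k _ => ?_
          rw [Finset.sum_comm]
          exact Finset.sum_congr rfl fun l _ => b1 k l
      _ = ∑ j, ∑ l, gi j l * ∑ i, R i l i j := by
          simp only [Matrix.mul_apply, Finset.mul_sum]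
          rw [Finset.sum_comm, Finset.sum_comm (f := fun j l => ∑ i, gi j l * R i l i j)]
          refine Finset.sum_congr rfl fun l _ => ?_
          rw [Finset.sum_comm]
          exact Finset.sum_congr rfl fun j _ => Finset.sum_congr rfl fun i _ => mul_comm _ _
  rw [a4] at key
  rw [← key]
  simp only [spin3_sig_sum, spin3_sig_smul, cv, Finset.sum_mul, Finset.mul_sum, smul_mul_assoc,
    mul_smul_comm, Finset.smul_sum, smul_smul]
  calc ∑ k, ∑ l, ∑ f, ∑ e, (E l f * E k e) • (c e * c f * sig c (Ei * R k l * E))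
      = ∑ k, ∑ e, ∑ f, ∑ l, (E k e * E l f) • (c e * c f * sig c (Ei * R k l * E)) := by
        refine Finset.sum_congr rfl fun k _ => ?_
        rw [Finset.sum_comm, Finset.sum_comm (f := fun e f => ∑ l, (E k e * E l f) •
          (c e * c f * sig c (Ei * R k l * E)))]
        refine Finset.sum_congr rfl fun f _ => ?_
        rw [Finset.sum_comm]
        exact Finset.sum_congr rfl fun e _ => Finset.sum_congr rfl fun l _ => by
          rw [mul_comm (E l f)]
    _ = _ := by
        rw [Finset.sum_comm]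
        exact Finset.sum_congr rfl fun e _ => Finset.sum_comm

theorem spin3_tr {c : Fin n → Ms ι} (hc : Cl c) {w : Mn n} (hw : wᵀ = -w) (v : Fin n → ℝ)
    (E : Mn n) (k : Fin n) : trace (cv c v * (∑ e, E k e • c e) * sig c w) =
      -(1 / 2) * (Fintype.card ι : ℝ) * ∑ j, v j * (E * w) k j := by
  rw [Finset.mul_sum, Finset.sum_mul, trace_sum]
  simp only [mul_smul_comm, smul_mul_assoc, trace_smul, trace_cv_c_sig hc hw, smul_eq_mul,
    Matrix.mul_apply, Finset.mul_sum]
  rw [Finset.sum_comm]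
  exact Finset.sum_congr rfl fun j _ => Finset.sum_congr rfl fun e _ => by ring

section
variable {ρ : ℝ} {g : Fld n} (h : Met ρ g) {Φ : Mn n → Mn n} (hΦ : FrameFn Φ)
  {c : Fin n → Ms ι} (hc : Cl c)
include h hΦ hc

/-- The bracket is `sig c (Ω k l)` with `Ω k l = E⁻¹ R_{kl} E` skew (`omF_curv`, `sig_lie`, `pdM` of
`sig` is `sig` of `pdM`); apply `bianchi_contr` to `Rm e f = ∑ k l, E k e E l f • Ω k l`. -/
theorem spinF_curv {x : Euc n} (hx : ρ < ‖x‖) :
    ∑ k, ∑ l, gamF c (fun z => Φ (g z)) x k * gamF c (fun z => Φ (g z)) x l *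
      (pdM (fun y => spinF c g (fun z => Φ (g z)) y l) k x
        - pdM (fun y => spinF c g (fun z => Φ (g z)) y k) l x
        + (spinF c g (fun z => Φ (g z)) x k * spinF c g (fun z => Φ (g z)) x l
          - spinF c g (fun z => Φ (g z)) x l * spinF c g (fun z => Φ (g z)) x k))
      = (scal g x / 2) • (1 : Ms ι) := by
  have hd : ∀ k i j, DifferentiableAt ℝ (fun y => omF g (fun z => Φ (g z)) y k i j) x :=
    fun k i j => (omF_sm h hΦ hx k i j).differentiableAt (by simp)
  have hs := omF_skew h hΦ hx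
  have hp : ∀ k l, (pdM (fun y => omF g (fun z => Φ (g z)) y l) k x)ᵀ =
      -pdM (fun y => omF g (fun z => Φ (g z)) y l) k x := fun k l =>
    spin3_pd_skew (hd l) ((ev_out hx).mono fun y hy => omF_skew h hΦ hy l) k
  rw [← rmM_scal h hx, ← spin3_alg hc (E := Φ (g x)) (Ei := (Φ (g x))⁻¹)
    (Matrix.mul_nonsing_inv _ (isUnit_iff_ne_zero.2 (fr_det h hΦ hx))) (fr_mul_tr h hΦ hx)
    (R := fun k l => rmM g k l x) (fun k l => by simp only [rmM]; abel)
    (fun k l i j => rmM_bianchi h hx k l i j) fun k l => by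
      rw [← omF_curv h hx hΦ k l]
      simp only [Matrix.transpose_add, Matrix.transpose_sub, Matrix.transpose_mul, hp, hs,
        Matrix.neg_mul, Matrix.mul_neg, neg_neg]
      abel]
  refine Finset.sum_congr rfl fun k _ => Finset.sum_congr rfl fun l _ => ?_
  simp only [spinF, gamF]
  rw [spin3_pd_sig c (hd l), spin3_pd_sig c (hd k), sig_lie hc (hs k), ← sig_sub, ← sig_add,
    omF_curv h hx hΦ k l]

theorem geo_of : Geo ρ g (gamF c (fun z => Φ (g z))) (spinF c g (fun z => Φ (g z))) :=
  ⟨h, fun _ hx => gamF_sm h hΦ hx, fun _ hx => spinF_sm h hΦ hx, fun _ _ _ => cv_skew hc _,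
    fun _ hx => gamF_ac h hΦ hx hc, fun _ hx k => sig_skew hc (omF_skew h hΦ hx k),
    fun _ hx => spinF_compat h hΦ hx hc, fun _ hx => spinF_curv h hΦ hc hx⟩

/-- `trace_cv_c_sig`, `trace_sig`; `∑ e, (ω (E e)) e j = div_g E_j` since `E ω_k = ∂_k E + Γ_k E`. -/
theorem trace_Zm {x : Euc n} (hx : ρ < ‖x‖) :
    trace (Zm g (gamF c (fun z => Φ (g z))) (spinF c g (fun z => Φ (g z))) x)
      = -(1 / 2) * (Fintype.card ι : ℝ) * ∑ l, ∑ j, nl g l x * Φ (g x) l j *
          divg g (fun i y => Φ (g y) i j) x := by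
  have hs := omF_skew h hΦ hx
  have a1 : nsA (gamF c (fun z => Φ (g z)) x) (nlV g x) =
      cv c fun j => ∑ l, nl g l x * Φ (g x) l j := by
    simp only [nsA, gamF, cv, nlV, Finset.smul_sum, Finset.sum_smul, smul_smul]
    exact Finset.sum_comm
  have a2 : ∀ k, trace (bt g (gamF c (fun z => Φ (g z))) x k * spinF c g (fun z => Φ (g z)) x k) =
      -(1 / 2) * (Fintype.card ι : ℝ) * ∑ j, (∑ l, nl g l x * Φ (g x) l j) *
        (Φ (g x) * omF g (fun z => Φ (g z)) x k) k j := fun k => by
    have e : gamF c (fun z => Φ (g z)) x k = ∑ e, Φ (g x) k e • c e := rfl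
    rw [bt, btA, a1, e, spinF, Matrix.add_mul, trace_add, smul_mul_assoc, Matrix.one_mul,
      trace_smul, trace_sig hc (hs k), smul_zero, add_zero]
    exact spin3_tr hc (hs k) _ _ k
  have a3 : ∀ k, Φ (g x) * omF g (fun z => Φ (g z)) x k =
      pdM (fun z => Φ (g z)) k x + chM g k x * Φ (g x) := fun k => by
    rw [omF, ← Matrix.mul_assoc,
      Matrix.mul_nonsing_inv _ (isUnit_iff_ne_zero.2 (fr_det h hΦ hx)), Matrix.one_mul]
  rw [Zm, trace_sum]
  simp only [a2, a3]
  rw [← Finset.mul_sum, Finset.sum_comm, Finset.sum_comm (f := fun l j => nl g l x * Φ (g x) l j *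
    divg g (fun i y => Φ (g y) i j) x)]
  congr 1
  refine Finset.sum_congr rfl fun j _ => ?_
  rw [← Finset.mul_sum, ← Finset.sum_mul, divg, ← Finset.sum_add_distrib]
  rfl

end

end Vale.Agent.P366
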