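import Vale.Agent.P366I.As1
import Vale.Agent.P366I.Spin3
import Vale.Agent.P366I.Sph2
import Vale.Agent.P366I.Sm1

/-! Decay of the spin connection and the energy flux. -/

noncomputable section

open Matrix MeasureTheory Set Filter Topology Asymptotics
open scoped ContDiff

namespace Vale.Agent.P366

variable {n : ℕ} {ι : Type} [Fintype ι] [DecidableEq ι]

/-- Entrywise order of a matrix field. -/
def as2_M {α β : Type} (a : ℝ) (A : Euc n → Matrix α β ℝ) : Prop := ∀ i j, OO a fun x => A x i j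

section
variable {α β γ : Type} {a b : ℝ} {A A' : Euc n → Matrix α β ℝ} {B : Euc n → Matrix β γ ℝ}

theorem as2_mul [Fintype β] (hA : as2_M a A) (hB : as2_M b B) {e : ℝ} (he : a + b ≤ e) :
    as2_M e fun x => A x * B x := fun i j =>
  (OO.sum Finset.univ fun l _ => (hA i l).mul (hB l j)).mono he

theorem as2_add (hA : as2_M a A) (hA' : as2_M a A') : as2_M a fun x => A x + A' x := fun i j =>
  (hA i j).add (hA' i j)

theorem as2_tr (hA : as2_M a A) : as2_M a fun x => (A x)ᵀ := fun i j => hA j i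

theorem as2_const (C : Matrix α β ℝ) : as2_M 0 fun _ : Euc n => C := fun _ _ => OO.const _

theorem as2_smul {f : Euc n → ℝ} (hf : OO a f) (hA : as2_M b A) {e : ℝ} (he : a + b ≤ e) :
    as2_M e fun x => f x • A x := fun i j => (hf.mul (hA i j)).mono he

theorem as2_sum {P : Fin n → Euc n → Matrix α β ℝ} (hP : ∀ k, as2_M a (P k)) :
    as2_M a fun x => ∑ k, P k x := fun i j => by
  simp only [Matrix.sum_apply]
  exact OO.sum _ fun k _ => hP k i j

theorem as2_congr (hA : as2_M a A) (e : ∀ᶠ x in lc n, A x = A' x) : as2_M a A' := fun i j =>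
  (hA i j).congr (e.mono fun x hx => by rw [hx])

end

theorem as2_bdd {a : ℝ} {f u : Euc n → ℝ} (hf : OO a fun x => f x - u x) (ha : a ≤ 0) (hu : OO 0 u) :
    OO 0 f := ((hf.mono ha).add hu).congr (Eventually.of_forall fun _ => sub_add_cancel _ _)

theorem as2_theta {x : Euc n} (hx : x ≠ 0) (i : Fin n) : ContinuousAt (fun y : Euc n => y i / ‖y‖) x :=
  (sm0_co i).continuousAt.div continuous_norm.continuousAt (norm_ne_zero_iff.2 hx)

section
variable {ρ q : ℝ} {g K : Fld n} (h : Met ρ g) (hq : 0 < q) (hd : DecU q g K)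
include h hq hd

variable {Φ : Mn n → Mn n} (hΦ : FrameFn Φ)
include hΦ

theorem oo_fr (i j : Fin n) : OO (-q) (fun x => Φ (g x) i j - (1 : Mn n) i j) ∧
    ∀ k, OO (-q - 1) (fun x => pd (fun y => Φ (g y) i j) k x) := by
  have h1 := comp_dec h hq hd (hΦ.sm 1 Matrix.PosDef.one i j)
  have e : Φ (Matrix.of fun a b => (1 : Mn n) a b) = 1 := hΦ.one
  rw [e] at h1
  exact h1

/-- Differentiate `Eᵀ g E = 1`. -/
theorem oo_fr_sym (i j k : Fin n) : OO (-2 * q - 1) (fun x => pd (fun y => Φ (g y) i j) k x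
    + pd (fun y => Φ (g y) j i) k x + pd (fun y => g y i j) k x) := by
  have e1 : as2_M (-q) fun x => Φ (g x) - 1 := fun a b => (oo_fr h hq hd hΦ a b).1
  have e0 : as2_M 0 fun x => Φ (g x) := fun a b => (oo_fr h hq hd hΦ a b).1.bdd (by linarith)
  have g1 : as2_M (-q) fun x => g x - 1 := hd.dg0
  have dE : as2_M (-q - 1) (pdM (fun y => Φ (g y)) k) := fun a b => (oo_fr h hq hd hΦ a b).2 k
  have dG : as2_M (-q - 1) (pdM g k) := fun a b => hd.dg1 a b k
  have m1 := as2_add (as2_mul g1 e0 (e := -q) (by linarith)) e1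
  have m2 := as2_add (as2_mul (as2_tr e0) g1 (e := -q) (by linarith)) (as2_tr e1)
  have m3 := as2_add (as2_add (as2_mul (as2_tr dE) m1 (e := -2 * q - 1) (by linarith))
    (as2_mul m2 dE (by linarith))) (as2_add (as2_mul (as2_mul (as2_tr e1) dG le_rfl) e0
      (e := -2 * q - 1) (by linarith)) (as2_mul dG e1 (by linarith)))
  refine ((m3 i j).cmul (-1)).congr ((lc_ev ρ).mono fun x hx => ?_)
  have s1 := fr_sm h hΦ hx
  have s2 : ∀ a b, ContDiffAt ℝ ∞ (fun y => (Φ (g y))ᵀ a b) x := fun a b => s1 b a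
  have d0 : pdM (fun y => (Φ (g y))ᵀ * g y * Φ (g y)) k x = 0 := by
    rw [spin2_congr (B := fun _ => 1) ((ev_out hx).mono fun y hy => hΦ.orth _ (h.posDef y hy))]
    ext a b
    exact pd_const _
  rw [spin1_mul k (spin1_sm s2 (h.sm x hx)) s1, spin1_mul k s2 (h.sm x hx)] at d0
  have d1 : pdM (fun y => (Φ (g y))ᵀ) k x = (pdM (fun y => Φ (g y)) k x)ᵀ := rfl
  rw [d1] at d0
  have d2 : ∀ D E G T : Mn n, (Dᵀ * T + Eᵀ * G) * E + Eᵀ * T * D = 0 →
      Dᵀ * ((T - 1) * E + (E - 1)) + (Eᵀ * (T - 1) + (E - 1)ᵀ) * D +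
        ((E - 1)ᵀ * G * E + G * (E - 1)) = -(D + Dᵀ + G) := fun D E G T e => by
    rw [Matrix.transpose_sub, Matrix.transpose_one, ← sub_eq_zero, ← e]
    noncomm_ring
  beta_reduce
  rw [d2 _ _ _ _ d0, neg_one_mul, Matrix.neg_apply, neg_neg]
  rfl

theorem oo_Zm (c : Fin n → Ms ι) (s p : ι) : OO (-q - 1) (fun x =>
    Zm g (gamF c (fun z => Φ (g z))) (spinF c g (fun z => Φ (g z))) x s p) := by
  have e0 : as2_M 0 fun x => Φ (g x) := fun a b => (oo_fr h hq hd hΦ a b).1.bdd (by linarith)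
  have g0 : as2_M 0 g := fun a b => OO.bdd (hd.dg0 a b) (by linarith)
  have hγ : ∀ i, as2_M 0 fun x => gamF c (fun z => Φ (g z)) x i := fun i =>
    as2_sum (P := fun a x => Φ (g x) i a • c a) fun a =>
      as2_smul (e0 i a) (as2_const _) (add_zero _).le
  have hω : ∀ k, as2_M (-q - 1) fun x => omF g (fun z => Φ (g z)) x k := by
    intro k
    have dE : as2_M (-q - 1) (pdM (fun y => Φ (g y)) k) := fun a b => (oo_fr h hq hd hΦ a b).2 k
    have dC : as2_M (-q - 1) (chM g k) := fun a b => oo_chr h hq hd a k b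
    refine as2_congr (as2_mul (as2_mul (as2_tr e0) g0 (add_zero _).le)
      (as2_add dE (as2_mul dC e0 (add_zero _).le)) (zero_add _).le) ((lc_ev ρ).mono fun x hx => ?_)
    rw [omF, fr_inv h hΦ hx]
  have hS : ∀ k, as2_M (-q - 1) fun x => spinF c g (fun z => Φ (g z)) x k := fun k =>
    as2_sum (P := fun a x => ∑ b, (-(1 / 4) * omF g (fun z => Φ (g z)) x k a b) • (c a * c b))
      fun a => as2_sum (P := fun b x => (-(1 / 4) * omF g (fun z => Φ (g z)) x k a b) • (c a * c b))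
        fun b => as2_smul ((hω k a b).cmul _) (as2_const _) (add_zero _).le
  have hn : as2_M 0 fun x => nsA (gamF c (fun z => Φ (g z)) x) (nlV g x) :=
    as2_sum (P := fun j x => nl g j x • gamF c (fun z => Φ (g z)) x j) fun j =>
      as2_smul (as2_bdd (oo_nl h hq hd j) (by linarith) (OO.theta j)) (hγ j) (add_zero _).le
  have hb : ∀ k, as2_M 0 fun x => bt g (gamF c (fun z => Φ (g z))) x k := fun k =>
    as2_add (as2_mul hn (hγ k) (add_zero _).le)
      (as2_smul (as2_bdd (oo_nu h hq hd k) (by linarith) (OO.theta k)) (as2_const 1) (add_zero _).le)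
  exact as2_sum (P := fun k x => bt g (gamF c (fun z => Φ (g z))) x k *
    spinF c g (fun z => Φ (g z)) x k) (fun k => as2_mul (hb k) (hS k) (zero_add _).le) s p

/-- `trace_Zm`, `oo_trchr`, `oo_fr_sym`. -/
theorem oo_trZ {c : Fin n → Ms ι} (hc : Cl c) [Nonempty ι] : OO (-2 * q - 1) (fun x =>
    dens g x * (4 * trace (Zm g (gamF c (fun z => Φ (g z))) (spinF c g (fun z => Φ (g z))) x)
      / Fintype.card ι)
    - (∑ i, ∑ j, (pd (fun y => g y i j) j x - pd (fun y => g y j j) i x) * (x i / ‖x‖)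
      - ∑ i, ∑ j, (pd (fun y => Φ (g y) i j) i x - pd (fun y => Φ (g y) j i) i x) * (x j / ‖x‖))) := by
  have e1 := fun a b => (oo_fr h hq hd hΦ a b).1
  have e0 : ∀ a b, OO 0 fun x => Φ (g x) a b := fun a b => (e1 a b).bdd (by linarith)
  have n0 : ∀ l, OO 0 (nl g l) := fun l => as2_bdd (oo_nl h hq hd l) (by linarith) (OO.theta l)
  have c1 : ∀ k, OO (-q - 1) fun x => ∑ i, chr g i i k x := fun k =>
    OO.sum _ fun i _ => oo_chr h hq hd i i k
  have one : ∀ (v : Fin n → ℝ) j, ∑ l, v l * (1 : Mn n) l j = v j := fun v j => by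
    simp [Matrix.one_apply]
  have ha : ∀ j, OO (-q) fun x => dens g x * ∑ l, nl g l x * Φ (g x) l j - x j / ‖x‖ := by
    intro j
    refine ((((oo_dens h hq hd).mul (OO.sum Finset.univ fun l _ => (n0 l).mul (e0 l j))).mono
      (b := -q) (by linarith)).add (((OO.sum Finset.univ fun l _ => (n0 l).mul (e1 l j)).mono
        (by linarith)).add (oo_nl h hq hd j))).congr (Eventually.of_forall fun x => ?_)
    simp only [mul_sub, Finset.sum_sub_distrib, one]
    ring
  have hd0 : ∀ j, OO (-q - 1) (divg g fun i y => Φ (g y) i j) := fun j =>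
    (OO.sum _ fun i _ => (oo_fr h hq hd hΦ i j).2 i).add (OO.sum _ fun i _ => OO.sum _ fun k _ =>
      ((oo_chr h hq hd i i k).mul (e0 k j)).mono (add_zero _).le)
  have hd1 : ∀ j, OO (-2 * q - 1) fun x => divg g (fun i y => Φ (g y) i j) x -
      (∑ i, pd (fun y => Φ (g y) i j) i x + (1 / 2) * ∑ i, pd (fun y => g y i i) j x) := by
    intro j
    refine (((OO.sum Finset.univ fun k _ => (c1 k).mul (e1 k j)).mono (by linarith)).add
      (oo_trchr h hq hd j)).congr (Eventually.of_forall fun x => ?_)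
    simp only [mul_sub, Finset.sum_sub_distrib, one, divg]
    rw [Finset.sum_comm (f := fun i k => chr g i i k x * Φ (g x) k j)]
    simp only [Finset.sum_mul]
    ring
  refine (OO.sum Finset.univ fun j _ => ((((ha j).mul (hd0 j)).mono (b := -2 * q - 1)
    (by linarith)).add (((OO.theta j).mul (hd1 j)).mono (zero_add _).le)).cmul (-2) |>.sub
      (((OO.theta j).mul (OO.sum Finset.univ fun i _ => oo_fr_sym h hq hd hΦ j i i)).mono
        (zero_add _).le)).congr ((lc_ev ρ).mono fun x hx => ?_)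
  have hc0 : (Fintype.card ι : ℝ) ≠ 0 := Nat.cast_ne_zero.2 Fintype.card_ne_zero
  have t1 : ∀ Z : ℝ, 4 * (-(1 / 2) * (Fintype.card ι : ℝ) * Z) / Fintype.card ι = -2 * Z := fun Z => by
    field_simp
    ring
  rw [trace_Zm h hΦ hc hx, t1, Finset.sum_comm (f := fun l j => nl g l x * Φ (g x) l j *
    divg g (fun i y => Φ (g y) i j) x), Finset.sum_comm (f := fun i j =>
      (pd (fun y => Φ (g y) i j) i x - pd (fun y => Φ (g y) j i) i x) * (x j / ‖x‖)),
    Finset.mul_sum, Finset.mul_sum, ← Finset.sum_sub_distrib, ← Finset.sum_sub_distrib]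
  refine Finset.sum_congr rfl fun j _ => ?_
  simp only [← Finset.sum_mul, Finset.sum_sub_distrib, Finset.sum_add_distrib]
  ring

omit hq hd in
/-- The field `V i = ∑ j, (E i j - E j i) x_j` is tangential (`sInt_div_tan`). -/
theorem skew_flux (hn : 0 < n) {t : ℝ} (ht : ρ < t) : sInt t (fun x =>
    ∑ i, ∑ j, (pd (fun y => Φ (g y) i j) i x - pd (fun y => Φ (g y) j i) i x) * (x j / ‖x‖)) = 0 := by
  have h0 := h.pos.trans ht
  have s1 : ∀ x : Euc n, ρ < ‖x‖ → ∀ i j, ContDiffAt ℝ ∞ (fun y => Φ (g y) i j - Φ (g y) j i) x :=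
    fun x hx i j => (fr_sm h hΦ hx i j).sub (fr_sm h hΦ hx j i)
  have h1 := sInt_div_tan hn h.pos ht (V := fun i y => ∑ j, (Φ (g y) i j - Φ (g y) j i) * y j)
    (fun x hx i => ContDiffAt.sum fun j _ => (s1 x hx i j).mul (sm0_co j)) fun x _ => by
      simp only [Finset.sum_mul, sub_mul, Finset.sum_sub_distrib]
      rw [Finset.sum_comm, sub_eq_zero]
      exact Finset.sum_congr rfl fun i _ => Finset.sum_congr rfl fun j _ => by ring
  rw [← mul_zero t⁻¹, ← h1, ← sInt_cmul]
  refine sInt_congr h0 fun x hx => ?_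
  have hx' : ρ < ‖x‖ := hx ▸ ht
  have d1 : ∀ i j, DifferentiableAt ℝ (fun y => Φ (g y) i j) x := fun i j =>
    (fr_sm h hΦ hx' i j).differentiableAt (by simp)
  have d2 : ∀ j, DifferentiableAt ℝ (fun y : Euc n => y j) x := fun j =>
    (sm0_co j).differentiableAt (by simp)
  rw [Finset.mul_sum]
  refine Finset.sum_congr rfl fun i _ => ?_
  rw [pd_sum _ fun j _ => ((d1 i j).fun_sub (d1 j i)).fun_mul (d2 j), Finset.mul_sum]
  refine Finset.sum_congr rfl fun j _ => ?_
  rw [pd_mul ((d1 i j).fun_sub (d1 j i)) (d2 j), pd_sub (d1 i j) (d1 j i), pd_coord, hx]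
  split_ifs with e
  · subst e
    ring
  · ring

theorem trZ_lim (hn : 3 ≤ n) (hq' : ((n : ℝ) - 2) / 2 < q) {c : Fin n → Ms ι} (hc : Cl c)
    [Nonempty ι] {En : ℝ} (hE : Tendsto (enFlux g) atTop (𝓝 En)) :
    Tendsto (fun t => LI g t (fun x =>
      4 * trace (Zm g (gamF c (fun z => Φ (g z))) (spinF c g (fun z => Φ (g z))) x)
        / Fintype.card ι)) atTop (𝓝 (2 * ((n : ℝ) - 1) * omega n * En)) := by
  have hn0 : 0 < n := by omega
  have h1 := ((oo_trZ h hq hd hΦ hc).int_zero (by linarith)).add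
    (hE.const_mul (2 * ((n : ℝ) - 1) * omega n))
  rw [zero_add] at h1
  refine h1.congr' ((eventually_gt_atTop ρ).mono fun t ht => ?_)
  have h0 := h.pos.trans ht
  have hx : ∀ x : Euc n, ‖x‖ = t → ρ < ‖x‖ := fun x e => e ▸ ht
  have c1 : CS t fun x => dens g x * (4 * trace (Zm g (gamF c (fun z => Φ (g z)))
      (spinF c g (fun z => Φ (g z))) x) / Fintype.card ι) := fun x e =>
    ((h.sm_dens (hx x e)).mul ((contDiffAt_const.mul (ContDiffAt.sum fun s _ =>
      (geo_of h hΦ hc).sm_Zm (hx x e) s s)).div_const _)).continuousAt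
  have c2 : CS t fun x => ∑ i, ∑ j,
      (pd (fun y => g y i j) j x - pd (fun y => g y j j) i x) * (x i / ‖x‖) := fun x e =>
    tendsto_finsetSum _ fun i _ => tendsto_finsetSum _ fun j _ =>
      ((contDiffAt_pd (h.sm x (hx x e) i j) j).sub
        (contDiffAt_pd (h.sm x (hx x e) j j) i)).continuousAt.mul (as2_theta (sm0_ne h (hx x e)) i)
  have c3 : CS t fun x => ∑ i, ∑ j,
      (pd (fun y => Φ (g y) i j) i x - pd (fun y => Φ (g y) j i) i x) * (x j / ‖x‖) := fun x e =>
    tendsto_finsetSum _ fun i _ => tendsto_finsetSum _ fun j _ =>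
      ((contDiffAt_pd (fr_sm h hΦ (hx x e) i j) i).sub
        (contDiffAt_pd (fr_sm h hΦ (hx x e) j i) i)).continuousAt.mul (as2_theta (sm0_ne h (hx x e)) j)
  have h3 : (3 : ℝ) ≤ n := by exact_mod_cast hn
  have h4 : (2 * ((n : ℝ) - 1) * omega n) ≠ 0 :=
    (mul_pos (by linarith) (omega_pos' hn0)).ne'
  beta_reduce
  rw [sInt_sub h0 c1 fun x e => (c2 x e).fun_sub (c3 x e), sInt_sub h0 c2 c3, skew_flux h hΦ hn0 ht,
    enFlux, cn, ← mul_assoc, mul_one_div_cancel h4, one_mul, sub_zero, LI,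
    ← sInt_congr h0 (f := fun x => ∑ i, ∑ j,
      (pd (fun y => g y i j) j x - pd (fun y => g y j j) i x) * (x i / ‖x‖))
      (h := fun x => ∑ i, ∑ j, (pd (fun y => g y i j) j x - pd (fun y => g y j j) i x) * (x i / t))
      fun x e => by rw [e],
    sub_add_cancel]

end

end Vale.Agent.P366
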