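import Vale.Agent.P366I.Sph2
import Vale.Agent.P366I.Nor

/-! Leaf integrals and the divergence theorem for the metric. -/

noncomputable section

open Matrix MeasureTheory Set Filter Topology Asymptotics
open scoped ContDiff

namespace Vale.Agent.P366

variable {n : ℕ} {ι : Type} [Fintype ι] [DecidableEq ι]

theorem sph3_jac {G : ℝ → Mn n} {G' : Mn n} {r : ℝ}
    (h : ∀ a b, HasDerivAt (fun s => G s a b) (G' a b) r) (hd : (G r).det ≠ 0) :
    HasDerivAt (fun s => (G s).det) ((G r).det * trace ((G r)⁻¹ * G')) r := by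
  have e : (G r).det * trace ((G r)⁻¹ * G') = ∑ k, ((G r).updateCol k fun a => G' a k).det := by
    rw [← smul_eq_mul, ← trace_smul, ← Matrix.smul_mul, Matrix.inv_def, smul_smul,
      Ring.mul_inverse_cancel _ (isUnit_iff_ne_zero.2 hd), one_smul, trace]
    refine Finset.sum_congr rfl fun k _ => ?_
    rw [← cramer_apply, cramer_eq_adjugate_mulVec]
    rfl
  rw [e]
  simp only [Matrix.det_apply']
  rw [Finset.sum_comm]
  refine HasDerivAt.fun_sum fun σ _ => ?_
  rw [← Finset.mul_sum]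
  refine HasDerivAt.const_mul _ ((HasDerivAt.fun_finsetProd fun i _ => h (σ i) i).congr_deriv
    (Finset.sum_congr rfl fun k _ => ?_))
  rw [← Finset.prod_erase_mul _ _ (Finset.mem_univ k), Matrix.updateCol_self, smul_eq_mul]
  congr 1
  exact Finset.prod_congr rfl fun i hi => (Matrix.updateCol_ne (Finset.ne_of_mem_erase hi)).symm

theorem sph3_line {f : Euc n → ℝ} {x : Euc n} (hf : ContDiffAt ℝ ∞ f x) (k : Fin n) :
    HasDerivAt (fun s : ℝ => f (x + s • EuclideanSpace.single k 1)) (pd f k x) 0 :=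
  (hf.differentiableAt (by simp)).hasFDerivAt.hasLineDerivAt _

section
variable {ρ : ℝ} {g : Fld n} (h : Met ρ g)
include h

/-- Jacobi's formula (derivative of `det` = sum over `updateRow`, or `Matrix.det_apply'` and
`Matrix.cramer`) and `tau_eq`. -/
theorem pd_sqrt_det {x : Euc n} (hx : ρ < ‖x‖) (k : Fin n) :
    pd (fun y => √((g y).det)) k x = √((g x).det) * ∑ i, chr g i i k x := by
  have hd := (h.posDef x hx).det_pos
  have h1 := (sph3_line (h.sm_det hx) k).unique
    (sph3_jac (G := fun s : ℝ => g (x + s • EuclideanSpace.single k 1)) (G' := dg g x k)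
      (fun a b => sph3_line (h.sm x hx a b) k) (by simpa using hd.ne'))
  have h2 : trace ((g x)⁻¹ * dg g x k) = ∑ i, ∑ j, (g x)⁻¹ i j * dg g x k i j := by
    simp only [trace, diag, Matrix.mul_apply, (h.dg_symm hx k).apply]
  rw [zero_smul, add_zero, h2] at h1
  simp only [chr_eq]
  rw [pd_comp (Real.hasDerivAt_sqrt hd.ne').differentiableAt
    ((h.sm_det hx).differentiableAt (by simp)), (Real.hasDerivAt_sqrt hd.ne').deriv, h1,
    tau_eq (h.symm hx).inv (h.dg_symm hx)]
  have h3 := Real.sqrt_pos.2 hd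
  nth_rw 2 [← Real.mul_self_sqrt hd.le]
  field_simp

variable {t : ℝ} (ht : ρ < t) {F G : Euc n → ℝ}
include ht

theorem sph3_cs (hF : CS t F) : CS t fun x => dens g x * F x := fun x hx =>
  (h.sm_dens (hx ▸ ht)).continuousAt.mul (hF x hx)

theorem LI_eq : LI g t F = ∫ θ, Jf g (t • (θ : Euc n)) * F (t • (θ : Euc n)) ∂(sph n) := by
  rw [LI, sInt, ← integral_const_mul]
  refine integral_congr_ae (Eventually.of_forall fun θ => ?_)
  simp only [Jf, norm_smul_sph (h.pos.trans ht) (norm_eq_of_mem_sphere θ), mul_assoc]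

theorem LI_congr (e : ∀ x, ‖x‖ = t → F x = G x) : LI g t F = LI g t G :=
  sInt_congr (h.pos.trans ht) fun x hx => by rw [e x hx]

theorem LI_add (hF : CS t F) (hG : CS t G) :
    LI g t (fun x => F x + G x) = LI g t F + LI g t G := by
  simp only [LI, mul_add]
  exact sInt_add (h.pos.trans ht) (sph3_cs h ht hF) (sph3_cs h ht hG)

theorem LI_sub (hF : CS t F) (hG : CS t G) :
    LI g t (fun x => F x - G x) = LI g t F - LI g t G := by
  simp only [LI, mul_sub]
  exact sInt_sub (h.pos.trans ht) (sph3_cs h ht hF) (sph3_cs h ht hG)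

omit h ht in
theorem LI_cmul (c : ℝ) : LI g t (fun x => c * F x) = c * LI g t F := by
  simp only [LI, mul_left_comm _ c]
  exact sInt_cmul c

theorem LI_sum {α : Type} (s : Finset α) {Φ : α → Euc n → ℝ} (hΦ : ∀ a ∈ s, CS t (Φ a)) :
    LI g t (fun x => ∑ a ∈ s, Φ a x) = ∑ a ∈ s, LI g t (Φ a) := by
  simp only [LI, Finset.mul_sum]
  exact sInt_sum (h.pos.trans ht) s fun a ha => sph3_cs h ht (hΦ a ha)

theorem LI_mono (hF : CS t F) (hG : CS t G) (e : ∀ x, ‖x‖ = t → F x ≤ G x) :
    LI g t F ≤ LI g t G :=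
  sInt_mono (h.pos.trans ht) (sph3_cs h ht hF) (sph3_cs h ht hG) fun x hx =>
    mul_le_mul_of_nonneg_left (e x hx) (h.dens_pos (hx ▸ ht)).le

theorem LI_nonneg (e : ∀ x, ‖x‖ = t → 0 ≤ F x) : 0 ≤ LI g t F :=
  mul_nonneg (pow_nonneg (h.pos.trans ht).le _) (integral_nonneg fun θ =>
    have hθ := norm_smul_sph (h.pos.trans ht) (norm_eq_of_mem_sphere θ)
    mul_nonneg (h.dens_pos (hθ.symm ▸ ht)).le (e _ hθ))

theorem LI_pos (hn : 0 < n) (hF : CS t F) (e : ∀ x, ‖x‖ = t → 0 < F x) : 0 < LI g t F := by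
  have h0 := h.pos.trans ht
  obtain ⟨c, hc, h1⟩ := (sph3_cs h ht hF).low h0 fun x hx =>
    mul_pos (h.dens_pos (hx ▸ ht)) (e x hx)
  refine lt_of_lt_of_le ?_ (sInt_mono h0 (fun _ _ => continuousAt_const) (sph3_cs h ht hF) h1)
  rw [sInt_cst]
  exact mul_pos (mul_pos (pow_pos h0 _) (omega_pos' hn)) hc

/-- Cauchy-Schwarz (discriminant of `s ↦ LI ((s a - b)^2)` with `a = √A`, `b = √B`). -/
theorem LI_cs {A B : Euc n → ℝ} (hF : CS t F) (hA : CS t A) (hB : CS t B)
    (hA0 : ∀ x, ‖x‖ = t → 0 ≤ A x) (hB0 : ∀ x, ‖x‖ = t → 0 ≤ B x)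
    (e : ∀ x, ‖x‖ = t → F x ^ 2 ≤ A x * B x) : |LI g t F| ≤ √(LI g t A) * √(LI g t B) := by
  have h1 := discrim_le_zero (a := LI g t A) (b := 2 * LI g t F) (c := LI g t B) fun s => by
    have c1 : CS t fun x => s * s * A x := fun x hx => continuousAt_const.mul (hA x hx)
    have c2 : CS t fun x => 2 * s * F x := fun x hx => continuousAt_const.mul (hF x hx)
    have h2 := LI_nonneg h ht (F := fun x => s * s * A x + 2 * s * F x + B x) fun x hx => by
      have h3 := hA0 x hx
      have h4 := hB0 x hx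
      have h5 := abs_le_of_sq_le_sq' (a := 2 * s * F x) (b := s * s * A x + B x)
        (by nlinarith [mul_le_mul_of_nonneg_left (e x hx) (sq_nonneg s),
          sq_nonneg (s * s * A x - B x)]) (add_nonneg (mul_nonneg (mul_self_nonneg s) h3) h4)
      linarith [h5.1]
    rw [LI_add h ht (F := fun x => s * s * A x + 2 * s * F x)
      (fun x hx => (c1 x hx).add (c2 x hx)) hB, LI_add h ht c1 c2, LI_cmul, LI_cmul] at h2
    linarith
  rw [← Real.sqrt_mul (LI_nonneg h ht hA0)]
  refine Real.abs_le_sqrt ?_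
  rw [discrim] at h1
  linarith

/-- `sInt_div` for `√det * V k`. -/
theorem LI_div (hn : 0 < n) {V : Fin n → Euc n → ℝ}
    (hV : ∀ x : Euc n, ρ < ‖x‖ → ∀ k, ContDiffAt ℝ ∞ (V k) x) :
    HasDerivAt (fun s => LI g s (fun x => ∑ k, V k x * nl g k x))
      (LI g t (fun x => lapse g x * divg g V x)) t := by
  have hs : ∀ x : Euc n, ρ < ‖x‖ → ContDiffAt ℝ ∞ (fun y => √((g y).det)) x := fun x hx =>
    (h.sm_det hx).sqrt (h.posDef x hx).det_pos.ne'
  refine ((sInt_div hn h.pos ht (V := fun k y => √((g y).det) * V k y)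
    fun x hx k => (hs x hx).mul (hV x hx k)).congr_deriv
      (sInt_congr (h.pos.trans ht) fun x hx => ?_)).congr_of_eventuallyEq ?_
  · have hx' : ρ < ‖x‖ := hx ▸ ht
    rw [Finset.sum_congr rfl fun k _ => pd_mul ((hs x hx').differentiableAt (by simp))
      ((hV x hx' k).differentiableAt (by simp)), dens, ← mul_assoc,
      div_mul_cancel₀ _ (h.lapse_pos hx').ne', divg, Finset.sum_comm, ← Finset.sum_add_distrib,
      Finset.mul_sum]
    refine Finset.sum_congr rfl fun k _ => ?_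
    rw [pd_sqrt_det h hx', ← Finset.sum_mul]
    ring
  · filter_upwards [lt_mem_nhds ht] with s hs
    refine sInt_congr (h.pos.trans hs) fun x hx => ?_
    have h1 := (h.lapse_pos (x := x) (hx ▸ hs)).ne'
    rw [Finset.mul_sum]
    refine Finset.sum_congr rfl fun k _ => ?_
    rw [dens, nl]
    field_simp

theorem LI_div_tan (hn : 0 < n) {V : Fin n → Euc n → ℝ}
    (hV : ∀ x : Euc n, ρ < ‖x‖ → ∀ k, ContDiffAt ℝ ∞ (V k) x)
    (h0 : ∀ x : Euc n, ρ < ‖x‖ → ∑ k, V k x * nl g k x = 0) :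
    LI g t (fun x => lapse g x * divg g V x) = 0 := by
  refine (LI_div h ht hn hV).unique ((hasDerivAt_const t (0 : ℝ)).congr_of_eventuallyEq ?_)
  filter_upwards [lt_mem_nhds ht] with s hs
  rw [LI_congr h hs (G := fun _ => 0 * 0) fun x hx => by rw [h0 x (hx ▸ hs), zero_mul], LI_cmul,
    zero_mul]

theorem area_LI : area g t = LI g t (fun _ => 1) := by
  have h0 := h.pos.trans ht
  refine sInt_congr h0 fun x hx => ?_
  have e : ∑ a, ∑ b, (g x)⁻¹ a b * (x a / t) * (x b / t) =
      (∑ a, ∑ b, (g x)⁻¹ a b * x a * x b) / t ^ 2 := by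
    simp only [Finset.sum_div]
    exact Finset.sum_congr rfl fun a _ => Finset.sum_congr rfl fun b _ => by ring
  rw [e, Real.sqrt_mul (h.posDef x (hx ▸ ht)).det_pos.le, Real.sqrt_div' _ (sq_nonneg t),
    Real.sqrt_sq h0.le, dens, lapse, hx, div_div_eq_mul_div, mul_one, mul_div_assoc]

theorem area_pos' (hn : 0 < n) : 0 < area g t := by
  rw [area_LI h ht]
  exact LI_pos h ht hn (fun _ _ => continuousAt_const) fun _ _ => one_pos

theorem area_deriv (hn : 0 < n) :
    HasDerivAt (area g) (LI g t (fun x => lapse g x * meanH g x)) t := by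
  refine (LI_div h ht hn (V := nu g) fun x hx k => h.sm_nu hx k).congr_of_eventuallyEq ?_
  filter_upwards [lt_mem_nhds ht] with s hs
  rw [area_LI h hs]
  exact LI_congr h hs fun x hx => (nor_unit h (hx ▸ hs)).symm

end

end Vale.Agent.P366
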