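import Vale.Agent.P366I.As1
import Vale.Agent.P366I.Sph3
import Vale.Agent.P366I.Sm1

/-! Radial functions at infinity, vanishing of the momentum. -/

noncomputable section

open Matrix MeasureTheory Set Filter Topology Asymptotics
open scoped ContDiff

namespace Vale.Agent.P366

variable {n : ℕ} {ι : Type} [Fintype ι] [DecidableEq ι]

theorem as3_mul {a c c' : ℝ} {f f' : Euc n → ℝ} (ha : a ≤ 0) (hf : OO a fun x => f x - c)
    (hf' : OO a fun x => f' x - c') : OO a fun x => f x * f' x - c * c' :=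
  (((hf.mul (hf'.bdd ha)).mono (add_zero a).le).add (hf'.cmul c)).congr
    (Eventually.of_forall fun x => by ring)

theorem as3_zero {q : ℝ} (hq : 0 < q) {φ : ℝ → ℝ} {a b : ℝ} (hab : b + a = -q)
    (hφ : φ =O[atTop] fun t : ℝ => t ^ a) : Tendsto (fun t => t ^ b * φ t) atTop (𝓝 0) := by
  refine (((isBigO_refl (fun t : ℝ => t ^ b) atTop).mul hφ).congr' EventuallyEq.rfl
    ?_).trans_tendsto (tendsto_rpow_neg_atTop hq)
  filter_upwards [eventually_gt_atTop 0] with t ht
  rw [← Real.rpow_add ht, hab]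

theorem as3_avg (hn : 0 < n) {ρ q c : ℝ} (hq : 0 < q) {F : Euc n → ℝ}
    (hF : ∀ x : Euc n, ρ < ‖x‖ → ContinuousAt F x) (hO : OO (-q) fun x => F x - c) :
    Tendsto (fun t => sInt t F / t ^ ((n : ℝ) - 1)) atTop (𝓝 (c * omega n)) := by
  have h1 := (as3_zero hq (b := -((n : ℝ) - 1)) (by ring) hO.int_O).add_const (c * omega n)
  rw [zero_add] at h1
  refine h1.congr' ?_
  filter_upwards [eventually_gt_atTop 0, eventually_gt_atTop ρ] with t h0 ht
  have e : t ^ (n - 1) = t ^ ((n : ℝ) - 1) := by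
    rw [← Real.rpow_natCast, Nat.cast_pred hn]
  have := Real.rpow_pos_of_pos h0 ((n : ℝ) - 1)
  rw [sInt_sub h0 (fun x hx => hF x (hx ▸ ht)) fun _ _ => continuousAt_const, sInt_cst, e,
    Real.rpow_neg h0.le]
  field_simp
  ring

theorem as3_tan {ρ : ℝ} {g : Fld n} (h : Met ρ g) (K : Fld n) {x : Euc n} (hx : ρ < ‖x‖) :
    ∑ k, Xv g K k x * nl g k x = 0 := by
  have e : ∑ k, (∑ j, ∑ l, (g x)⁻¹ k j * K x j l * nu g l x) * nl g k x =
      ∑ j, ∑ l, K x j l * nu g j x * nu g l x := by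
    simp only [Finset.sum_mul]
    rw [Finset.sum_comm]
    refine Finset.sum_congr rfl fun j _ => ?_
    rw [Finset.sum_comm]
    refine Finset.sum_congr rfl fun l _ => ?_
    rw [nor_nu h hx j, Finset.mul_sum, Finset.sum_mul]
    exact Finset.sum_congr rfl fun k _ => by rw [nor_gi h hx k j]; ring
  simp only [Xv, sub_mul, Finset.sum_sub_distrib, e, mul_assoc _ (nu g _ x) (nl g _ x),
    ← Finset.mul_sum, nor_unit h hx, mul_one, sub_self]

section
variable {ρ q : ℝ} {g K : Fld n} (h : Met ρ g) (hq : 0 < q) (hd : DecU q g K)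
include h hq hd

variable (hn : 3 ≤ n) {η κ : ℝ → ℝ}
  (hη : ∀ x : Euc n, ρ < ‖x‖ → lapse g x * meanH g x = η ‖x‖)
  (hκ : ∀ x : Euc n, ρ < ‖x‖ → lapse g x * trS g K x = κ ‖x‖)
include hn hη hκ

omit hκ in
theorem eta_lim : Tendsto (fun t => t * η t) atTop (𝓝 ((n : ℝ) - 1)) := by
  have h1 := (as3_mul (neg_nonpos.2 hq.le) (oo_lapse h hq hd).1 (oo_meanH h hq hd)).rad
    (by omega) (φ := fun t => t * η t - ((n : ℝ) - 1)) ((lc_ev ρ).mono fun x hx => by
      rw [← hη x hx]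
      ring)
  exact tendsto_sub_nhds_zero_iff.1 (h1.trans_tendsto (tendsto_rpow_neg_atTop hq))

omit hη in
theorem kappa_O : κ =O[atTop] fun t : ℝ => t ^ (-q - 1) := by
  exact ((((oo_lapse h hq hd).1.bdd (neg_nonpos.2 hq.le)).mul (oo_trS h hq hd)).mono
    (zero_add _).le).rad (by omega) ((lc_ev ρ).mono hκ)

omit hη in
theorem as3_kappa : Tendsto (fun t => t * κ t) atTop (𝓝 0) := by
  simpa using as3_zero hq (b := 1) (by ring) (kappa_O h hq hd hn hκ)

theorem ev_untr : ∀ᶠ r in atTop, 0 < η r + κ r ∧ 0 < η r - κ r := by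
  have h3 : (3 : ℝ) ≤ n := by exact_mod_cast hn
  filter_upwards [(eta_lim h hq hd hn hη).eventually (lt_mem_nhds (show 1 < (n : ℝ) - 1 by
    linarith)), (as3_kappa h hq hd hn hκ).eventually (gt_mem_nhds one_pos),
    (as3_kappa h hq hd hn hκ).eventually (lt_mem_nhds neg_one_lt_zero), eventually_gt_atTop 0]
    with r h1 h2 h4 h0
  exact ⟨(mul_pos_iff_of_pos_left h0).1 (by linarith), (mul_pos_iff_of_pos_left h0).1 (by linarith)⟩

omit hη hκ in
theorem area_lim : Tendsto (fun t => area g t / omega n / t ^ ((n : ℝ) - 1)) atTop (𝓝 1) := by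
  have h0 := omega_pos' (n := n) (by omega)
  have h1 := (as3_avg (by omega) hq (fun x hx => (h.sm_dens hx).continuousAt)
    (oo_dens h hq hd)).div_const (omega n)
  rw [one_mul, div_self h0.ne'] at h1
  refine h1.congr' ?_
  filter_upwards [eventually_gt_atTop ρ] with t ht
  rw [area_LI h ht, LI, div_right_comm]
  simp only [mul_one]

/-- `r * wf = √((r H)^2 - (r k)^2) → n - 1`, `OO.comp`. -/
theorem oo_wf : OO (-q) (fun x => ‖x‖ * wf g K x - ((n : ℝ) - 1)) := by
  have _ := hη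
  have _ := hκ
  have h3 : (3 : ℝ) ≤ n := by exact_mod_cast hn
  have h4 : 0 < (n : ℝ) - 1 := by linarith
  have h1 : OO (-q) fun x : Euc n => ‖x‖ ^ (1 : ℝ) * trS g K x :=
    ((OO.rpow 1).mul (oo_trS h hq hd)).mono (by linarith)
  have h2 : OO (-q) fun x : Euc n => ‖x‖ ^ 2 * (meanH g x ^ 2 - trS g K x ^ 2) -
      ((n : ℝ) - 1) ^ 2 :=
    ((as3_mul (neg_nonpos.2 hq.le) (oo_meanH h hq hd) (oo_meanH h hq hd)).sub
      ((h1.mul h1).mono (by linarith))).congr (Eventually.of_forall fun x => by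
        rw [Real.rpow_one]
        ring)
  refine (h2.comp (neg_lt_zero.2 hq) (F := Real.sqrt)
    (Real.hasDerivAt_sqrt (by positivity)).differentiableAt).congr
    (Eventually.of_forall fun x => ?_)
  rw [Real.sqrt_sq h4.le, Real.sqrt_mul (sq_nonneg _), Real.sqrt_sq (norm_nonneg _), wf]

theorem LIw_lim : Tendsto (fun t => LI g t (wf g K) / t ^ ((n : ℝ) - 2)) atTop
    (𝓝 (((n : ℝ) - 1) * omega n)) := by
  have h3 : (3 : ℝ) ≤ n := by exact_mod_cast hn
  have h1 := (((eta_lim h hq hd hn hη).pow 2).sub ((as3_kappa h hq hd hn hκ).pow 2)).sqrt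
  rw [zero_pow two_ne_zero, sub_zero, Real.sqrt_sq (by linarith)] at h1
  have h2 := as3_avg (by omega) hq (F := fun x => dens g x * (lapse g x)⁻¹) (fun x hx =>
    (h.sm_dens hx).continuousAt.mul ((h.sm_lapse hx).continuousAt.inv₀ (h.lapse_pos hx).ne'))
    (as3_mul (neg_nonpos.2 hq.le) (oo_dens h hq hd) ((oo_lapse h hq hd).1.comp (neg_lt_zero.2 hq)
      (F := fun s => s⁻¹) (differentiableAt_inv one_ne_zero)))
  have h4 := h1.mul h2
  rw [inv_one, mul_one, one_mul] at h4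
  refine h4.congr' ?_
  filter_upwards [eventually_gt_atTop ρ] with t ht
  have h0 := h.pos.trans ht
  have e : LI g t (wf g K) = √(η t ^ 2 - κ t ^ 2) * sInt t fun x => dens g x * (lapse g x)⁻¹ := by
    rw [← sInt_cmul]
    refine sInt_congr h0 fun x hx => ?_
    have hl := h.lapse_pos (x := x) (hx ▸ ht)
    have e1 : η t ^ 2 - κ t ^ 2 = lapse g x ^ 2 * (meanH g x ^ 2 - trS g K x ^ 2) := by
      rw [← hx, ← hη x (hx ▸ ht), ← hκ x (hx ▸ ht)]
      ring
    rw [e1, Real.sqrt_mul (sq_nonneg _), Real.sqrt_sq hl.le, wf]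
    field_simp
  have := Real.rpow_pos_of_pos h0 ((n : ℝ) - 2)
  rw [e, mul_pow, mul_pow, ← mul_sub, Real.sqrt_mul (sq_nonneg _), Real.sqrt_sq h0.le,
    show (n : ℝ) - 1 = (n : ℝ) - 2 + 1 by ring, Real.rpow_add_one h0.ne']
  field_simp

omit hη in
/-- `oo_mom`; `trS = κ / lapse` and `sInt_coord`; the field `lapse * Xv k * x_i` is tangential with
`divg = lapse * Xv i`, so `sInt (√det * lapse * Xv i) = 0` (`LI_div_tan`, `divg_mul`). -/
theorem mom_zero (hq' : ((n : ℝ) - 2) / 2 < q)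
    (hK : ∀ x : Euc n, ρ < ‖x‖ → ∀ i j, ContDiffAt ℝ ∞ (fun y => K y i j) x)
    (hX : ∀ x : Euc n, ρ < ‖x‖ → divg g (fun i y => lapse g y * Xv g K i y) x = 0) (i : Fin n) :
    Tendsto (momFlux g K i) atTop (𝓝 0) := by
  have hq0 := neg_nonpos.2 hq.le
  have hl := (oo_lapse h hq hd).1
  have h1 := (as3_mul hq0 (oo_dens h hq hd) (as3_mul hq0 hl hl)).mul (oo_Xv h hq hd i)
  have h2 := (hl.mul (oo_trS h hq hd)).mul (OO.theta i)
  have h3 : OO (-2 * q - 1) fun x => ∑ j, mom g K x i j * (x j / ‖x‖) -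
      dens g x * (lapse g x * (lapse g x * Xv g K i x)) + lapse g x * trS g K x / ‖x‖ * x i :=
    (((oo_mom h hq hd i).sub (h1.mono (by linarith))).add (h2.mono (by linarith))).congr
      (Eventually.of_forall fun x => by ring)
  have h4 := (h3.int_zero (by linarith)).const_mul (2 * cn n)
  rw [mul_zero] at h4
  refine h4.congr' ?_
  filter_upwards [eventually_gt_atTop ρ] with t ht
  have h0 := h.pos.trans ht
  have sX : ∀ x : Euc n, ρ < ‖x‖ → ∀ k, ContDiffAt ℝ ∞ (fun y => lapse g y * Xv g K k y) x :=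
    fun x hx k => (h.sm_lapse hx).mul ((h.sm_trS hx (hK x hx)).2.2 k)
  have sN : ∀ x : Euc n, ρ < ‖x‖ → ContDiffAt ℝ ∞ (fun y : Euc n => ‖y‖) x := fun x hx =>
    contDiffAt_norm ℝ (sm0_ne h hx)
  have c1 : CS t fun x => ∑ j, mom g K x i j * (x j / ‖x‖) := fun x hx => by
    have hx' : ρ < ‖x‖ := hx ▸ ht
    exact (ContDiffAt.sum fun j _ => ((hK x hx' i j).sub ((h.sm_trS hx' (hK x hx')).1.mul
      (h.sm x hx' i j))).mul ((sm0_co j).div (sN x hx') (h.pos.trans hx').ne')).continuousAt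
  have c2 : CS t fun x => dens g x * (lapse g x * (lapse g x * Xv g K i x)) := fun x hx =>
    ((h.sm_dens (hx ▸ ht)).mul ((h.sm_lapse (hx ▸ ht)).mul (sX x (hx ▸ ht) i))).continuousAt
  have c3 : CS t fun x => lapse g x * trS g K x / ‖x‖ * x i := fun x hx => by
    have hx' : ρ < ‖x‖ := hx ▸ ht
    exact ((((h.sm_lapse hx').mul (h.sm_trS hx' (hK x hx')).2.1).div (sN x hx')
      (h.pos.trans hx').ne').mul (sm0_co i)).continuousAt
  have e2 : sInt t (fun x => dens g x * (lapse g x * (lapse g x * Xv g K i x))) = 0 := by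
    refine Eq.trans (LI_congr h ht fun x hx => ?_) (LI_div_tan h ht (by omega)
      (V := fun k y => y i * (lapse g y * Xv g K k y))
      (fun x hx k => (sm0_co i).mul (sX x hx k)) fun x hx => ?_)
    · have hx' : ρ < ‖x‖ := hx ▸ ht
      rw [divg_mul h hx' ((sm0_co i).differentiableAt (by simp))
        fun k => (sX x hx' k).differentiableAt (by simp), hX x hx']
      simp [pd_coord]
    · simp only [mul_assoc, ← Finset.mul_sum, as3_tan h K hx, mul_zero]
  have e3 : sInt t (fun x => lapse g x * trS g K x / ‖x‖ * x i) = 0 := by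
    rw [sInt_congr h0 (h := fun x => κ t / t * x i) fun x hx => by rw [hκ x (hx ▸ ht), hx],
      sInt_cmul, sInt_coord (by omega) h0, mul_zero]
  rw [sInt_add h0 (fun x hx => (c1 x hx).fun_sub (c2 x hx)) c3, sInt_sub h0 c1 c2, e2, e3, sub_zero,
    add_zero, momFlux]
  congr 1
  exact sInt_congr h0 fun x hx => by rw [hx]

end

end Vale.Agent.P366
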