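import Vale.Agent.P366I.Lich

/-! First order identities along the leaves. -/

noncomputable section

open Matrix MeasureTheory Set Filter Topology Asymptotics
open scoped ContDiff

namespace Vale.Agent.P366

variable {n : ℕ} {ι : Type} [Fintype ι] [DecidableEq ι]

theorem lich2_smul (S : Euc n → Fin n → Ms ι) {x : Euc n} {f : Euc n → ℝ} {φ : Euc n → ι → ℝ}
    (hf : DifferentiableAt ℝ f x) (hφ : ∀ s, DifferentiableAt ℝ (fun y => φ y s) x) (k : Fin n) :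
    cov S (fun y => f y • φ y) x k = pd f k x • φ x + f x • cov S φ x k := by
  funext s
  simp only [cov, pdV, Pi.add_apply, Pi.smul_apply, smul_eq_mul, Matrix.mulVec_smul]
  rw [pd_mul hf (hφ s)]
  ring

theorem lich2_add (S : Euc n → Fin n → Ms ι) {x : Euc n} {φ χ : Euc n → ι → ℝ}
    (hφ : ∀ s, DifferentiableAt ℝ (fun y => φ y s) x)
    (hχ : ∀ s, DifferentiableAt ℝ (fun y => χ y s) x) (k : Fin n) :
    cov S (fun y => φ y + χ y) x k = cov S φ x k + cov S χ x k := by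
  funext s
  simp only [cov, pdV, Pi.add_apply, Matrix.mulVec_add]
  rw [pd_add (hφ s) (hχ s)]
  ring

theorem lich2_sum (S : Euc n → Fin n → Ms ι) {x : Euc n} {φ : Fin n → Euc n → ι → ℝ}
    (hφ : ∀ a s, DifferentiableAt ℝ (fun y => φ a y s) x) (k : Fin n) :
    cov S (fun y => ∑ a, φ a y) x k = ∑ a, cov S (φ a) x k := by
  funext s
  simp only [cov, pdV, Pi.add_apply, Finset.sum_apply, Matrix.mulVec_sum, Finset.sum_add_distrib]
  rw [pd_sum Finset.univ (F := fun a y => φ a y s) fun a _ => hφ a s]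

theorem lich2_sm {ρ : ℝ} {M : Euc n → Ms ι} {ψ : Euc n → ι → ℝ}
    (hM : ∀ x : Euc n, ρ < ‖x‖ → ∀ s t, ContDiffAt ℝ ∞ (fun y => M y s t) x) (hψ : SmU ρ ψ) :
    SmU ρ fun y => M y *ᵥ ψ y :=
  fun y hy s => ContDiffAt.sum fun t _ => (hM y hy s t).mul (hψ y hy t)

theorem lich2_d {f : Euc n → ℝ} {x : Euc n} (hf : ContDiffAt ℝ ∞ f x) : DifferentiableAt ℝ f x :=
  hf.differentiableAt (by simp)

theorem lich2_skew {M : Ms ι} (hM : Mᵀ = -M) (u v : ι → ℝ) : u ⬝ᵥ (M *ᵥ v) = -((M *ᵥ u) ⬝ᵥ v) := by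
  rw [Matrix.dotProduct_mulVec, ← Matrix.mulVec_transpose, hM, Matrix.neg_mulVec, neg_dotProduct]

section
variable {ρ : ℝ} {g : Fld n} {γ S : Euc n → Fin n → Ms ι} (h : Geo ρ g γ S) {x : Euc n}
  (hx : ρ < ‖x‖) {ψ : Euc n → ι → ℝ} (hψ : SmU ρ ψ)
include h hx hψ

theorem cov_ns : cov S (fun y => ns g γ y *ᵥ ψ y) x
    = p2A (γ x) (nlV g x) (sff g x) (acc g x) (ψ x) (cov S ψ x) := by
  funext k
  have hγ : ∀ j, SmU ρ fun y => γ y j *ᵥ ψ y := fun j =>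
    lich2_sm (fun y hy => h.smγ y hy j) hψ
  have e : (fun y => ns g γ y *ᵥ ψ y) = fun y => ∑ j, nl g j y • (γ y j *ᵥ ψ y) := by
    funext y
    simp only [ns, nsA, nlV, Matrix.sum_mulVec, Matrix.smul_mulVec]
  have d : ∀ j s, DifferentiableAt ℝ (fun y => (nl g j y • (γ y j *ᵥ ψ y)) s) x := fun j s =>
    lich2_d ((h.met.sm_nl hx j).mul (hγ j x hx s))
  rw [e, lich2_sum S d]
  have e1 : ∀ j, cov S (fun y => nl g j y • (γ y j *ᵥ ψ y)) x k =
      pd (nl g j) k x • (γ x j *ᵥ ψ x) + (nl g j x • (γ x j *ᵥ cov S ψ x k) -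
        ∑ l, (chr g j k l x * nl g j x) • (γ x l *ᵥ ψ x)) := fun j => by
    rw [lich2_smul S (lich2_d (h.met.sm_nl hx j)) fun s => lich2_d (hγ j x hx s),
      cov_gam h hx hψ, smul_sub, Finset.smul_sum]
    simp only [smul_smul, mul_comm]
  have e2 : ∀ j, sff g x k j + nlV g x k * acc g x j =
      pd (nl g j) k x - ∑ m, chr g m k j x * nl g m x := fun j => sub_add_cancel _ _
  simp only [e1, p2A, e2, nsA, Matrix.sum_mulVec, Matrix.smul_mulVec, sub_smul, Finset.sum_smul,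
    Finset.sum_add_distrib, Finset.sum_sub_distrib]
  rw [Finset.sum_comm (f := fun j l => (chr g j k l x * nl g j x) • (γ x l *ᵥ ψ x))]
  simp only [nlV]
  abel

theorem DS_ns : DS g γ S (fun y => ns g γ y *ᵥ ψ y) x = -(ns g γ x *ᵥ DS g γ S ψ x) := by
  unfold DS
  rw [cov_ns h hx hψ]
  exact (pt_of h hx).ds_ns _ _

theorem dn_sq : dn g (fun y => ψ y ⬝ᵥ ψ y) x = 2 * (pn g S ψ x ⬝ᵥ ψ x) := by
  simp only [dn, pd_dot h hx hψ hψ, pn, pnA, nuV, sum_dotProduct, smul_dotProduct, smul_eq_mul,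
    Finset.mul_sum]
  refine Finset.sum_congr rfl fun k _ => ?_
  rw [dotProduct_comm (ψ x)]
  ring

theorem wit_flux : ∑ k, wit g γ S ψ k x * nl g k x
    = ψ x ⬝ᵥ DS g γ S ψ x - meanH g x / 2 * (ψ x ⬝ᵥ ψ x) := by
  rw [← trA_sff h.met hx]
  exact (pt_of h hx).wit_flux _ _

theorem DS_eq : DS g γ S ψ x = ∑ k, bt g γ x k *ᵥ pdV ψ k x + Zm g γ S x *ᵥ ψ x
    + (meanH g x / 2) • ψ x := by
  unfold DS dsA
  rw [trA_sff h.met hx]
  simp only [cov, Zm, bt, Matrix.mulVec_add, Matrix.mulVec_mulVec, Matrix.sum_mulVec,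
    Finset.sum_add_distrib]

theorem lich2_div : ∑ k, cov S (fun y => bt g γ y k *ᵥ ψ y) x k +
    ∑ i, ∑ l, chr g i i l x • (bt g γ x l *ᵥ ψ x) =
      ∑ k, bt g γ x k *ᵥ cov S ψ x k - ∑ k, acc g x k • (bt g γ x k *ᵥ ψ x) := by
  have hγ : ∀ j, SmU ρ fun y => γ y j *ᵥ ψ y := fun j =>
    lich2_sm (fun y hy => h.smγ y hy j) hψ
  have e : ∀ k, cov S (fun y => bt g γ y k *ᵥ ψ y) x k +
      ∑ l, chr g k k l x • (bt g γ x l *ᵥ ψ x) = bt g γ x k *ᵥ cov S ψ x k +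
        (((∑ j, (sff g x k j + nlV g x k * acc g x j) • γ x j) * γ x k) *ᵥ ψ x +
          (pd (nu g k) k x • ψ x + (∑ l, chr g k k l x * nu g l x) • ψ x)) := fun k => by
    have e0 : (fun y => bt g γ y k *ᵥ ψ y) =
        fun y => ns g γ y *ᵥ (γ y k *ᵥ ψ y) + nu g k y • ψ y := by
      funext y
      simp only [bt, btA, ns, nuV, Matrix.add_mulVec, Matrix.smul_mulVec, Matrix.one_mulVec,
        Matrix.mulVec_mulVec]
    rw [e0, lich2_add S (φ := fun y => ns g γ y *ᵥ (γ y k *ᵥ ψ y)) (χ := fun y => nu g k y • ψ y)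
      (fun s => lich2_d (h.smU_ns (hγ k) x hx s))
      (fun s => lich2_d ((h.met.sm_nu hx k).mul (hψ x hx s))), cov_ns h hx (hγ k),
      lich2_smul S (lich2_d (h.met.sm_nu hx k)) fun s => lich2_d (hψ x hx s)]
    simp only [p2A, cov_gam h hx hψ, bt, btA, nuV, Matrix.add_mulVec, Matrix.smul_mulVec,
      Matrix.one_mulVec, ← Matrix.mulVec_mulVec, Matrix.sum_mulVec, Matrix.mulVec_sub,
      Matrix.mulVec_sum, Matrix.mulVec_smul, smul_add, Finset.sum_add_distrib, Finset.sum_smul,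
      smul_smul]
    abel
  have hd := congrArg (fun M => M *ᵥ ψ x) (pt_of h hx).div_bt
  simp only [trA_sff h.met hx, meanH, Matrix.add_mulVec, Matrix.neg_mulVec, Matrix.smul_mulVec,
    Matrix.one_mulVec] at hd
  rw [Matrix.sum_mulVec, Matrix.sum_mulVec, add_smul (∑ i, pd (nu g i) i x), Finset.sum_smul,
    Finset.sum_smul] at hd
  simp only [Matrix.smul_mulVec] at hd
  rw [← Finset.sum_add_distrib, Finset.sum_congr rfl fun k _ => e k, Finset.sum_add_distrib,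
    Finset.sum_add_distrib, Finset.sum_add_distrib, sub_eq_add_neg]
  exact congrArg (fun v => ∑ k, bt g γ x k *ᵥ cov S ψ x k + v) hd

/-- `∇_k β^k = -β(acc)` (`Pt.div_bt`, `cov_nu`, `cov_gam`), which cancels the derivative of
`1/lapse` (`acc_eq`, `Pt.bt_tan`). -/
theorem div_sym {χ : Euc n → ι → ℝ} (hχ : SmU ρ χ) :
    divg g (fun k y => (lapse g y)⁻¹ * (ψ y ⬝ᵥ (bt g γ y k *ᵥ χ y))) x
      = (lapse g x)⁻¹ * (ψ x ⬝ᵥ DS g γ S χ x - DS g γ S ψ x ⬝ᵥ χ x) := by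
  have hb : ∀ k, SmU ρ fun y => bt g γ y k *ᵥ χ y := fun k =>
    lich2_sm (fun y hy => h.sm_bt hy k) hχ
  have hu := h.met.lapse_pos hx
  have hp := pt_of h hx
  rw [divg_mul h.met hx (f := fun y => (lapse g y)⁻¹)
    (V := fun k y => ψ y ⬝ᵥ (bt g γ y k *ᵥ χ y)) ((lich2_d (h.met.sm_lapse hx)).inv hu.ne')
    fun k => lich2_d (hψ.dot (hb k) hx)]
  have e1 : ∀ i, pd (fun y => (lapse g y)⁻¹) i x =
      (lapse g x)⁻¹ * (acc g x i - dn g (lapse g) x / lapse g x * nl g i x) := fun i => by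
    rw [pd_comp (φ := fun t => t⁻¹) (differentiableAt_inv hu.ne') (lich2_d (h.met.sm_lapse hx)),
      deriv_inv, acc_eq h.met hx]
    have := hu.ne'
    field_simp
    ring
  have e2 : ∑ i, nl g i x * (ψ x ⬝ᵥ (bt g γ x i *ᵥ χ x)) = 0 := by
    have e := congrArg (fun M => ψ x ⬝ᵥ (M *ᵥ χ x)) hp.bt_tan
    simp only [Matrix.sum_mulVec, Matrix.smul_mulVec, dotProduct_sum, dotProduct_smul,
      smul_eq_mul, Matrix.zero_mulVec, dotProduct_zero] at e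
    exact e
  have e3 := congrArg (fun v => ψ x ⬝ᵥ v) (lich2_div h hx hχ)
  simp only [dotProduct_add, dotProduct_sub, dotProduct_sum, dotProduct_smul, smul_eq_mul] at e3
  have e4 : ∀ k, pd (fun y => ψ y ⬝ᵥ (bt g γ y k *ᵥ χ y)) k x =
      ψ x ⬝ᵥ cov S (fun y => bt g γ y k *ᵥ χ y) x k - (bt g γ x k *ᵥ cov S ψ x k) ⬝ᵥ χ x :=
    fun k => by
      rw [pd_dot h hx hψ (hb k), lich2_skew (M := bt g γ x k) (hp.bt_skew k)]
      ring
  have e5 : ψ x ⬝ᵥ DS g γ S χ x - DS g γ S ψ x ⬝ᵥ χ x =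
      ∑ k, ψ x ⬝ᵥ (bt g γ x k *ᵥ cov S χ x k) - ∑ k, (bt g γ x k *ᵥ cov S ψ x k) ⬝ᵥ χ x := by
    simp only [DS, dsA, bt, dotProduct_add, add_dotProduct, dotProduct_sum, sum_dotProduct,
      dotProduct_smul, smul_dotProduct]
    ring
  have e6 : ∑ i, (lapse g x)⁻¹ * (acc g x i - dn g (lapse g) x / lapse g x * nl g i x) *
      (ψ x ⬝ᵥ (bt g γ x i *ᵥ χ x)) =
      (lapse g x)⁻¹ * (∑ i, acc g x i * (ψ x ⬝ᵥ (bt g γ x i *ᵥ χ x)) -
        dn g (lapse g) x / lapse g x * ∑ i, nl g i x * (ψ x ⬝ᵥ (bt g γ x i *ᵥ χ x))) := by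
    rw [Finset.mul_sum Finset.univ _ (dn g (lapse g) x / lapse g x), ← Finset.sum_sub_distrib,
      Finset.mul_sum]
    exact Finset.sum_congr rfl fun i _ => by ring
  simp only [e1, divg, e4, Finset.sum_sub_distrib]
  rw [e5, e6, e2]
  linear_combination (lapse g x)⁻¹ * e3

end

end Vale.Agent.P366
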