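import Vale.Agent.P366I.PA1

/-! Sum and difference of the Lichnerowicz terms of `ψ` and `ν · ψ` (checked numerically). -/

noncomputable section

open Matrix MeasureTheory Set Filter Topology Asymptotics
open scoped ContDiff

namespace Vale.Agent.P366

variable {n : ℕ} {ι : Type} [Fintype ι] [DecidableEq ι]

section
variable {gi : Mn n} {γ : Fin n → Ms ι} {ν νl ac : Fin n → ℝ} {A : Mn n}
  (h : Pt gi γ ν νl A ac) (ψ : ι → ℝ) (P : Fin n → ι → ℝ)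
include h


theorem pa2_quad (Q R : Fin n → ι → ℝ) (c : ℝ) : nTA gi (fun k => Q k + c • R k) =
    nTA gi Q + 2 * c * (∑ k, ∑ l, gi k l * (Q k ⬝ᵥ R l)) + c ^ 2 * nTA gi R := by
  have e : ∑ k, ∑ l, gi k l * (R k ⬝ᵥ Q l) = ∑ k, ∑ l, gi k l * (Q k ⬝ᵥ R l) := by
    rw [Finset.sum_comm]
    exact Finset.sum_congr rfl fun k _ => Finset.sum_congr rfl fun l _ => by
      rw [dotProduct_comm, show gi l k = gi k l from h.pos.isHermitian.apply k l]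
  simp only [nTA, add_dotProduct, dotProduct_add, smul_dotProduct, dotProduct_smul, smul_eq_mul,
    mul_add, Finset.sum_add_distrib, mul_left_comm (gi _ _) c, ← Finset.mul_sum, e]
  ring

theorem pa2_up (v : ι → ℝ) : ∑ k, ∑ l, gi k l * (P k ⬝ᵥ νl l • v) = pnA ν P ⬝ᵥ v := by
  have e : ∀ k, ∑ l, gi k l * νl l = ν k := fun k => (congrFun h.up k).symm
  simp only [pnA, sum_dotProduct, smul_dotProduct, dotProduct_smul, smul_eq_mul, ← mul_assoc,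
    ← Finset.sum_mul, e]

theorem pa2_nb (a : Fin n → ℝ) (ha : a ⬝ᵥ ν = 0) :
    nsA γ νl *ᵥ ∑ j, a j • (btA γ ν νl j *ᵥ ψ) = -∑ j, a j • (γ j *ᵥ ψ) := by
  have e : ∀ k, nsA γ νl * btA γ ν νl k = -γ k + ν k • nsA γ νl := fun k => by
    rw [btA, mul_add, ← mul_assoc, h.ns_sq, neg_mul, one_mul, mul_smul_comm, mul_one]
  have e' : ∑ j, a j * ν j = 0 := ha
  simp only [mulVec_sum, mulVec_smul, mulVec_mulVec, e, add_mulVec, neg_mulVec, smul_mulVec,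
    smul_add, smul_neg, Finset.sum_add_distrib, smul_smul, ← Finset.sum_smul,
    Finset.sum_neg_distrib, e', zero_smul, add_zero]

theorem pa2_dot (j m : Fin n) :
    (btA γ ν νl j *ᵥ ψ) ⬝ᵥ (btA γ ν νl m *ᵥ ψ) = (gi j m - ν j * ν m) * (ψ ⬝ᵥ ψ) := by
  have e : ∀ j m, (btA γ ν νl j *ᵥ ψ) ⬝ᵥ (btA γ ν νl m *ᵥ ψ) =
      -(ψ ⬝ᵥ (btA γ ν νl j * btA γ ν νl m) *ᵥ ψ) := fun j m => by
    rw [← mulVec_mulVec, dotProduct_mulVec ψ, ← mulVec_transpose, h.bt_skew, neg_mulVec,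
      neg_dotProduct, neg_neg]
  have e2 := congrArg (fun M => ψ ⬝ᵥ M *ᵥ ψ) (h.bt_ac j m)
  simp only [add_mulVec, dotProduct_add, smul_mulVec, one_mulVec, dotProduct_smul,
    smul_eq_mul] at e2
  linarith [e j m, e m j, dotProduct_comm (btA γ ν νl j *ᵥ ψ) (btA γ ν νl m *ᵥ ψ)]

theorem pa2_R : nTA gi (fun k => ∑ j, A k j • (btA γ ν νl j *ᵥ ψ)) = ipA gi A A * (ψ ⬝ᵥ ψ) := by
  simp only [nTA, ipA, Finset.sum_mul]
  refine Finset.sum_congr rfl fun k _ => Finset.sum_congr rfl fun l _ => ?_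
  have e : ∑ m, A l m * ν m = 0 := congrFun h.tanA l
  simp only [sum_dotProduct, Finset.mul_sum]
  refine Finset.sum_congr rfl fun j _ => ?_
  have e2 : ∑ m, gi k l * A k j * ν j * (ψ ⬝ᵥ ψ) * (A l m * ν m) = 0 := by
    rw [← Finset.mul_sum, e, mul_zero]
  simp only [dotProduct_sum, smul_dotProduct, dotProduct_smul, pa2_dot h, smul_eq_mul,
    Finset.mul_sum]
  rw [← sub_zero (∑ m, gi k l * gi j m * A k j * A l m * (ψ ⬝ᵥ ψ)), ← e2,
    ← Finset.sum_sub_distrib]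
  exact Finset.sum_congr rfl fun m _ => by ring

/-- `|γ^k P_k|^2 = |β^k P_k - P_ν|^2` and `|P|^2 = |P_T|^2 + |P_ν|^2`. -/
theorem Pt.lich_eq : lichA gi γ P = nTA gi (fun k => P k - νl k • pnA ν P)
    + 2 * (pnA ν P ⬝ᵥ ∑ k, btA γ ν νl k *ᵥ P k)
    - (∑ k, btA γ ν νl k *ᵥ P k) ⬝ᵥ (∑ k, btA γ ν νl k *ᵥ P k) := by
  have e1 : nsA γ νl *ᵥ ∑ k, γ k *ᵥ P k = ∑ k, btA γ ν νl k *ᵥ P k - pnA ν P := by
    simp only [btA, pnA, mulVec_sum, mulVec_mulVec, add_mulVec, smul_mulVec, one_mulVec,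
      Finset.sum_add_distrib, add_sub_cancel_right]
  have e2 := pa2_quad h P (fun k => νl k • pnA ν P) (-1)
  have e3 : pnA ν (fun k => νl k • pnA ν P) = pnA ν P := by
    have e : ∑ k, ν k * νl k = 1 := h.unit
    rw [pnA]
    simp only [smul_smul, ← Finset.sum_smul, e, one_smul]
  have e4 := pa2_up h (fun k => νl k • pnA ν P) (pnA ν P)
  rw [e3] at e4
  simp only [neg_smul, one_smul, ← sub_eq_add_neg, pa2_up h] at e2
  rw [lichA, ← h.ns_dot, e1, e2]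
  simp only [nTA, e4, sub_dotProduct, dotProduct_sub, dotProduct_comm _ (pnA ν P)]
  ring

theorem pa2_one : lichA gi γ P = nTA gi (cTA γ ν νl A ψ P) + crA gi γ ν νl A ψ (cTA γ ν νl A ψ P)
    + (1 / 4) * ipA gi A A * (ψ ⬝ᵥ ψ)
    + 2 * (pnA ν P ⬝ᵥ (dsA gi γ ν νl A ψ P - (trA gi A / 2) • ψ))
    - (dsA gi γ ν νl A ψ P - (trA gi A / 2) • ψ) ⬝ᵥ (dsA gi γ ν νl A ψ P - (trA gi A / 2) • ψ) := by
  have e1 : (fun k => P k - νl k • pnA ν P) = fun k => cTA γ ν νl A ψ P k +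
      (1 / 2 : ℝ) • ∑ j, A k j • (btA γ ν νl j *ᵥ ψ) := funext fun k => (sub_add_cancel _ _).symm
  rw [h.lich_eq, e1, pa2_quad h, pa2_R h, dsA, add_sub_cancel_right]
  simp only [crA, dotProduct_sum _ Finset.univ fun j => A _ j • _, dotProduct_smul, smul_eq_mul,
    Finset.mul_sum Finset.univ _ (gi _ _), mul_assoc]
  ring

theorem pa2_two : lichA gi γ (p2A γ νl A ac ψ P) = nTA gi (cTA γ ν νl A ψ P)
    - crA gi γ ν νl A ψ (cTA γ ν νl A ψ P) + (1 / 4) * ipA gi A A * (ψ ⬝ᵥ ψ)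
    - 2 * ((pnA ν P - baA γ ν νl ac ψ) ⬝ᵥ (dsA gi γ ν νl A ψ P + (trA gi A / 2) • ψ))
    - (dsA gi γ ν νl A ψ P + (trA gi A / 2) • ψ) ⬝ᵥ (dsA gi γ ν νl A ψ P + (trA gi A / 2) • ψ) := by
  have e0 : ∀ j, ∑ k, ν k * (A k j + νl k * ac j) = ac j := fun j => by
    have a1 : ∑ k, ν k * νl k = 1 := h.unit
    have a2 : ∑ k, ν k * A k j = 0 := (Finset.sum_congr rfl fun k _ => by
      rw [mul_comm, h.sym.apply]).trans (congrFun h.tanA j)
    simp only [mul_add, Finset.sum_add_distrib, ← mul_assoc, ← Finset.sum_mul, a1, a2, one_mul,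
      zero_add]
  have e1 : pnA ν (p2A γ νl A ac ψ P) = nsA γ νl *ᵥ (pnA ν P - baA γ ν νl ac ψ) := by
    rw [mulVec_sub, baA, pa2_nb h ψ ac h.tana, sub_neg_eq_add]
    simp only [pnA, p2A, smul_add, Finset.sum_add_distrib, mulVec_sum, mulVec_smul,
      Finset.smul_sum, smul_smul]
    rw [Finset.sum_comm]
    simp only [← Finset.sum_smul, e0]
  have e2 : (fun k => p2A γ νl A ac ψ P k - νl k • pnA ν (p2A γ νl A ac ψ P)) = fun k =>
      nsA γ νl *ᵥ (cTA γ ν νl A ψ P k + (-1 / 2 : ℝ) • ∑ j, A k j • (btA γ ν νl j *ᵥ ψ)) :=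
    funext fun k => by
      rw [e1, mulVec_sub, baA, pa2_nb h ψ ac h.tana]
      simp only [p2A, cTA, mulVec_add, mulVec_sub, mulVec_smul, add_smul, mul_smul,
        pa2_nb h ψ (A k) (congrFun h.tanA k), Finset.sum_add_distrib, ← Finset.smul_sum]
      module
  have e3 : ∑ k, btA γ ν νl k *ᵥ p2A γ νl A ac ψ P k =
      -(nsA γ νl *ᵥ (dsA gi γ ν νl A ψ P + (trA gi A / 2) • ψ)) := by
    rw [mulVec_add, neg_add, ← h.ds_ns, dsA, mulVec_smul, add_neg_cancel_right]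
  have e4 : ∀ X : Fin n → ι → ℝ, nTA gi (fun k => nsA γ νl *ᵥ X k) = nTA gi X := fun X => by
    simp only [nTA, h.ns_dot]
  rw [h.lich_eq, e2, e1, e3, e4, pa2_quad h, pa2_R h, neg_dotProduct_neg, dotProduct_neg,
    h.ns_dot, h.ns_dot]
  simp only [crA, dotProduct_sum _ Finset.univ fun j => A _ j • _, dotProduct_smul, smul_eq_mul,
    Finset.mul_sum Finset.univ _ (gi _ _), mul_assoc]
  ring

/-- Tangentially `P = cT + (1/2) A β ψ`, `p2A = ns (cT - (1/2) A β ψ)`;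
`β P = ds - (H/2) ψ`, `β p2A = -ns (ds + (H/2) ψ)`, `(p2A)_ν = ns (P_ν - ba)`. -/
theorem Pt.lich_sum : lichA gi γ P + lichA gi γ (p2A γ νl A ac ψ P)
    = 2 * nTA gi (cTA γ ν νl A ψ P) + (1 / 2) * ipA gi A A * (ψ ⬝ᵥ ψ)
      - 2 * (dsA gi γ ν νl A ψ P ⬝ᵥ dsA gi γ ν νl A ψ P) - (1 / 2) * trA gi A ^ 2 * (ψ ⬝ᵥ ψ)
      - 2 * trA gi A * (pnA ν P ⬝ᵥ ψ) + 2 * (baA γ ν νl ac ψ ⬝ᵥ dsA gi γ ν νl A ψ P) := by
  rw [pa2_one h ψ P, pa2_two h ψ P]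
  simp only [add_dotProduct, dotProduct_add, sub_dotProduct, dotProduct_sub, smul_dotProduct,
    dotProduct_smul, smul_eq_mul, h.ba_orth, dotProduct_comm ψ (dsA gi γ ν νl A ψ P)]
  ring

theorem Pt.lich_diff : (1 / 2) * (lichA gi γ P - lichA gi γ (p2A γ νl A ac ψ P))
    = crA gi γ ν νl A ψ (cTA γ ν νl A ψ P) + trA gi A * (dsA gi γ ν νl A ψ P ⬝ᵥ ψ)
      + 2 * (pnA ν P ⬝ᵥ dsA gi γ ν νl A ψ P) - baA γ ν νl ac ψ ⬝ᵥ dsA gi γ ν νl A ψ P := by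
  rw [pa2_one h ψ P, pa2_two h ψ P]
  simp only [add_dotProduct, dotProduct_add, sub_dotProduct, dotProduct_sub, smul_dotProduct,
    dotProduct_smul, smul_eq_mul, h.ba_orth, dotProduct_comm ψ (dsA gi γ ν νl A ψ P)]
  ring

end

end Vale.Agent.P366
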