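import Vale.Agent.P366I.Sph3
import Vale.Agent.P366I.Lich2
import Vale.Agent.P366I.PA2

/-! Integral identities on a leaf. -/

noncomputable section

open Matrix MeasureTheory Set Filter Topology Asymptotics
open scoped ContDiff

namespace Vale.Agent.P366

variable {n : ℕ} {ι : Type} [Fintype ι] [DecidableEq ι]

theorem id3_lin (g : Fld n) {V W : Fin n → Euc n → ℝ} {x : Euc n} (a b : ℝ)
    (hV : ∀ i, ContDiffAt ℝ ∞ (V i) x) (hW : ∀ i, ContDiffAt ℝ ∞ (W i) x) :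
    divg g (fun i y => a * V i y + b * W i y) x = a * divg g V x + b * divg g W x := by
  have e : ∀ i, pd (fun y => a * V i y + b * W i y) i x = a * pd (V i) i x + b * pd (W i) i x :=
    fun i => by
      rw [pd_add ((lich2_d (hV i)).const_mul a) ((lich2_d (hW i)).const_mul b),
        pd_cmul a (lich2_d (hV i)), pd_cmul b (lich2_d (hW i))]
  simp only [divg, e, mul_add, Finset.sum_add_distrib, mul_left_comm _ a, mul_left_comm _ b,
    ← Finset.mul_sum]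
  ring

theorem id3_der (hn : 0 < n) {ρ : ℝ} {g : Fld n} (h : Met ρ g) {t : ℝ} (ht : ρ < t)
    {V : Fin n → Euc n → ℝ} (hV : ∀ x : Euc n, ρ < ‖x‖ → ∀ k, ContDiffAt ℝ ∞ (V k) x)
    {F G : Euc n → ℝ} (hF : ∀ x : Euc n, ρ < ‖x‖ → ∑ k, V k x * nl g k x = F x)
    (hG : ∀ x : Euc n, ρ < ‖x‖ → divg g V x = G x) :
    HasDerivAt (fun s => LI g s F) (LI g t fun x => lapse g x * G x) t := by
  rw [← LI_congr h ht (F := fun x => lapse g x * divg g V x) fun x hx => by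
    rw [hG x (hx ▸ ht)]]
  refine (LI_div h ht hn hV).congr_of_eventuallyEq ?_
  filter_upwards [Ioi_mem_nhds ht] with s hs
  exact LI_congr h hs fun x hx => (hF x (hx ▸ hs)).symm

section
variable {ρ : ℝ} {g : Fld n} {γ S : Euc n → Fin n → Ms ι} (h : Geo ρ g γ S)
  {ψ : Euc n → ι → ℝ} (hψ : SmU ρ ψ) {x : Euc n} (hx : ρ < ‖x‖)
include h hψ hx

theorem id3_flux : ∑ k, wit g γ S (fun y => ns g γ y *ᵥ ψ y) k x * nl g k x
    = -(ψ x ⬝ᵥ DS g γ S ψ x) - meanH g x / 2 * (ψ x ⬝ᵥ ψ x) := by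
  rw [wit_flux h hx (h.smU_ns hψ), DS_ns h hx hψ, dotProduct_neg, ns, (pt_of h hx).ns_dot,
    (pt_of h hx).ns_dot]

theorem id3_div : divg g (wit g γ S fun y => ns g γ y *ᵥ ψ y) x
    = lichA (g x)⁻¹ (γ x) (p2A (γ x) (nlV g x) (sff g x) (acc g x) (ψ x) (cov S ψ x))
      + scal g x / 4 * (ψ x ⬝ᵥ ψ x) := by
  rw [div_wit h hx (h.smU_ns hψ), cov_ns h hx hψ, ns, (pt_of h hx).ns_dot]

theorem id3_nu {w : Euc n → ℝ} (hw : ContDiffAt ℝ ∞ w x) :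
    divg g (fun i y => w y * (ψ y ⬝ᵥ ψ y) * nu g i y) x = dn g w x * (ψ x ⬝ᵥ ψ x)
      + 2 * w x * (pn g S ψ x ⬝ᵥ ψ x) + meanH g x * w x * (ψ x ⬝ᵥ ψ x) := by
  have d := lich2_d (hψ.dot hψ hx)
  have e : dn g (fun y => w y * (ψ y ⬝ᵥ ψ y)) x
      = dn g w x * (ψ x ⬝ᵥ ψ x) + w x * dn g (fun y => ψ y ⬝ᵥ ψ y) x := by
    simp only [dn, pd_mul (lich2_d hw) d, mul_add, Finset.sum_add_distrib, Finset.sum_mul,
      Finset.mul_sum, mul_assoc, mul_left_comm]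
  rw [divg_fnu h.met hx (f := fun y => w y * (ψ y ⬝ᵥ ψ y)) ((lich2_d hw).mul d), e, dn_sq h hx hψ]
  ring

omit hψ in
theorem id3_un (c : ℝ) : ∑ k, c * nu g k x * nl g k x = c := by
  simp only [mul_assoc, ← Finset.mul_sum, nor_unit h.met hx, mul_one]

end

section
variable (hn : 0 < n) {ρ : ℝ} {g : Fld n} {γ S : Euc n → Fin n → Ms ι} (h : Geo ρ g γ S) {t : ℝ}
  (ht : ρ < t) {ψ : Euc n → ι → ℝ} (hψ : SmU ρ ψ)
include hn h ht hψ

/-- The field `wit ψ + wit (ns ψ) + H |ψ|^2 ν` has zero flux. -/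
theorem id_three : LI g t (fun x => lapse g x * (2 * nT g γ S ψ x
    + (1 / 2) * sq2 g x * (ψ x ⬝ᵥ ψ x) - 2 * (DS g γ S ψ x ⬝ᵥ DS g γ S ψ x)
    + (1 / 2) * meanH g x ^ 2 * (ψ x ⬝ᵥ ψ x) + 2 * (ba g γ ψ x ⬝ᵥ DS g γ S ψ x)
    + (scal g x / 2 + dn g (meanH g) x) * (ψ x ⬝ᵥ ψ x))) = 0 := by
  have s1 := fun x hx => h.sm_wit hψ (x := x) hx
  have s2 := fun x hx => h.sm_wit (h.smU_ns hψ) (x := x) hx
  have s3 : ∀ x : Euc n, ρ < ‖x‖ → ∀ k, ContDiffAt ℝ ∞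
      (fun y => 1 * wit g γ S ψ k y + 1 * wit g γ S (fun y => ns g γ y *ᵥ ψ y) k y) x :=
    fun x hx k => (contDiffAt_const.mul (s1 x hx k)).add (contDiffAt_const.mul (s2 x hx k))
  have s4 : ∀ x : Euc n, ρ < ‖x‖ → ∀ k, ContDiffAt ℝ ∞
      (fun y => meanH g y * (ψ y ⬝ᵥ ψ y) * nu g k y) x :=
    fun x hx k => ((h.met.sm_meanH hx).mul (hψ.dot hψ hx)).mul (h.met.sm_nu hx k)
  refine (LI_congr h.met ht fun x hx => ?_).trans (LI_div_tan h.met ht hn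
    (V := fun k y => 1 * (1 * wit g γ S ψ k y + 1 * wit g γ S (fun y => ns g γ y *ᵥ ψ y) k y)
      + 1 * (meanH g y * (ψ y ⬝ᵥ ψ y) * nu g k y))
    (fun x hx k => (contDiffAt_const.mul (s3 x hx k)).add (contDiffAt_const.mul (s4 x hx k)))
    fun x hx => ?_)
  · have hx' : ρ < ‖x‖ := hx ▸ ht
    have e := (pt_of h hx').lich_sum (ψ x) (cov S ψ x)
    rw [trA_sff h.met hx'] at e
    rw [id3_lin g 1 1 (s3 x hx') (s4 x hx'), id3_lin g 1 1 (s1 x hx') (s2 x hx'), div_wit h hx' hψ,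
      id3_div h hψ hx', id3_nu h hψ hx' (h.met.sm_meanH hx')]
    simp only [nT, cT, sq2, DS, ba, pn]
    linear_combination (-lapse g x) * e
  · simp only [one_mul, add_mul, Finset.sum_add_distrib, wit_flux h hx hψ, id3_flux h hψ hx,
      id3_un h hx]
    ring

/-- The field `(wit ψ - wit (ns ψ)) / 2` has flux `DS ψ · ψ`. -/
theorem id_one : HasDerivAt (fun s => LI g s (fun x => DS g γ S ψ x ⬝ᵥ ψ x))
    (LI g t (fun x => lapse g x * (cr g γ S ψ x + meanH g x * (DS g γ S ψ x ⬝ᵥ ψ x)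
      + 2 * (pn g S ψ x ⬝ᵥ DS g γ S ψ x) - ba g γ ψ x ⬝ᵥ DS g γ S ψ x))) t := by
  have s1 := fun x hx => h.sm_wit hψ (x := x) hx
  have s2 := fun x hx => h.sm_wit (h.smU_ns hψ) (x := x) hx
  refine id3_der hn h.met ht (V := fun k y => (1 / 2) * wit g γ S ψ k y
    + (-1 / 2) * wit g γ S (fun y => ns g γ y *ᵥ ψ y) k y)
    (fun x hx k => (contDiffAt_const.mul (s1 x hx k)).add (contDiffAt_const.mul (s2 x hx k)))
    (fun x hx => ?_) fun x hx => ?_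
  · simp only [add_mul, mul_assoc, Finset.sum_add_distrib, ← Finset.mul_sum, wit_flux h hx hψ,
      id3_flux h hψ hx, dotProduct_comm (ψ x) (DS g γ S ψ x)]
    ring
  · have e := (pt_of h hx).lich_diff (ψ x) (cov S ψ x)
    rw [trA_sff h.met hx] at e
    rw [id3_lin g _ _ (s1 x hx) (s2 x hx), div_wit h hx hψ, id3_div h hψ hx]
    simp only [cr, cT, DS, ba, pn]
    linear_combination e

/-- The field `w |ψ|^2 ν`. -/
theorem id_norm {w : Euc n → ℝ} (hw : ∀ x : Euc n, ρ < ‖x‖ → ContDiffAt ℝ ∞ w x) :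
    HasDerivAt (fun s => LI g s (fun x => w x * (ψ x ⬝ᵥ ψ x)))
      (LI g t (fun x => lapse g x * (dn g w x * (ψ x ⬝ᵥ ψ x) + 2 * w x * (pn g S ψ x ⬝ᵥ ψ x)
        + meanH g x * w x * (ψ x ⬝ᵥ ψ x)))) t :=
  id3_der hn h.met ht (V := fun k y => w y * (ψ y ⬝ᵥ ψ y) * nu g k y)
    (fun x hx k => ((hw x hx).mul (hψ.dot hψ hx)).mul (h.met.sm_nu hx k))
    (fun _ hx => id3_un h hx _) fun x hx => id3_nu h hψ hx (hw x hx)

/-- The Dirac operator of a leaf is symmetric. -/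
theorem DS_symm {χ : Euc n → ι → ℝ} (hχ : SmU ρ χ) :
    LI g t (fun x => DS g γ S ψ x ⬝ᵥ χ x) = LI g t (fun x => ψ x ⬝ᵥ DS g γ S χ x) := by
  have e := LI_div_tan h.met ht hn
    (V := fun k y => (lapse g y)⁻¹ * (ψ y ⬝ᵥ (bt g γ y k *ᵥ χ y)))
    (fun x hx k => ((h.met.sm_lapse hx).inv (h.met.lapse_pos hx).ne').mul
      (hψ.dot (lich2_sm (fun y hy => h.sm_bt hy k) hχ) hx)) fun x hx => by
      have e := congrArg (fun M => (lapse g x)⁻¹ * (ψ x ⬝ᵥ (M *ᵥ χ x))) (pt_of h hx).bt_tan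
      simp only [sum_mulVec, smul_mulVec, dotProduct_sum, dotProduct_smul, smul_eq_mul,
        zero_mulVec, dotProduct_zero, mul_zero, Finset.mul_sum] at e
      refine (Finset.sum_congr rfl fun k _ => ?_).trans e
      simp only [bt, nlV]
      ring
  rw [LI_congr h.met ht (G := fun x => ψ x ⬝ᵥ DS g γ S χ x - DS g γ S ψ x ⬝ᵥ χ x) fun x hx => by
    rw [div_sym h (hx ▸ ht) hψ hχ, mul_inv_cancel_left₀ (h.met.lapse_pos (hx ▸ ht)).ne'],
    LI_sub h.met ht (fun x hx => (hψ.dot (h.smU_DS hχ) (hx ▸ ht)).continuousAt)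
      fun x hx => ((h.smU_DS hψ).dot hχ (hx ▸ ht)).continuousAt] at e
  exact (sub_eq_zero.1 e).symm

end

end Vale.Agent.P366
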