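import Vale.Agent.P366I.FamB
import Vale.Agent.P366I.Id3

/-! The leaf operator on the unit sphere. -/

noncomputable section

open Matrix MeasureTheory Set Filter Topology Asymptotics
open scoped ContDiff

namespace Vale.Agent.P366

variable {n : ℕ} {ι : Type} [Fintype ι] [DecidableEq ι]

section
variable {ρ : ℝ} {g K : Fld n} {η κ : ℝ → ℝ} {γ S : Euc n → Fin n → Ms ι} (hn : 3 ≤ n)
  (h : Sh ρ g K η κ) (hG : Geo ρ g γ S) {t : ℝ} (ht : ρ < t)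
include hn h hG ht

variable {φ χ : Euc n → ι → ℝ} (hφ : Sm φ)
include hφ

omit hn h ht hφ in
theorem ltb_leaf {ψ ψ' : Euc n → ι → ℝ} {x : Euc n} (hx : ρ < ‖x‖)
    (hψ : ∀ s, DifferentiableAt ℝ (fun y => ψ y s) x)
    (hψ' : ∀ s, DifferentiableAt ℝ (fun y => ψ' y s) x) (e : ∀ y, ‖y‖ = ‖x‖ → ψ y = ψ' y) :
    ∑ k, bt g γ x k *ᵥ pdV ψ k x = ∑ k, bt g γ x k *ᵥ pdV ψ' k x := by
  have h0 := nor_norm hG.met hx
  choose c hc using fun s => pd_of_vanish (norm_pos_iff.1 h0) ((hψ s).sub (hψ' s))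
    fun y hy => sub_eq_zero.2 (congrFun (e y hy) s)
  have e1 : ∀ k, pdV ψ k x = pdV ψ' k x + x k • c := fun k => funext fun s => by
    have := (pd_sub (hψ s) (hψ' s)).symm.trans (hc s k)
    simp only [pdV, Pi.add_apply, Pi.smul_apply, smul_eq_mul]
    linarith
  have e2 : (lapse g x / ‖x‖) • ∑ k, x k • bt g γ x k = 0 := by
    rw [← (pt_of hG hx).bt_tan, Finset.smul_sum]
    exact Finset.sum_congr rfl fun k _ => by rw [smul_smul, nlV, nl, div_mul_eq_mul_div, bt]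
  have e3 := congrArg (· *ᵥ c)
    ((smul_eq_zero.1 e2).resolve_left (div_pos (hG.met.lapse_pos hx) h0).ne')
  simp only [sum_mulVec, smul_mulVec, zero_mulVec] at e3
  simp only [e1, mulVec_add, mulVec_smul, Finset.sum_add_distrib, e3, add_zero]

omit hn hG hφ [Fintype ι] [DecidableEq ι] in
theorem ltb_exs {θ : Euc n} (hθ : ‖θ‖ = 1) : exs g K φ (t • θ) = rho g K (t • θ) • φ θ := by
  have h0 := h.met.pos.trans ht
  rw [exs, norm_smul_sph h0 hθ, inv_smul_smul₀ h0.ne']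

theorem Lt_sm : Sm (Lt g K γ S t φ) := by
  exact hφ.op (aa_sm hn h hG ht) (bb_sm hn h hG ht)

/-- `DS_eq`; `∂_k (φ (x/‖x‖)) = (∂_k φ - θ_k θ_l ∂_l φ)/t` and `∑ θ_k β^k = 0`. -/
theorem DS_exs {x : Euc n} (hx : ‖x‖ = t) :
    DS g γ S (exs g K φ) x = wf g K x • exs g K (Lt g K γ S t φ) x := by
  have h0 := h.met.pos.trans ht
  have hx' : ρ < ‖x‖ := hx ▸ ht
  have hθ : ‖t⁻¹ • x‖ = 1 := by
    rw [norm_smul, hx, Real.norm_eq_abs, abs_of_pos (inv_pos.2 h0), inv_mul_cancel₀ h0.ne']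
  have d1 := lich_d (h.sm_rho hx')
  have d2 : ∀ s, DifferentiableAt ℝ (fun y : Euc n => φ (t⁻¹ • y) s) x := fun s =>
    (lich_d (hφ _ hθ s)).comp x (differentiableAt_id.const_smul t⁻¹)
  have e : ∀ k, pdV (fun y => rho g K y • φ (t⁻¹ • y)) k x = pd (rho g K) k x • φ (t⁻¹ • x) +
      (rho g K x * t⁻¹) • pdV φ k (t⁻¹ • x) := fun k => funext fun s => by
    have := fderiv_comp_smul (𝕜 := ℝ) (f := fun y => φ y s) (x := x) t⁻¹
    simp only [pdV, Pi.add_apply, Pi.smul_apply, smul_eq_mul, pd_mul d1 (d2 s)]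
    simp only [pd, this, _root_.smul_apply, smul_eq_mul, mul_assoc]
  have w := (h.wf_pos hx').ne'
  have r := (h.rho_pos hx').ne'
  have c1 : wf g K x * (rho g K x * (t * wf g K x)⁻¹) = rho g K x * t⁻¹ := by field_simp
  have c2 : ∀ a, wf g K x * (rho g K x * ((wf g K x)⁻¹ * a)) = rho g K x * a := fun a => by
    field_simp
  have c3 : wf g K x * (rho g K x * (wf g K x)⁻¹) = rho g K x := by field_simp
  rw [DS_eq hG hx' (h.smU_exs hφ), ltb_leaf hG hx' (fun s => lich_d (h.smU_exs hφ x hx' s))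
    (ψ' := fun y => rho g K y • φ (t⁻¹ • y)) (fun s => d1.mul (d2 s))
    fun y hy => by rw [exs, hy, hx]]
  simp only [e, exs, hx, Lt, Op, aa, bb, smul_inv_smul₀ h0.ne', smul_mulVec, add_mulVec,
    sum_mulVec, one_mulVec, mulVec_add, mulVec_smul, smul_add, Finset.smul_sum, smul_smul,
    Finset.sum_add_distrib, c1, c2, c3, mul_div_cancel₀ _ r, mul_comm (meanH g x / 2)]
  abel

omit hφ hG in
/-- `LI_eq` and `rho ^ 2 * wf * Jf = 1`. -/
theorem ip_LI : ip φ χ = LI g t (fun x => wf g K x * (exs g K φ x ⬝ᵥ exs g K χ x)) := by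
  rw [LI_eq h.met ht, ip]
  refine integral_congr_ae (.of_forall fun θ => ?_)
  have hθ : ‖(θ : Euc n)‖ = 1 := norm_eq_of_mem_sphere θ
  have hx : ρ < ‖t • (θ : Euc n)‖ := (norm_smul_sph (h.met.pos.trans ht) hθ).symm ▸ ht
  have p := mul_pos (h.wf_pos hx) (h.met.Jf_pos hx)
  have e : rho g K (t • (θ : Euc n)) * rho g K (t • (θ : Euc n)) *
      (wf g K (t • (θ : Euc n)) * Jf g (t • (θ : Euc n))) = 1 := by
    rw [rho, ← mul_inv, Real.mul_self_sqrt p.le, inv_mul_cancel₀ p.ne']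
  simp only [ltb_exs h ht hθ, smul_dotProduct, dotProduct_smul, smul_eq_mul]
  linear_combination -(φ θ ⬝ᵥ χ θ) * e

theorem ip_Lt_LI : ip (Lt g K γ S t φ) χ
    = LI g t (fun x => DS g γ S (exs g K φ) x ⬝ᵥ exs g K χ x) := by
  rw [ip_LI hn h ht]
  exact LI_congr h.met ht fun x hx => by rw [DS_exs hn h hG ht hφ hx, smul_dotProduct, smul_eq_mul]

theorem ip_Lt_Lt : ip (Lt g K γ S t φ) (Lt g K γ S t φ)
    = LI g t (fun x => (wf g K x)⁻¹ * (DS g γ S (exs g K φ) x ⬝ᵥ DS g γ S (exs g K φ) x)) := by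
  rw [ip_LI hn h ht]
  refine LI_congr h.met ht fun x hx => ?_
  rw [DS_exs hn h hG ht hφ hx, smul_dotProduct, dotProduct_smul, smul_eq_mul, smul_eq_mul,
    inv_mul_cancel_left₀ (h.wf_pos (hx ▸ ht)).ne']

omit hφ in
theorem Lt_symO : SymO (aa g K γ t) (bb g K γ S t) := by
  intro φ χ hφ hχ
  refine (ip_Lt_LI hn h hG ht hφ).trans ((DS_symm (by omega) hG ht (h.smU_exs hφ)
    (h.smU_exs hχ)).trans ((ip_comm.trans (ip_Lt_LI hn h hG ht hχ)).trans ?_).symm)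
  simp only [dotProduct_comm]

omit hφ h in
/-- `DS_eq`, `pd_of_vanish`, `Pt.bt_tan`. -/
theorem DS_leaf {ψ ψ' : Euc n → ι → ℝ} (hψ : SmU ρ ψ) (hψ' : SmU ρ ψ')
    (e : ∀ x, ‖x‖ = t → ψ x = ψ' x) {x : Euc n} (hx : ‖x‖ = t) :
    DS g γ S ψ x = DS g γ S ψ' x := by
  have hx' : ρ < ‖x‖ := hx ▸ ht
  rw [DS_eq hG hx' hψ, DS_eq hG hx' hψ', e x hx, ltb_leaf hG hx' (fun s => lich_d (hψ x hx' s))
    (fun s => lich_d (hψ' x hx' s)) fun y hy => e y (hy.trans hx)]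

omit hφ hG in
theorem exs_surj {ψ : Euc n → ι → ℝ} (hψ : SmU ρ ψ) :
    ∃ φ, Sm φ ∧ ∀ x, ‖x‖ = t → exs g K φ x = ψ x := by
  have h0 := h.met.pos.trans ht
  refine ⟨fun y => (rho g K (t • y))⁻¹ • ψ (t • y), fun θ hθ s => ?_, fun x hx => ?_⟩
  · have hx : ρ < ‖t • θ‖ := (norm_smul_sph h0 hθ).symm ▸ ht
    have c : ContDiffAt ℝ ∞ (fun y : Euc n => t • y) θ := contDiffAt_id.const_smul t
    exact (((h.sm_rho hx).comp θ c).inv (h.rho_pos hx).ne').mul ((hψ _ hx s).comp θ c)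
  · simp only [exs, hx, smul_inv_smul₀ h0.ne', smul_inv_smul₀ (h.rho_pos (hx ▸ ht)).ne']

/-- `φ' y = ns (t • y) *ᵥ φ y`; `DS_leaf`, `DS_ns`, `DS_exs`, `Pt.ns_dot`. -/
theorem Lt_flip (l : ℝ) : ∃ φ', Sm φ' ∧ nm φ' = nm φ ∧
    nm (Lt g K γ S t φ' - l • φ') = nm (Lt g K γ S t φ + l • φ) := by
  have h0 := h.met.pos.trans ht
  have o : ∀ θ : Euc n, ‖θ‖ = 1 → ρ < ‖t • θ‖ := fun θ hθ => (norm_smul_sph h0 hθ).symm ▸ ht
  have s : Sm fun y => ns g γ (t • y) *ᵥ φ y := fun θ hθ => lich_sm_mulVec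
    (fun p q => (hG.sm_ns (o θ hθ) p q).comp θ (contDiffAt_id.const_smul t)) (hφ θ hθ)
  refine ⟨_, s, congrArg Real.sqrt (ip_congr fun θ hθ => (pt_of hG (o θ hθ)).ns_dot _ _),
    congrArg Real.sqrt (ip_congr fun θ hθ => ?_)⟩
  have e := DS_leaf hn hG ht (h.smU_exs s) (hG.smU_ns (h.smU_exs hφ)) (fun x hx => by
    simp only [exs, hx, smul_inv_smul₀ h0.ne', mulVec_smul]) (norm_smul_sph h0 hθ)
  rw [DS_ns hG (o θ hθ) (h.smU_exs hφ), DS_exs hn h hG ht s (norm_smul_sph h0 hθ),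
    DS_exs hn h hG ht hφ (norm_smul_sph h0 hθ), ltb_exs h ht hθ, ltb_exs h ht hθ, mulVec_smul,
    mulVec_smul, ← smul_neg, ← smul_neg] at e
  have e' := smul_right_injective _ (h.rho_pos (o θ hθ)).ne'
    (smul_right_injective _ (h.wf_pos (o θ hθ)).ne' e)
  simp only [Pi.sub_apply, Pi.add_apply, Pi.smul_apply, e']
  rw [← mulVec_smul, ← neg_add', ← mulVec_add, neg_dotProduct_neg]
  exact (pt_of hG (o θ hθ)).ns_dot _ _

omit hφ in
/-- `lamO_le` for a section with `exs φ = ψ` on the leaf. -/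
theorem lam_test {ψ : Euc n → ι → ℝ} (hψ : SmU ρ ψ) :
    lam g K γ S t ^ 2 * LI g t (fun x => wf g K x * (ψ x ⬝ᵥ ψ x))
      ≤ LI g t (fun x => (wf g K x)⁻¹ * (DS g γ S ψ x ⬝ᵥ DS g γ S ψ x)) := by
  obtain ⟨φ, hφ, e⟩ := exs_surj hn h ht hψ
  have k := pow_le_pow_left₀ (mul_nonneg lamO_nonneg nm_nonneg)
    (lamO_le (a := aa g K γ t) (b := bb g K γ S t) hφ) 2
  rw [mul_pow, nm_sq, nm_sq, ip_LI hn h ht, LI_congr h.met ht fun x hx => by rw [e x hx]] at k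
  refine k.trans_eq ((ip_Lt_Lt hn h hG ht hφ).trans (LI_congr h.met ht fun x hx => ?_))
  rw [DS_leaf hn hG ht (h.smU_exs hφ) hψ e hx]

end

end Vale.Agent.P366
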