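import Vale.Agent.P366I.As2
import Vale.Agent.P366I.As3
import Vale.Agent.P366I.LtB

/-! The bound at infinity. -/

noncomputable section

open Matrix MeasureTheory Set Filter Topology Asymptotics
open scoped ContDiff

namespace Vale.Agent.P366

variable {n : ℕ} {ι : Type} [Fintype ι] [DecidableEq ι]

section
variable {ρ : ℝ} {g K : Fld n} {η κ : ℝ → ℝ} {γ S : Euc n → Fin n → Ms ι} (hn : 3 ≤ n)
  (h : Sh ρ g K η κ) (hG : Geo ρ g γ S) {t : ℝ} (ht : ρ < t)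
include hn h hG ht

omit hn in
theorem as4_pt (s : ι) {x : Euc n} (hx : ‖x‖ = t) :
    (wf g K x)⁻¹ * (DS g γ S (fun _ => Pi.single s 1) x ⬝ᵥ DS g γ S (fun _ => Pi.single s 1) x)
      = (wf g K x)⁻¹ * ∑ p, Zm g γ S x p s ^ 2 + η t / √(η t ^ 2 - κ t ^ 2) * Zm g γ S x s s
        + (η t / √(η t ^ 2 - κ t ^ 2)) ^ 2 / 4 * wf g K x := by
  have hx' : ρ < ‖x‖ := hx ▸ ht
  have hψ : SmU ρ (fun _ : Euc n => (Pi.single s 1 : ι → ℝ)) := fun _ _ _ => contDiffAt_const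
  have h0 : ∀ k, pdV (fun _ : Euc n => (Pi.single s 1 : ι → ℝ)) k x = 0 := fun k => by
    funext p
    exact pd_const _
  have hw := h.wf_pos hx'
  have hu := h.met.lapse_pos hx'
  have hξ := Real.sqrt_pos.2 (h.xi_pos hx')
  have hH : meanH g x = η t / √(η t ^ 2 - κ t ^ 2) * wf g K x := by
    have e := h.hη x hx'
    rw [h.wf_eq hx', ← hx]
    generalize √(η ‖x‖ ^ 2 - κ ‖x‖ ^ 2) = r at hξ
    rw [← e]
    field_simp
  rw [DS_eq hG hx' hψ]
  simp only [h0, mulVec_zero, Finset.sum_const_zero, zero_add]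
  rw [hH]
  generalize η t / √(η t ^ 2 - κ t ^ 2) = a
  generalize wf g K x = w at hw
  generalize Zm g γ S x = Z
  have e1 : (Z *ᵥ Pi.single s 1) ⬝ᵥ (Z *ᵥ Pi.single s 1) = ∑ p, Z p s ^ 2 := by
    simp [dotProduct, sq]
  have e2 : (Z *ᵥ Pi.single s 1) ⬝ᵥ (Pi.single s 1 : ι → ℝ) = Z s s := by
    simp
  have e3 : (Pi.single s 1 : ι → ℝ) ⬝ᵥ (Pi.single s 1 : ι → ℝ) = 1 := by simp
  rw [add_dotProduct, dotProduct_add, dotProduct_add, dotProduct_smul, smul_dotProduct,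
    smul_dotProduct, dotProduct_smul, dotProduct_comm (Pi.single s 1) (Z *ᵥ _), e1, e2, e3]
  simp only [smul_eq_mul]
  field_simp
  ring

/-- `lam_test` for the constant spinors `Pi.single s 1`, `DS_eq`, summed over `s`;
`H / w = η / √ξ` is constant on the leaf. -/
theorem lam_bound [Nonempty ι] : 4 * lam g K γ S t ^ 2 - 1 ≤ κ t ^ 2 / (η t ^ 2 - κ t ^ 2)
    + (η t / √(η t ^ 2 - κ t ^ 2) * LI g t (fun x => 4 * trace (Zm g γ S x) / Fintype.card ι)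
      + 4 * LI g t (fun x => (wf g K x)⁻¹ * ∑ s, ∑ p, Zm g γ S x s p ^ 2) / Fintype.card ι)
      / LI g t (wf g K) := by
  have hM := h.met
  have hn0 : 0 < n := by omega
  have hN : (0 : ℝ) < Fintype.card ι := by exact_mod_cast Fintype.card_pos
  have hξ : 0 < η t ^ 2 - κ t ^ 2 := by
    have h1 := h.un t ht
    have h2 := abs_nonneg (κ t)
    rw [← sq_abs (κ t)]
    nlinarith
  have cw : CS t (wf g K) := fun x hx => (h.sm_wf (hx ▸ ht)).continuousAt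
  have cwi : CS t fun x => (wf g K x)⁻¹ := fun x hx =>
    (cw x hx).inv₀ (h.wf_pos (hx ▸ ht)).ne'
  have cZ : ∀ s p, CS t fun x => Zm g γ S x s p := fun s p x hx =>
    (hG.sm_Zm (hx ▸ ht) s p).continuousAt
  have hW : 0 < LI g t (wf g K) := LI_pos hM ht hn0 cw fun x hx => h.wf_pos (hx ▸ ht)
  have hψ : ∀ s : ι, SmU ρ (fun _ : Euc n => (Pi.single s 1 : ι → ℝ)) :=
    fun _ _ _ _ => contDiffAt_const
  have cD : ∀ s : ι, CS t fun x => (wf g K x)⁻¹ *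
      (DS g γ S (fun _ => Pi.single s 1) x ⬝ᵥ DS g γ S (fun _ => Pi.single s 1) x) :=
    fun s x hx => (cwi x hx).mul
      (SmU.dot (hG.smU_DS (hψ s)) (hG.smU_DS (hψ s)) (hx ▸ ht)).continuousAt
  have h1 : ∀ s : ι, lam g K γ S t ^ 2 * LI g t (wf g K) ≤ LI g t fun x => (wf g K x)⁻¹ *
      (DS g γ S (fun _ => Pi.single s 1) x ⬝ᵥ DS g γ S (fun _ => Pi.single s 1) x) := fun s => by
    have := lam_test hn h hG ht (hψ s)
    simpa using this
  have h2 := Finset.sum_le_sum fun s (_ : s ∈ Finset.univ) => h1 s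
  rw [← LI_sum hM ht _ fun s _ => cD s, Finset.sum_const, Finset.card_univ, nsmul_eq_mul] at h2
  obtain ⟨a, ha⟩ : ∃ a, a = η t / √(η t ^ 2 - κ t ^ 2) := ⟨_, rfl⟩
  have cQ : CS t fun x => (wf g K x)⁻¹ * ∑ s, ∑ p, Zm g γ S x s p ^ 2 := fun x hx =>
    (cwi x hx).mul (tendsto_finsetSum _ fun s _ => tendsto_finsetSum _ fun p _ =>
      (cZ s p x hx).pow 2)
  have cT : CS t fun x => 4 * trace (Zm g γ S x) / Fintype.card ι := fun x hx =>
    (continuousAt_const.mul (tendsto_finsetSum _ fun s _ => cZ s s x hx)).div_const _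
  have h3 : (LI g t fun x => ∑ s, (wf g K x)⁻¹ *
      (DS g γ S (fun _ => Pi.single s 1) x ⬝ᵥ DS g γ S (fun _ => Pi.single s 1) x))
      = LI g t (fun x => (wf g K x)⁻¹ * ∑ s, ∑ p, Zm g γ S x s p ^ 2)
        + a * Fintype.card ι / 4 * LI g t (fun x => 4 * trace (Zm g γ S x) / Fintype.card ι)
        + Fintype.card ι * a ^ 2 / 4 * LI g t (wf g K) := by
    have c1 : CS t fun x => a * Fintype.card ι / 4 * (4 * trace (Zm g γ S x) / Fintype.card ι) :=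
      fun x hx => continuousAt_const.mul (cT x hx)
    have c2 : CS t fun x => Fintype.card ι * a ^ 2 / 4 * wf g K x :=
      fun x hx => continuousAt_const.mul (cw x hx)
    have c3 : CS t fun x => (wf g K x)⁻¹ * ∑ s, ∑ p, Zm g γ S x s p ^ 2
        + a * Fintype.card ι / 4 * (4 * trace (Zm g γ S x) / Fintype.card ι) :=
      fun x hx => (cQ x hx).add (c1 x hx)
    rw [← LI_cmul, ← LI_cmul, ← LI_add hM ht cQ c1, ← LI_add hM ht c3 c2]
    refine LI_congr hM ht fun x hx => ?_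
    rw [Finset.sum_congr rfl fun s _ => as4_pt h hG ht s hx, ← ha]
    rw [Finset.sum_add_distrib, Finset.sum_add_distrib, ← Finset.mul_sum, ← Finset.mul_sum,
      Finset.sum_comm, Finset.sum_const, Finset.card_univ, nsmul_eq_mul]
    simp only [trace, diag_apply]
    field_simp
  have ha2 : a ^ 2 = 1 + κ t ^ 2 / (η t ^ 2 - κ t ^ 2) := by
    rw [ha, div_pow, Real.sq_sqrt hξ.le]
    field_simp
    ring
  rw [h3] at h2
  rw [← ha]
  generalize LI g t (fun x => (wf g K x)⁻¹ * ∑ s, ∑ p, Zm g γ S x s p ^ 2) = Q at h2 ⊢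
  generalize LI g t (fun x => 4 * trace (Zm g γ S x) / Fintype.card ι) = T at h2 ⊢
  generalize LI g t (wf g K) = W at h2 hW ⊢
  generalize (Fintype.card ι : ℝ) = N at h2 hN ⊢
  have h4 : 4 * lam g K γ S t ^ 2 - a ^ 2 ≤ (a * T + 4 * Q / N) / W := by
    rw [le_div_iff₀ hW, ← sub_le_iff_le_add', le_div_iff₀ hN]
    linarith
  linarith

end

theorem as4_Q {ρ q : ℝ} {g K : Fld n} {η κ : ℝ → ℝ} (hn : 3 ≤ n) (h : Sh ρ g K η κ)
    (hq : ((n : ℝ) - 2) / 2 < q) (hq0 : 0 < q) (hd : DecU q g K) {Z : Euc n → Ms ι}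
    (hZ : ∀ s p, OO (-q - 1) fun x => Z x s p) :
    Tendsto (fun t => LI g t fun x => (wf g K x)⁻¹ * ∑ s, ∑ p, Z x s p ^ 2) atTop (𝓝 0) := by
  have hn' : (3 : ℝ) ≤ n := by exact_mod_cast hn
  have h1 : OO 0 (dens g) := (oo_dens h.met hq0 hd).bdd (by linarith)
  have h2 : OO 0 fun x => (‖x‖ * wf g K x)⁻¹ :=
    ((oo_wf h.met hq0 hd hn h.hη h.hκ).comp (F := fun y => y⁻¹) (by linarith)
      (differentiableAt_inv (by linarith))).bdd (by linarith)
  have h3 : OO (1 + 0) fun x => (wf g K x)⁻¹ := by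
    refine ((OO.rpow 1).mul h2).congr ?_
    filter_upwards [lc_ev (n := n) 0] with x hx
    rw [Real.rpow_one, mul_inv, ← mul_assoc, mul_inv_cancel₀ hx.ne', one_mul]
  have h4 : OO (-q - 1 + (-q - 1)) fun x => ∑ s, ∑ p, Z x s p ^ 2 :=
    OO.sum _ fun s _ => OO.sum _ fun p _ =>
      ((hZ s p).mul (hZ s p)).congr (Eventually.of_forall fun x => (sq _).symm)
  exact (h1.mul (h3.mul h4)).int_zero (by linarith)

theorem as4_kap {q a : ℝ} {κ : ℝ → ℝ} (hκ : κ =O[atTop] fun t : ℝ => t ^ (-q - 1))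
    (ha : a < q) : Tendsto (fun t : ℝ => t ^ a * (t * κ t)) atTop (𝓝 0) := by
  have h1 : (fun t : ℝ => t ^ a * (t * κ t)) =O[atTop] fun t : ℝ => t ^ a * (t * t ^ (-q - 1)) :=
    (isBigO_refl _ _).mul ((isBigO_refl _ _).mul hκ)
  refine h1.trans_tendsto ?_
  refine (tendsto_rpow_neg_atTop (y := q - a) (by linarith)).congr' ?_
  filter_upwards [eventually_gt_atTop 0] with t ht
  rw [mul_comm t, ← Real.rpow_add_one ht.ne', ← Real.rpow_add ht]
  congr 1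
  ring

theorem as4_alg {A P t e k T Q N W : ℝ} (ht : 0 < t) (hP : P ≠ 0) :
    A * P ^ 2 * (k ^ 2 / (e ^ 2 - k ^ 2) + (e / √(e ^ 2 - k ^ 2) * T + 4 * Q / N) / W)
      = A * ((P * (t * k)) ^ 2 / ((t * e) ^ 2 - (t * k) ^ 2)
        + (t * e / √((t * e) ^ 2 - (t * k) ^ 2) * T + 4 * Q / N) / (W / P ^ 2)) := by
  have e1 : (t * e) ^ 2 - (t * k) ^ 2 = t ^ 2 * (e ^ 2 - k ^ 2) := by ring
  rw [e1, Real.sqrt_mul (sq_nonneg t), Real.sqrt_sq ht.le, mul_div_mul_left _ _ ht.ne',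
    div_div_eq_mul_div, show (P * (t * k)) ^ 2 = t ^ 2 * (P ^ 2 * k ^ 2) by ring,
    mul_div_mul_left _ _ (pow_ne_zero 2 ht.ne')]
  ring

/-- Write `α^p = (α / t^(n-1))^p t^(n-2)`; `t^(n-2) κ^2/ξ = O(t^(n-2-2q))`, `η/√ξ → 1`,
`trZ_lim`, `LIw_lim`, and `dens * wf⁻¹ * Z^2 = O(r^(-2q-1))`. -/
theorem bound_lim {ρ q : ℝ} {g K : Fld n} {η κ : ℝ → ℝ} (hn : 3 ≤ n) (h : Sh ρ g K η κ)
    (hq : ((n : ℝ) - 2) / 2 < q) (hd : DecU q g K) {Φ : Mn n → Mn n} (hΦ : FrameFn Φ)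
    {c : Fin n → Ms ι} (hc : Cl c) [Nonempty ι] {En : ℝ} (hE : Tendsto (enFlux g) atTop (𝓝 En)) :
    Tendsto (fun t => (area g t / omega n) ^ (((n : ℝ) - 2) / ((n : ℝ) - 1)) *
      (κ t ^ 2 / (η t ^ 2 - κ t ^ 2) + (η t / √(η t ^ 2 - κ t ^ 2) * LI g t (fun x =>
        4 * trace (Zm g (gamF c (fun z => Φ (g z))) (spinF c g (fun z => Φ (g z))) x)
          / Fintype.card ι)
      + 4 * LI g t (fun x => (wf g K x)⁻¹ * ∑ s, ∑ p,
        Zm g (gamF c (fun z => Φ (g z))) (spinF c g (fun z => Φ (g z))) x s p ^ 2) / Fintype.card ι)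
      / LI g t (wf g K))) atTop (𝓝 (2 * En)) := by
  have hn' : (3 : ℝ) ≤ n := by exact_mod_cast hn
  have hq0 : 0 < q := by linarith
  have hM := h.met
  have hω : 0 < omega n := omega_pos' (by omega)
  have hη := eta_lim hM hq0 hd hn h.hη
  have hκ := kappa_O hM hq0 hd hn h.hκ
  have hk0 : Tendsto (fun t : ℝ => t * κ t) atTop (𝓝 0) := by
    simpa using as4_kap hκ hq0
  have hk1 := as4_kap hκ hq
  have hA := (area_lim hM hq0 hd hn).rpow_const (p := ((n : ℝ) - 2) / ((n : ℝ) - 1))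
    (Or.inl one_ne_zero)
  have hW := LIw_lim hM hq0 hd hn h.hη h.hκ
  have hT := trZ_lim hM hq0 hd hΦ hn hq hc hE
  have hQ := as4_Q hn h hq hq0 hd (oo_Zm hM hq0 hd hΦ c)
  have hξ := (hη.pow 2).sub (hk0.pow 2)
  have hn1 : (0 : ℝ) < n - 1 := by linarith
  have e0 : ((n : ℝ) - 1) ^ 2 - 0 ^ 2 = ((n : ℝ) - 1) ^ 2 := by ring
  rw [e0] at hξ
  have hs := hξ.sqrt
  rw [Real.sqrt_sq hn1.le] at hs
  have hall := hA.mul (((hk1.pow 2).div hξ (by positivity)).add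
    ((((hη.div hs hn1.ne').mul hT).add ((hQ.const_mul 4).div_const (Fintype.card ι : ℝ))).div hW
      (by positivity)))
  have e1 : (1 : ℝ) ^ (((n : ℝ) - 2) / ((n : ℝ) - 1)) * (0 ^ 2 / ((n : ℝ) - 1) ^ 2 +
      (((n : ℝ) - 1) / ((n : ℝ) - 1) * (2 * ((n : ℝ) - 1) * omega n * En)
        + 4 * 0 / (Fintype.card ι : ℝ)) / (((n : ℝ) - 1) * omega n)) = 2 * En := by
    rw [Real.one_rpow]
    field_simp
    ring
  rw [e1] at hall
  refine hall.congr' ?_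
  filter_upwards [eventually_gt_atTop ρ] with t ht
  have ht0 : 0 < t := hM.pos.trans ht
  have ha : 0 ≤ area g t / omega n := (div_pos (area_pos' hM ht (by omega)) hω).le
  have e2 : (t ^ (((n : ℝ) - 2) / 2)) ^ 2 = t ^ ((n : ℝ) - 2) := by
    rw [← Real.rpow_natCast, ← Real.rpow_mul ht0.le]
    congr 1
    push_cast
    ring
  have e3 : (area g t / omega n) ^ (((n : ℝ) - 2) / ((n : ℝ) - 1))
      = (area g t / omega n / t ^ ((n : ℝ) - 1)) ^ (((n : ℝ) - 2) / ((n : ℝ) - 1))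
        * (t ^ (((n : ℝ) - 2) / 2)) ^ 2 := by
    rw [e2, Real.div_rpow ha (Real.rpow_nonneg ht0.le _), ← Real.rpow_mul ht0.le,
      mul_div_cancel₀ _ hn1.ne', div_mul_cancel₀ _ (Real.rpow_pos_of_pos ht0 _).ne']
  simp only [Pi.div_apply]
  rw [e3, as4_alg ht0 (Real.rpow_pos_of_pos ht0 _).ne', e2]

end Vale.Agent.P366
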