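import Vale.Agent.P366I.Defs
import Vale.Agent.P366.Scal
import Vale.Agent.P366.Frame0

/-! Proof-side definitions: Clifford modules, spin connection, leaf Dirac operator. -/

noncomputable section

open Matrix MeasureTheory Set Filter Topology
open scoped ContDiff

namespace Vale.Agent.P366

variable {n : ℕ} {ι : Type} [Fintype ι] [DecidableEq ι]

abbrev Ms (ι : Type) := Matrix ι ι ℝ

/-- A real Clifford module. -/
structure Cl (c : Fin n → Ms ι) : Prop where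
  skew : ∀ a, (c a)ᵀ = -c a
  ac : ∀ a b, c a * c b + c b * c a = (if a = b then (-2 : ℝ) else 0) • (1 : Ms ι)

def cv (c : Fin n → Ms ι) (v : Fin n → ℝ) : Ms ι := ∑ a, v a • c a

def sig (c : Fin n → Ms ι) (w : Mn n) : Ms ι := ∑ a, ∑ b, (-(1 / 4) * w a b) • (c a * c b)

/-- Entrywise coordinate derivative of a matrix field. -/
def pdM {α β : Type} (M : Euc n → Matrix α β ℝ) (k : Fin n) (x : Euc n) : Matrix α β ℝ :=
  Matrix.of fun i j => pd (fun y => M y i j) k x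

/-- Entrywise coordinate derivative of a spinor field. -/
def pdV (ψ : Euc n → ι → ℝ) (k : Fin n) (x : Euc n) : ι → ℝ := fun s => pd (fun y => ψ y s) k x

/-- Directional derivative along the unit normal. -/
def dn (g : Fld n) (f : Euc n → ℝ) (x : Euc n) : ℝ := ∑ k, nu g k x * pd f k x

/-- A smooth positive definite metric outside the ball of radius `ρ`. -/
structure Met (ρ : ℝ) (g : Fld n) : Prop where
  pos : 0 < ρ
  sm : ∀ x : Euc n, ρ < ‖x‖ → ∀ i j, ContDiffAt ℝ ∞ (fun y => g y i j) x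
  posDef : ∀ x : Euc n, ρ < ‖x‖ → (g x).PosDef

/-- Clifford fields `γ` and a compatible spin connection `S`. -/
structure Geo (ρ : ℝ) (g : Fld n) (γ S : Euc n → Fin n → Ms ι) : Prop where
  met : Met ρ g
  smγ : ∀ x : Euc n, ρ < ‖x‖ → ∀ i s t, ContDiffAt ℝ ∞ (fun y => γ y i s t) x
  smS : ∀ x : Euc n, ρ < ‖x‖ → ∀ i s t, ContDiffAt ℝ ∞ (fun y => S y i s t) x
  skγ : ∀ x : Euc n, ρ < ‖x‖ → ∀ i, (γ x i)ᵀ = -γ x i
  ac : ∀ x : Euc n, ρ < ‖x‖ → ∀ i j,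
    γ x i * γ x j + γ x j * γ x i = (-2 * (g x)⁻¹ i j) • (1 : Ms ι)
  skS : ∀ x : Euc n, ρ < ‖x‖ → ∀ k, (S x k)ᵀ = -S x k
  compat : ∀ x : Euc n, ρ < ‖x‖ → ∀ k i, pdM (fun y => γ y i) k x
    + ∑ l, chr g i k l x • γ x l + (S x k * γ x i - γ x i * S x k) = 0
  curv : ∀ x : Euc n, ρ < ‖x‖ → ∑ k, ∑ l, γ x k * γ x l *
    (pdM (fun y => S y l) k x - pdM (fun y => S y k) l x + (S x k * S x l - S x l * S x k))
      = (scal g x / 2) • (1 : Ms ι)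

/-! The explicit spin structure attached to a frame `E = Φ ∘ g`. -/

/-- `Φ` is a smooth choice of orthonormal frames. -/
structure FrameFn (Φ : Mn n → Mn n) : Prop where
  orth : ∀ G : Mn n, G.PosDef → (Φ G)ᵀ * G * Φ G = 1
  sm : ∀ G : Mn n, G.PosDef → ∀ i j,
    ContDiffAt ℝ ∞ (fun M : Fin n → Fin n → ℝ => Φ (Matrix.of M) i j) (fun a b => G a b)
  one : Φ 1 = 1

def chM (g : Fld n) (k : Fin n) (x : Euc n) : Mn n := Matrix.of fun i l => chr g i k l x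
def omF (g E : Fld n) (x : Euc n) (k : Fin n) : Mn n :=
  (E x)⁻¹ * (pdM E k x + chM g k x * E x)
def gamF (c : Fin n → Ms ι) (E : Fld n) (x : Euc n) (i : Fin n) : Ms ι := cv c (E x i)
def spinF (c : Fin n → Ms ι) (g E : Fld n) (x : Euc n) (k : Fin n) : Ms ι := sig c (omF g E x k)

/-! Pointwise algebra at one point of a leaf. -/

/-- Algebraic data at a point: inverse metric, Clifford matrices, unit normal (upper and lower),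
second fundamental form, acceleration. -/
structure Pt (gi : Mn n) (γ : Fin n → Ms ι) (ν νl : Fin n → ℝ) (A : Mn n) (ac : Fin n → ℝ) :
    Prop where
  pos : gi.PosDef
  skγ : ∀ i, (γ i)ᵀ = -γ i
  acγ : ∀ i j, γ i * γ j + γ j * γ i = (-2 * gi i j) • (1 : Ms ι)
  up : ν = gi *ᵥ νl
  unit : ν ⬝ᵥ νl = 1
  sym : A.IsSymm
  tanA : A *ᵥ ν = 0
  tana : ac ⬝ᵥ ν = 0

def nsA (γ : Fin n → Ms ι) (νl : Fin n → ℝ) : Ms ι := ∑ j, νl j • γ j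
def btA (γ : Fin n → Ms ι) (ν νl : Fin n → ℝ) (k : Fin n) : Ms ι :=
  nsA γ νl * γ k + ν k • (1 : Ms ι)
def trA (gi A : Mn n) : ℝ := ∑ k, ∑ j, gi k j * A k j
def ipA (gi A B : Mn n) : ℝ := ∑ k, ∑ l, ∑ j, ∑ m, gi k l * gi j m * A k j * B l m
def lichA (gi : Mn n) (γ : Fin n → Ms ι) (P : Fin n → ι → ℝ) : ℝ :=
  ∑ k, ∑ l, gi k l * (P k ⬝ᵥ P l) - (∑ k, γ k *ᵥ P k) ⬝ᵥ (∑ k, γ k *ᵥ P k)
def pnA (ν : Fin n → ℝ) (P : Fin n → ι → ℝ) : ι → ℝ := ∑ k, ν k • P k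
def cTA (γ : Fin n → Ms ι) (ν νl : Fin n → ℝ) (A : Mn n) (ψ : ι → ℝ) (P : Fin n → ι → ℝ)
    (k : Fin n) : ι → ℝ :=
  P k - νl k • pnA ν P - (1 / 2 : ℝ) • ∑ j, A k j • (btA γ ν νl j *ᵥ ψ)
def dsA (gi : Mn n) (γ : Fin n → Ms ι) (ν νl : Fin n → ℝ) (A : Mn n) (ψ : ι → ℝ)
    (P : Fin n → ι → ℝ) : ι → ℝ :=
  ∑ k, btA γ ν νl k *ᵥ P k + (trA gi A / 2) • ψ
def nTA (gi : Mn n) (Q : Fin n → ι → ℝ) : ℝ := ∑ k, ∑ l, gi k l * (Q k ⬝ᵥ Q l)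
def crA (gi : Mn n) (γ : Fin n → Ms ι) (ν νl : Fin n → ℝ) (A : Mn n) (ψ : ι → ℝ)
    (Q : Fin n → ι → ℝ) : ℝ :=
  ∑ k, ∑ l, ∑ j, gi k l * A l j * (Q k ⬝ᵥ (btA γ ν νl j *ᵥ ψ))
def baA (γ : Fin n → Ms ι) (ν νl ac : Fin n → ℝ) (ψ : ι → ℝ) : ι → ℝ :=
  ∑ k, ac k • (btA γ ν νl k *ᵥ ψ)
/-- Covariant derivative of `ν · ψ`. -/
def p2A (γ : Fin n → Ms ι) (νl : Fin n → ℝ) (A : Mn n) (ac : Fin n → ℝ) (ψ : ι → ℝ)
    (P : Fin n → ι → ℝ) (k : Fin n) : ι → ℝ :=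
  nsA γ νl *ᵥ P k + ∑ j, (A k j + νl k * ac j) • (γ j *ᵥ ψ)

/-! Fields along the foliation. -/

def nuV (g : Fld n) (x : Euc n) : Fin n → ℝ := fun i => nu g i x
def nl (g : Fld n) (j : Fin n) (x : Euc n) : ℝ := lapse g x * x j / ‖x‖
def nlV (g : Fld n) (x : Euc n) : Fin n → ℝ := fun j => nl g j x
def dnu (g : Fld n) (k j : Fin n) (x : Euc n) : ℝ :=
  pd (nl g j) k x - ∑ m, chr g m k j x * nl g m x
def acc (g : Fld n) (x : Euc n) : Fin n → ℝ := fun j => ∑ k, nu g k x * dnu g k j x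
def sff (g : Fld n) (x : Euc n) : Mn n := Matrix.of fun k j => dnu g k j x - nl g k x * acc g x j
def ns (g : Fld n) (γ : Euc n → Fin n → Ms ι) (x : Euc n) : Ms ι := nsA (γ x) (nlV g x)
def bt (g : Fld n) (γ : Euc n → Fin n → Ms ι) (x : Euc n) (k : Fin n) : Ms ι :=
  btA (γ x) (nuV g x) (nlV g x) k
def cov (S : Euc n → Fin n → Ms ι) (ψ : Euc n → ι → ℝ) (x : Euc n) (k : Fin n) : ι → ℝ :=
  pdV ψ k x + S x k *ᵥ ψ x
/-- The Witten vector field. -/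
def wit (g : Fld n) (γ S : Euc n → Fin n → Ms ι) (ψ : Euc n → ι → ℝ) (k : Fin n) (x : Euc n) : ℝ :=
  ψ x ⬝ᵥ ∑ l, ((g x)⁻¹ k l • (1 : Ms ι) + γ x k * γ x l) *ᵥ cov S ψ x l
/-- The Dirac operator of the leaf. -/
def DS (g : Fld n) (γ S : Euc n → Fin n → Ms ι) (ψ : Euc n → ι → ℝ) (x : Euc n) : ι → ℝ :=
  dsA (g x)⁻¹ (γ x) (nuV g x) (nlV g x) (sff g x) (ψ x) (cov S ψ x)
def cT (g : Fld n) (γ S : Euc n → Fin n → Ms ι) (ψ : Euc n → ι → ℝ) (x : Euc n) :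
    Fin n → ι → ℝ := cTA (γ x) (nuV g x) (nlV g x) (sff g x) (ψ x) (cov S ψ x)
def nT (g : Fld n) (γ S : Euc n → Fin n → Ms ι) (ψ : Euc n → ι → ℝ) (x : Euc n) : ℝ :=
  nTA (g x)⁻¹ (cT g γ S ψ x)
def cr (g : Fld n) (γ S : Euc n → Fin n → Ms ι) (ψ : Euc n → ι → ℝ) (x : Euc n) : ℝ :=
  crA (g x)⁻¹ (γ x) (nuV g x) (nlV g x) (sff g x) (ψ x) (cT g γ S ψ x)
def pn (g : Fld n) (S : Euc n → Fin n → Ms ι) (ψ : Euc n → ι → ℝ) (x : Euc n) : ι → ℝ :=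
  pnA (nuV g x) (cov S ψ x)
def ba (g : Fld n) (γ : Euc n → Fin n → Ms ι) (ψ : Euc n → ι → ℝ) (x : Euc n) : ι → ℝ :=
  baA (γ x) (nuV g x) (nlV g x) (acc g x) (ψ x)
def sq2 (g : Fld n) (x : Euc n) : ℝ := ipA (g x)⁻¹ (sff g x) (sff g x)
def Zm (g : Fld n) (γ S : Euc n → Fin n → Ms ι) (x : Euc n) : Ms ι := ∑ k, bt g γ x k * S x k

/-- Smooth spinor fields outside the ball of radius `ρ`. -/
def SmU (ρ : ℝ) (ψ : Euc n → ι → ℝ) : Prop :=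
  ∀ x : Euc n, ρ < ‖x‖ → ∀ s, ContDiffAt ℝ ∞ (fun y => ψ y s) x

/-- Area density of `g` relative to the Euclidean one. -/
def dens (g : Fld n) (x : Euc n) : ℝ := √((g x).det) / lapse g x
/-- Leaf integral with respect to the `g`-area. -/
def LI (g : Fld n) (t : ℝ) (F : Euc n → ℝ) : ℝ := sInt t (fun x => dens g x * F x)
def Jf (g : Fld n) (x : Euc n) : ℝ := ‖x‖ ^ (n - 1) * dens g x
def wf (g K : Fld n) (x : Euc n) : ℝ := √(meanH g x ^ 2 - trS g K x ^ 2)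

/-- The untrapped region with the foliation conditions. -/
structure Sh (ρ : ℝ) (g K : Fld n) (η κ : ℝ → ℝ) : Prop where
  met : Met ρ g
  smK : ∀ x : Euc n, ρ < ‖x‖ → ∀ i j, ContDiffAt ℝ ∞ (fun y => K y i j) x
  symK : ∀ x : Euc n, ρ < ‖x‖ → (K x).IsSymm
  smη : ∀ r, ρ < r → ContDiffAt ℝ ∞ η r
  smκ : ∀ r, ρ < r → ContDiffAt ℝ ∞ κ r
  hη : ∀ x : Euc n, ρ < ‖x‖ → lapse g x * meanH g x = η ‖x‖
  hκ : ∀ x : Euc n, ρ < ‖x‖ → lapse g x * trS g K x = κ ‖x‖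
  hX : ∀ x : Euc n, ρ < ‖x‖ → divg g (fun i y => lapse g y * Xv g K i y) x = 0
  dec : ∀ x : Euc n, ρ < ‖x‖ → curNorm g K x ≤ mu g K x
  un : ∀ r, ρ < r → |κ r| < η r

/-! Analysis on the unit sphere. -/

def Sm (φ : Euc n → ι → ℝ) : Prop :=
  ∀ θ : Euc n, ‖θ‖ = 1 → ∀ s, ContDiffAt ℝ ∞ (fun y => φ y s) θ
def SmM (a : Euc n → Ms ι) : Prop :=
  ∀ θ : Euc n, ‖θ‖ = 1 → ∀ s t, ContDiffAt ℝ ∞ (fun y => a y s t) θ
def ip (φ χ : Euc n → ι → ℝ) : ℝ := ∫ θ, φ (θ : Euc n) ⬝ᵥ χ (θ : Euc n) ∂(sph n)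
/-- A first order operator with matrix coefficients. -/
def Op (a : Fin n → Euc n → Ms ι) (b : Euc n → Ms ι) (φ : Euc n → ι → ℝ) (y : Euc n) : ι → ℝ :=
  ∑ k, a k y *ᵥ pdV φ k y + b y *ᵥ φ y
def Tang (a : Fin n → Euc n → Ms ι) : Prop := ∀ θ : Euc n, ‖θ‖ = 1 → ∑ k, θ k • a k θ = 0
/-- Tangential derivative on the unit sphere. -/
def tg (φ : Euc n → ι → ℝ) (k : Fin n) (θ : Euc n) : ι → ℝ :=
  pdV φ k θ - θ k • ∑ l, θ l • pdV φ l θ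
def h1d (φ : Euc n → ι → ℝ) (θ : Euc n) : ℝ := ∑ k, tg φ k θ ⬝ᵥ tg φ k θ + φ θ ⬝ᵥ φ θ
def H1 (φ : Euc n → ι → ℝ) : ℝ := ∫ θ, h1d φ (θ : Euc n) ∂(sph n)
/-- Bottom of the spectrum of the absolute value of the operator. -/
def lamO (a : Fin n → Euc n → Ms ι) (b : Euc n → Ms ι) : ℝ :=
  √(sInf {e | ∃ φ : Euc n → ι → ℝ, Sm φ ∧ ip φ φ = 1 ∧ e = ip (Op a b φ) (Op a b φ)})
/-- Uniform differentiability in the parameter on the unit sphere. -/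
def UD (a : ℝ → Euc n → Ms ι) (a' : Euc n → Ms ι) (t : ℝ) : Prop :=
  ∀ ε > 0, ∀ᶠ s in 𝓝 t, ∀ θ : Euc n, ‖θ‖ = 1 → ∀ p q,
    |a s θ p q - a t θ p q - (s - t) * a' θ p q| ≤ ε * |s - t|

/-- A family of tangential operators, differentiable at `t`. -/
structure Fam (a : ℝ → Fin n → Euc n → Ms ι) (b : ℝ → Euc n → Ms ι)
    (a' : Fin n → Euc n → Ms ι) (b' : Euc n → Ms ι) (t : ℝ) : Prop where
  sma : ∀ᶠ s in 𝓝 t, ∀ k, SmM (a s k)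
  smb : ∀ᶠ s in 𝓝 t, SmM (b s)
  tan : ∀ᶠ s in 𝓝 t, Tang (a s)
  sma' : ∀ k, SmM (a' k)
  smb' : SmM b'
  tan' : Tang a'
  uda : ∀ k, UD (fun s => a s k) (a' k) t
  udb : UD b b' t

def rho (g K : Fld n) (x : Euc n) : ℝ := (√(wf g K x * Jf g x))⁻¹
/-- Extension of a spinor on the unit sphere along rays, with the density factor. -/
def exs (g K : Fld n) (φ : Euc n → ι → ℝ) (x : Euc n) : ι → ℝ := rho g K x • φ (‖x‖⁻¹ • x)
def aa (g K : Fld n) (γ : Euc n → Fin n → Ms ι) (t : ℝ) (k : Fin n) (y : Euc n) : Ms ι :=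
  (t * wf g K (t • y))⁻¹ • bt g γ (t • y) k
def bb (g K : Fld n) (γ S : Euc n → Fin n → Ms ι) (t : ℝ) (y : Euc n) : Ms ι :=
  (wf g K (t • y))⁻¹ • (Zm g γ S (t • y) + (meanH g (t • y) / 2) • (1 : Ms ι)
    + ∑ k, (pd (rho g K) k (t • y) / rho g K (t • y)) • bt g γ (t • y) k)
def aa' (g K : Fld n) (γ : Euc n → Fin n → Ms ι) (t : ℝ) (k : Fin n) (y : Euc n) : Ms ι :=
  Matrix.of fun p q => deriv (fun s => aa g K γ s k y p q) t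
def bb' (g K : Fld n) (γ S : Euc n → Fin n → Ms ι) (t : ℝ) (y : Euc n) : Ms ι :=
  Matrix.of fun p q => deriv (fun s => bb g K γ S s y p q) t
def Lt (g K : Fld n) (γ S : Euc n → Fin n → Ms ι) (t : ℝ) (φ : Euc n → ι → ℝ) : Euc n → ι → ℝ :=
  Op (aa g K γ t) (bb g K γ S t) φ
def Lt' (g K : Fld n) (γ S : Euc n → Fin n → Ms ι) (t : ℝ) (φ : Euc n → ι → ℝ) : Euc n → ι → ℝ :=
  Op (aa' g K γ t) (bb' g K γ S t) φ
def lam (g K : Fld n) (γ S : Euc n → Fin n → Ms ι) (t : ℝ) : ℝ :=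
  lamO (aa g K γ t) (bb g K γ S t)

/-! Asymptotics. -/

/-- The filter `‖x‖ → ∞`. -/
def lc (n : ℕ) : Filter (Euc n) := Filter.comap norm atTop

/-- Decay of the data. -/
structure DecU (q : ℝ) (g K : Fld n) : Prop where
  dg0 : ∀ i j, (fun x => g x i j - (1 : Mn n) i j) =O[lc n] fun x => ‖x‖ ^ (-q)
  dg1 : ∀ i j k, (fun x => pd (fun y => g y i j) k x) =O[lc n] fun x => ‖x‖ ^ (-q - 1)
  dK : ∀ i j, (fun x => K x i j) =O[lc n] fun x => ‖x‖ ^ (-q - 1)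

end Vale.Agent.P366
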