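import Vale.Agent.P366I.PA1

/-! Pointwise inequalities (checked numerically). -/

noncomputable section

open Matrix MeasureTheory Set Filter Topology Asymptotics
open scoped ContDiff

namespace Vale.Agent.P366

variable {n : ℕ} {ι : Type} [Fintype ι] [DecidableEq ι]

omit [DecidableEq ι] in
theorem pa3_tr (C : Mn n) (Q R : Matrix (Fin n) ι ℝ) :
    ∑ k, ∑ l, C k l * (Q k ⬝ᵥ R l) = trace (Qᵀ * C * R) := by
  simp only [trace, diag, mul_apply, transpose_apply, dotProduct, Finset.sum_mul, Finset.mul_sum]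
  rw [Finset.sum_comm, Finset.sum_comm (γ := ι)]
  refine Finset.sum_congr rfl fun l _ => Finset.sum_comm.trans ?_
  exact Finset.sum_congr rfl fun s _ => Finset.sum_congr rfl fun k _ => by ring

theorem pa3_sym {gi : Mn n} (hgi : gi.PosDef) : giᵀ = gi := by
  rw [← conjTranspose_eq_transpose_of_trivial]
  exact hgi.isHermitian

omit [DecidableEq ι] in
theorem pa3_pos {gi : Mn n} (hgi : gi.PosDef) (Q : Matrix (Fin n) ι ℝ) :
    0 ≤ trace (Qᵀ * gi * Q) := by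
  rw [← conjTranspose_eq_transpose_of_trivial]
  exact (hgi.posSemidef.conjTranspose_mul_mul_same Q).trace_nonneg

theorem pa3_ip {gi : Mn n} (hgi : gi.PosDef) (A B : Mn n) :
    ipA gi A B = trace (Aᵀ * gi * (B * gi)) := by
  rw [← pa3_tr]
  refine Finset.sum_congr rfl fun k _ => Finset.sum_congr rfl fun l _ => ?_
  simp only [mul_apply, dotProduct, Finset.mul_sum]
  refine Finset.sum_congr rfl fun j _ => Finset.sum_congr rfl fun m _ => ?_
  rw [show gi m j = gi j m from congrFun (congrFun (pa3_sym hgi) j) m]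
  ring

theorem pa3_trA (gi B : Mn n) : trA gi B = trace (Bᵀ * gi) := by
  simp only [trA, trace, diag, mul_apply, transpose_apply, mul_comm]
  exact Finset.sum_comm

theorem pa3_fin {V : Type} [AddCommGroup V] [Module ℝ V] (N : V →ₗ[ℝ] V →ₗ[ℝ] ℝ)
    (hs : ∀ x y, N x y = N y x) (hp : ∀ x, 0 ≤ N x x) {c U Y Z : V} {d H a p q r u w lam η : ℝ}
    (hd : 0 < d) (hw : 0 < w) (hl : 1 / 2 ≤ lam) (hη : 0 < η) (hu : u * H = η)
    (h1 : N c U = -p) (h2 : N c Z = -q) (h3 : N U U = d * p) (h4 : N U Y = H * q)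
    (h5 : N U Z = d * q) (h6 : N Y Y = a * r) (h7 : N Y Z = H * r) (h8 : N Z Z = d * r) :
    -(η / d) * q + 2 * lam * (η / w) * p / d + (1 / 2) * lam * η * w * r / d
      ≤ u * N c Y + 2 * lam * (η / w) * N c c + (1 / 2) * lam * (w * u ^ 2 / η) * a * r := by
  obtain ⟨ζ, hζ⟩ : ∃ ζ, ζ = c + d⁻¹ • U := ⟨_, rfl⟩
  obtain ⟨W, hW⟩ : ∃ W, W = Y - (H / d) • Z := ⟨_, rfl⟩
  obtain ⟨α, hα⟩ : ∃ α, α = 2 * lam * (η / w) := ⟨_, rfl⟩
  obtain ⟨β, hβ⟩ : ∃ β, β = 1 / 2 * lam * (w * u ^ 2 / η) := ⟨_, rfl⟩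
  have l0 : 0 < lam := by linarith
  have a0 : 0 < α := by rw [hα]; positivity
  have e : u * N c Y + 2 * lam * (η / w) * N c c + (1 / 2) * lam * (w * u ^ 2 / η) * a * r -
      (-(η / d) * q + 2 * lam * (η / w) * p / d + (1 / 2) * lam * η * w * r / d) =
      u * N ζ W + α * N ζ ζ + β * N W W := by
    simp only [hζ, hW, hα, hβ, map_add, map_sub, map_smul, LinearMap.add_apply, LinearMap.sub_apply,
      LinearMap.smul_apply, smul_eq_mul, hs U c, hs Z Y, h1, h2, h3, h4, h5, h6, h7, h8]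
    have e0 := hη.ne'
    subst hu
    have e1 := left_ne_zero_of_mul e0
    have e2 := right_ne_zero_of_mul e0
    field_simp
    ring
  have e1 : α * β = lam ^ 2 * u ^ 2 := by
    rw [hα, hβ]
    field_simp
  have e2 := hp (α • ζ + (u / 2) • W)
  simp only [map_add, map_smul, LinearMap.add_apply, LinearMap.smul_apply, smul_eq_mul,
    hs W ζ] at e2
  have e3 := mul_nonneg (mul_nonneg (show 0 ≤ lam ^ 2 - 1 / 4 by nlinarith) (sq_nonneg u)) (hp W)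
  rw [← sub_nonneg, e]
  refine nonneg_of_mul_nonneg_right ?_ a0
  have e4 : α * (β * N W W) = lam ^ 2 * u ^ 2 * N W W := by rw [← mul_assoc, e1]
  linarith

/-- The pairing of spinor valued covectors. -/
def pa3N (gi : Mn n) : Matrix (Fin n) ι ℝ →ₗ[ℝ] Matrix (Fin n) ι ℝ →ₗ[ℝ] ℝ :=
  LinearMap.mk₂ ℝ (fun P Q => trace (Pᵀ * gi * Q))
    (fun _ _ _ => by simp only [transpose_add, Matrix.add_mul, trace_add])
    (fun _ _ _ => by simp only [transpose_smul, Matrix.smul_mul, trace_smul])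
    (fun _ _ _ => by simp only [Matrix.mul_add, trace_add])
    fun _ _ _ => by simp only [Matrix.mul_smul, trace_smul]

theorem nTA_nonneg {gi : Mn n} (hgi : gi.PosDef) (Q : Fin n → ι → ℝ) : 0 ≤ nTA gi Q :=
  (pa3_pos hgi (of Q)).trans_eq (pa3_tr gi (of Q) (of Q)).symm

open scoped MatrixOrder in
theorem pa3_root {gi : Mn n} (hgi : gi.PosDef) : ∃ C : Mn n, gi = Cᵀ * C := by
  obtain ⟨C, hC⟩ := CStarAlgebra.nonneg_iff_eq_star_mul_self.mp hgi.posSemidef.nonneg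
  exact ⟨C, by rwa [star_eq_conjTranspose, conjTranspose_eq_transpose_of_trivial] at hC⟩

theorem ipA_nonneg {gi : Mn n} (hgi : gi.PosDef) (B : Mn n) : 0 ≤ ipA gi B B := by
  obtain ⟨C, hC⟩ := pa3_root hgi
  have h1 := pa3_pos hgi (B * Cᵀ)
  rw [transpose_mul, transpose_transpose, Matrix.mul_assoc C, Matrix.mul_assoc C,
    trace_mul_comm, Matrix.mul_assoc, Matrix.mul_assoc B, ← hC] at h1
  rwa [pa3_ip hgi]

section
variable {gi : Mn n} {γ : Fin n → Ms ι} {ν νl ac : Fin n → ℝ} {A : Mn n}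
  (h : Pt gi γ ν νl A ac) (ψ : ι → ℝ) (P : Fin n → ι → ℝ)
include h

theorem pa3_E (B : Mn n) : trace (Bᵀ * gi * (vecMulVec νl νl * gi)) = ν ⬝ᵥ (Bᵀ *ᵥ ν) := by
  rw [vecMulVec_mul, mul_vecMulVec, trace_vecMulVec, ← mulVec_mulVec, ← mulVec_transpose,
    pa3_sym h.pos, ← h.up, dotProduct_comm]

theorem pa3_mv (k : Fin n) (φ v : ι → ℝ) :
    (btA γ ν νl k *ᵥ φ) ⬝ᵥ v = -(φ ⬝ᵥ btA γ ν νl k *ᵥ v) := by
  rw [← vecMul_transpose, ← dotProduct_mulVec, h.bt_skew, neg_mulVec, dotProduct_neg]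

theorem pa3_bb {M M' B : Mn n} (e : Mᵀ * gi * M' = B) (hB : B.IsSymm) (hBν : B *ᵥ ν = 0)
    (φ χ : ι → ℝ) : pa3N gi (M * of fun j => btA γ ν νl j *ᵥ φ)
      (M' * of fun j => btA γ ν νl j *ᵥ χ) = trA gi B * (φ ⬝ᵥ χ) := by
  have h1 := congrArg (fun S => φ ⬝ᵥ S *ᵥ χ) (h.bt_bt_sym hB hBν)
  simp only [sum_mulVec, smul_mulVec, dotProduct_sum, dotProduct_smul, one_mulVec, smul_eq_mul,
    ← mulVec_mulVec, neg_mul] at h1
  rw [pa3N, LinearMap.mk₂_apply, transpose_mul, Matrix.mul_assoc _ Mᵀ, ← Matrix.mul_assoc _ M',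
    Matrix.mul_assoc _ _ M', e, ← pa3_tr, ← neg_inj, ← h1]
  simp only [← Finset.sum_neg_distrib, ← mul_neg]
  exact Finset.sum_congr rfl fun k _ => Finset.sum_congr rfl fun l _ =>
    congrArg _ (neg_eq_iff_eq_neg.2 (pa3_mv h k φ _))

/-- Expand `0 ≤ |K - κ A - K(ν,ν) ν ν|^2`. -/
theorem Pt.con_alg {K : Mn n} (hK : K.IsSymm) (κ : ℝ) :
    0 ≤ ipA gi K K - (ν ⬝ᵥ (K *ᵥ ν)) ^ 2 - 2 * κ * ipA gi A K + κ ^ 2 * ipA gi A A := by
  have h1 := ipA_nonneg h.pos (K - κ • A - (ν ⬝ᵥ (K *ᵥ ν)) • vecMulVec νl νl)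
  have h2 : ∀ B C : Mn n, trace (Bᵀ * gi * (C * gi)) = trace (Cᵀ * gi * (B * gi)) := fun B C => by
    rw [← trace_transpose, transpose_mul, transpose_mul, transpose_mul, transpose_transpose,
      pa3_sym h.pos, Matrix.mul_assoc, trace_mul_comm, Matrix.mul_assoc, Matrix.mul_assoc,
      Matrix.mul_assoc]
  have h3 : ν ⬝ᵥ ((vecMulVec νl νl)ᵀ *ᵥ ν) = 1 := by
    simp [vecMulVec_mulVec, dotProduct_comm νl ν, h.unit]
  simp only [pa3_ip h.pos, transpose_sub, transpose_smul, Matrix.sub_mul, Matrix.mul_sub,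
    Matrix.smul_mul, Matrix.mul_smul, trace_sub, trace_smul, smul_eq_mul, h2 K A,
    h2 (vecMulVec νl νl) K, h2 (vecMulVec νl νl) A, pa3_E h, h3] at h1 ⊢
  rw [hK.eq, h.sym.eq, h.tanA, dotProduct_zero] at h1
  rw [hK.eq, h.sym.eq]
  linarith

/-- Let `d = n - 1`, `g = gi⁻¹`, `D = ds`, `β_k = g k j β^j`, `ζ k = cT k + β_k D / d`,
`B = A - (H/d)(g - νl νl)`. Then `nT = |D|^2/d + |ζ|^2`, `|A|^2 = H^2/d + |B|^2`,
`cr = -(H/d) D·ψ + ⟨ζ, B β ψ⟩` with `|B β ψ|^2 = |B|^2 |ψ|^2`. Equivalent and shorter: expand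
`0 ≤ nTA gi (fun k => a • ζ k + b • (B β ψ) k)` with `a^2 = 2 lam η / w`, `2 a b = u`; then
`b^2 = u^2 w/(8 lam η) ≤ lam w u^2/(2 η)` because `1/2 ≤ lam`. -/
theorem Pt.twistor (hn : 2 ≤ n) {u w lam η : ℝ} (hw : 0 < w) (hl : 1 / 2 ≤ lam) (hη : 0 < η)
    (hu : u * trA gi A = η) :
    -(η / ((n : ℝ) - 1)) * (dsA gi γ ν νl A ψ P ⬝ᵥ ψ)
      + 2 * lam * (η / w) * (dsA gi γ ν νl A ψ P ⬝ᵥ dsA gi γ ν νl A ψ P) / ((n : ℝ) - 1)
      + (1 / 2) * lam * η * w * (ψ ⬝ᵥ ψ) / ((n : ℝ) - 1)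
    ≤ u * crA gi γ ν νl A ψ (cTA γ ν νl A ψ P)
      + 2 * lam * (η / w) * nTA gi (cTA γ ν νl A ψ P)
      + (1 / 2) * lam * (w * u ^ 2 / η) * ipA gi A A * (ψ ⬝ᵥ ψ) := by
  have hs := pa3_sym h.pos
  have hu' : IsUnit gi.det := (isUnit_iff_isUnit_det _).1 h.pos.isUnit
  obtain ⟨T, hT⟩ : ∃ T : Mn n, T = gi⁻¹ - vecMulVec νl νl := ⟨_, rfl⟩
  have t1 : Tᵀ = T := by rw [hT, transpose_sub, transpose_nonsing_inv, hs, transpose_vecMulVec]
  have t2 : gi * T = 1 - vecMulVec ν νl := by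
    rw [hT, Matrix.mul_sub, mul_nonsing_inv _ hu', mul_vecMulVec, ← h.up]
  have t3 : T *ᵥ ν = 0 := by
    have e : gi⁻¹ *ᵥ ν = νl := by rw [h.up, mulVec_mulVec, nonsing_inv_mul _ hu', one_mulVec]
    simp [hT, sub_mulVec, e, vecMulVec_mulVec, dotProduct_comm νl ν, h.unit]
  have t4 : ∀ B : Mn n, Bᵀ *ᵥ ν = 0 → Bᵀ * gi * T = Bᵀ := fun B hB => by
    rw [Matrix.mul_assoc, t2, Matrix.mul_sub, Matrix.mul_one, mul_vecMulVec, hB, zero_vecMulVec,
      sub_zero]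
  have t5 : Tᵀ * gi * T = T := (t4 T (t1.symm ▸ t3)).trans t1
  have t6 : Aᵀ * gi * T = A := (t4 A (h.sym.eq.symm ▸ h.tanA)).trans h.sym.eq
  have t7 : Tᵀ * gi * A = A := by
    have e := congrArg transpose t6
    rwa [transpose_mul, transpose_mul, hs, transpose_transpose, h.sym.eq, ← Matrix.mul_assoc] at e
  have t8 : trA gi T = n - 1 := by
    rw [pa3_trA, t1, trace_mul_comm, t2, trace_sub, trace_one, trace_vecMulVec, h.unit,
      Fintype.card_fin]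
  have t9 : trA gi (Aᵀ * gi * A) = ipA gi A A := by
    rw [pa3_trA, pa3_ip h.pos, transpose_mul, transpose_mul, hs, transpose_transpose]
    simp only [Matrix.mul_assoc]
  have c1 : ∀ φ, pa3N gi (of (cTA γ ν νl A ψ P)) (T * of fun j => btA γ ν νl j *ᵥ φ) =
      -(dsA gi γ ν νl A ψ P ⬝ᵥ φ) := fun φ => by
    have e : νl ᵥ* (of fun j => btA γ ν νl j *ᵥ φ) = 0 := by
      have e := congrArg (· *ᵥ φ) h.bt_tan
      simp only [sum_mulVec, smul_mulVec, zero_mulVec] at e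
      exact (vecMul_eq_sum _ _).trans e
    rw [pa3N, LinearMap.mk₂_apply, Matrix.mul_assoc, ← Matrix.mul_assoc gi, t2, Matrix.sub_mul,
      vecMulVec_mul, e, show vecMulVec ν (0 : ι → ℝ) = 0 by ext; simp [vecMulVec_apply],
      sub_zero, ← Matrix.mul_assoc, ← pa3_tr, h.ds_eq,
      sum_dotProduct, ← Finset.sum_neg_distrib]
    refine Finset.sum_congr rfl fun k _ => ?_
    simp only [one_apply, ite_mul, one_mul, zero_mul, Finset.sum_ite_eq, Finset.mem_univ, if_true,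
      pa3_mv h k, neg_neg]
    rfl
  have c2 : crA gi γ ν νl A ψ (cTA γ ν νl A ψ P) =
      pa3N gi (of (cTA γ ν νl A ψ P)) (A * of fun j => btA γ ν νl j *ᵥ ψ) := by
    rw [pa3N, LinearMap.mk₂_apply, ← Matrix.mul_assoc, Matrix.mul_assoc _ gi, ← pa3_tr]
    refine Finset.sum_congr rfl fun k _ => Finset.sum_comm.trans ?_
    simp only [mul_apply, Finset.sum_mul]
    rfl
  have c3 : nTA gi (cTA γ ν νl A ψ P) = pa3N gi (of (cTA γ ν νl A ψ P)) (of (cTA γ ν νl A ψ P)) :=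
    pa3_tr gi (of _) (of _)
  have hn' : (2 : ℝ) ≤ n := by exact_mod_cast hn
  rw [c2, c3, ← t8, ← t9]
  refine pa3_fin (pa3N gi) (fun X Y => ?_) (pa3_pos h.pos) (by rw [t8]; linarith) hw hl hη hu
    (c1 _) (c1 ψ) (pa3_bb h t5 t1 t3 _ _) (pa3_bb h t7 h.sym h.tanA _ _) (pa3_bb h t5 t1 t3 _ _)
    (pa3_bb h rfl ?_ ?_ _ _) (pa3_bb h t6 h.sym h.tanA _ _) (pa3_bb h t5 t1 t3 _ _)
  · simp only [pa3N, LinearMap.mk₂_apply]
    rw [← trace_transpose, transpose_mul, transpose_mul, hs, transpose_transpose, Matrix.mul_assoc]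
  · rw [IsSymm, transpose_mul, transpose_mul, hs, transpose_transpose, Matrix.mul_assoc]
  · rw [← mulVec_mulVec, h.tanA, mulVec_zero]

end

end Vale.Agent.P366
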