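import Vale.Agent.P366I.IpC
import Vale.Agent.P366I.Sm1
import Vale.Agent.P366I.Nor
import Vale.Agent.P366I.PA3
import Vale.Agent.P366I.Sph3

/-! Comparison of the leaf norms with the norms on the unit sphere. -/

noncomputable section

open Matrix MeasureTheory Set Filter Topology Asymptotics
open scoped ContDiff

namespace Vale.Agent.P366

variable {n : ℕ} {ι : Type} [Fintype ι] [DecidableEq ι]

theorem bnd_ell {ρ : ℝ} {g : Fld n} (h : Met ρ g) {t : ℝ} (ht : ρ < t) : ∃ c, 0 < c ∧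
    ∀ x : Euc n, ‖x‖ = t → ∀ v : Fin n → ℝ,
      c * ∑ k, v k * v k ≤ ∑ k, ∑ l, (g x)⁻¹ k l * (v k * v l) := by
  have hc : IsCompact (Metric.sphere (0 : Euc n) t ×ˢ Metric.sphere (0 : Euc n) 1) :=
    (isCompact_sphere _ _).prod (isCompact_sphere _ _)
  have hf : ContinuousOn (fun p : Euc n × Euc n => ∑ k, ∑ l, (g p.1)⁻¹ k l * (p.2 k * p.2 l))
      (Metric.sphere (0 : Euc n) t ×ˢ Metric.sphere (0 : Euc n) 1) := fun p hp => by
    have hx : ρ < ‖p.1‖ := by rwa [mem_sphere_zero_iff_norm.1 hp.1]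
    refine ContinuousAt.continuousWithinAt (tendsto_finsetSum _ fun k _ =>
      tendsto_finsetSum _ fun l _ => ContinuousAt.mul ?_ (by fun_prop))
    exact ContinuousAt.comp (g := fun y => (g y)⁻¹ k l) (h.sm_inv hx k l).continuousAt
      continuousAt_fst
  obtain ⟨c, h1, h2⟩ := hc.exists_forall_le' hf (a := 0) fun p hp => by
    have hx : ρ < ‖p.1‖ := by rwa [mem_sphere_zero_iff_norm.1 hp.1]
    have h0 : p.2.ofLp ≠ 0 := fun h0 => by
      have e : p.2 = 0 := by ext i; exact congrFun h0 i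
      have := mem_sphere_zero_iff_norm.1 hp.2
      rw [e, norm_zero] at this
      exact zero_ne_one this
    refine ((h.posDef _ hx).inv.dotProduct_mulVec_pos h0).trans_eq ?_
    simp only [dotProduct, mulVec, star_trivial, Finset.mul_sum]
    exact Finset.sum_congr rfl fun a _ => Finset.sum_congr rfl fun b _ => by ring
  refine ⟨c, h1, fun x hx v => ?_⟩
  have e : ∑ k, v k * v k = ‖(WithLp.toLp 2 v : Euc n)‖ ^ 2 := by
    rw [EuclideanSpace.real_norm_sq_eq]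
    simp only [sq]
  by_cases h0 : (WithLp.toLp 2 v : Euc n) = 0
  · have e0 : ∀ k, v k = 0 := fun k => congrFun (congrArg WithLp.ofLp h0) k
    simp [e0]
  · have hp := norm_pos_iff.2 h0
    obtain ⟨N, hN⟩ : ∃ N, N = ‖(WithLp.toLp 2 v : Euc n)‖ := ⟨_, rfl⟩
    have h3 := h2 (x, N⁻¹ • WithLp.toLp 2 v) ⟨mem_sphere_zero_iff_norm.2 hx,
      mem_sphere_zero_iff_norm.2 (by rw [hN, norm_smul, norm_inv, norm_norm, inv_mul_cancel₀ hp.ne'])⟩
    rw [← hN] at e hp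
    rw [e]
    refine (mul_le_mul_of_nonneg_right h3 (sq_nonneg N)).trans_eq ?_
    simp only [Finset.sum_mul, PiLp.smul_apply, smul_eq_mul]
    refine Finset.sum_congr rfl fun a _ => Finset.sum_congr rfl fun b _ => ?_
    field_simp

/-- Uniform ellipticity: minimise `v ⬝ᵥ (g x)⁻¹ *ᵥ v` over the compact set sphere × unit vectors, and
apply it to each spinor component. -/
theorem Met.ell {ρ : ℝ} {g : Fld n} (h : Met ρ g) {t : ℝ} (ht : ρ < t) : ∃ c, 0 < c ∧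
    ∀ x : Euc n, ‖x‖ = t → ∀ Q : Fin n → ι → ℝ, c * ∑ k, Q k ⬝ᵥ Q k ≤ nTA (g x)⁻¹ Q := by
  obtain ⟨c, h1, h2⟩ := bnd_ell h ht
  refine ⟨c, h1, fun x hx Q => ?_⟩
  have e1 : c * ∑ k, Q k ⬝ᵥ Q k = ∑ s, c * ∑ k, Q k s * Q k s := by
    simp only [dotProduct]
    rw [Finset.sum_comm, Finset.mul_sum]
  have e2 : nTA (g x)⁻¹ Q = ∑ s, ∑ k, ∑ l, (g x)⁻¹ k l * (Q k s * Q l s) := by
    simp only [nTA, dotProduct, Finset.mul_sum]
    rw [Finset.sum_comm (γ := ι)]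
    exact Finset.sum_congr rfl fun k _ => Finset.sum_comm
  rw [e1, e2]
  exact Finset.sum_le_sum fun s _ => h2 x hx fun k => Q k s

/-- Squared Frobenius norm. -/
def bnd_F (M : Ms ι) : ℝ := ∑ p, ∑ q, M p q ^ 2

omit [DecidableEq ι] in
theorem bnd_F0 (M : Ms ι) : 0 ≤ bnd_F M :=
  Finset.sum_nonneg fun _ _ => Finset.sum_nonneg fun _ _ => sq_nonneg _

omit [DecidableEq ι] in
theorem bnd_mv (M : Ms ι) (v : ι → ℝ) : (M *ᵥ v) ⬝ᵥ (M *ᵥ v) ≤ bnd_F M * (v ⬝ᵥ v) := by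
  rw [bnd_F, Finset.sum_mul]
  refine Finset.sum_le_sum fun p _ => ?_
  have := Finset.sum_mul_sq_le_sq_mul_sq Finset.univ (fun q => M p q) v
  simpa only [sq, mulVec, dotProduct] using this

omit [DecidableEq ι] in
theorem bnd_add (a b : ι → ℝ) : (a + b) ⬝ᵥ (a + b) ≤ 2 * (a ⬝ᵥ a) + 2 * (b ⬝ᵥ b) := by
  simp only [dotProduct, Finset.mul_sum, ← Finset.sum_add_distrib, Pi.add_apply]
  exact Finset.sum_le_sum fun s _ => by nlinarith [sq_nonneg (a s - b s)]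

omit [DecidableEq ι] in
theorem bnd_sum (ν : Fin n → ℝ) (T : Fin n → ι → ℝ) :
    (∑ k, ν k • T k) ⬝ᵥ (∑ k, ν k • T k) ≤ (∑ k, ν k ^ 2) * ∑ k, T k ⬝ᵥ T k := by
  simp only [dotProduct, Finset.sum_apply, Pi.smul_apply, smul_eq_mul]
  rw [Finset.sum_comm, Finset.mul_sum]
  refine Finset.sum_le_sum fun s _ => ?_
  have := Finset.sum_mul_sq_le_sq_mul_sq Finset.univ ν (fun k => T k s)
  simpa only [sq] using this

omit [DecidableEq ι] in
theorem bnd_Fc {x : Euc n} {A : Euc n → Ms ι} (hA : sm1_M x A) :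
    ContDiffAt ℝ ∞ (fun y => bnd_F (A y)) x :=
  ContDiffAt.sum fun p _ => ContDiffAt.sum fun q _ => (hA p q).pow 2

theorem bnd_sq {θ : Euc n} (hθ : ‖θ‖ = 1) : ∑ k, θ k * θ k = 1 := by
  have := EuclideanSpace.real_norm_sq_eq θ
  rw [hθ, one_pow] at this
  simpa only [sq] using this.symm

omit [Fintype ι] [DecidableEq ι] in
theorem bnd_tan (φ : Euc n → ι → ℝ) {θ : Euc n} (hθ : ‖θ‖ = 1) : ∑ k, θ k • tg φ k θ = 0 := by
  simp only [tg, smul_sub, Finset.sum_sub_distrib, smul_smul]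
  rw [← Finset.sum_smul, bnd_sq hθ, one_smul, sub_self]

theorem bnd_proj {θ : Fin n → ℝ} {T : Fin n → ι → ℝ} (h0 : ∑ k, θ k • T k = 0) (W : ι → ℝ) :
    ∑ k, T k ⬝ᵥ T k ≤ ∑ k, (T k - θ k • W) ⬝ᵥ (T k - θ k • W) := by
  have e : ∀ k, (T k - θ k • W) ⬝ᵥ (T k - θ k • W)
      = T k ⬝ᵥ T k - 2 * ((θ k • T k) ⬝ᵥ W) + (θ k • W) ⬝ᵥ (θ k • W) := fun k => by
    simp only [sub_dotProduct, dotProduct_sub, smul_dotProduct, dotProduct_smul, smul_eq_mul,
      dotProduct_comm W (T k)]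
    ring
  simp only [e, Finset.sum_add_distrib, Finset.sum_sub_distrib]
  rw [← Finset.mul_sum, ← sum_dotProduct, h0, zero_dotProduct, mul_zero, sub_zero]
  exact le_add_of_nonneg_right (Finset.sum_nonneg fun _ _ => ipc_dot _)

/-- Chain rule for the radial extension. -/
theorem bnd_pd {f : Euc n → ℝ} {t : ℝ} (ht : 0 < t) {θ : Euc n} (hθ : ‖θ‖ = 1)
    (hf : DifferentiableAt ℝ f θ) (k : Fin n) :
    pd (fun y => f (‖y‖⁻¹ • y)) k (t • θ) = (pd f k θ - θ k * ∑ l, θ l * pd f l θ) / t := by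
  have hn := norm_smul_sph ht hθ
  have hx : t • θ ≠ 0 := norm_pos_iff.1 (hn.symm ▸ ht)
  have e0 : ‖t • θ‖⁻¹ • t • θ = θ := by rw [hn, smul_smul, inv_mul_cancel₀ ht.ne', one_smul]
  have d1 : DifferentiableAt ℝ (fun y : Euc n => ‖y‖) (t • θ) :=
    (contDiffAt_norm ℝ hx (n := 1)).differentiableAt one_ne_zero
  have d2 : DifferentiableAt ℝ (fun y : Euc n => ‖y‖⁻¹) (t • θ) :=
    d1.inv (norm_ne_zero_iff.2 hx)
  have d3 := d2.hasFDerivAt.smul (hasFDerivAt_id (t • θ))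
  have d4 : HasFDerivAt f (fderiv ℝ f θ) (‖t • θ‖⁻¹ • t • θ) := by
    rw [e0]
    exact hf.hasFDerivAt
  have d5 : HasFDerivAt (fun y : Euc n => f (‖y‖⁻¹ • y)) _ (t • θ) :=
    HasFDerivAt.comp (f := fun y : Euc n => ‖y‖⁻¹ • y) (t • θ) d4 d3
  have e1 : fderiv ℝ (fun y : Euc n => ‖y‖⁻¹) (t • θ) (EuclideanSpace.single k 1)
      = -(θ k / t ^ 2) := by
    have := pd_comp (φ := fun s : ℝ => s⁻¹) (k := k)
      (differentiableAt_inv (norm_ne_zero_iff.2 hx)) d1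
    rw [pd_norm hx, deriv_inv, hn] at this
    refine this.trans ?_
    simp only [PiLp.smul_apply, smul_eq_mul]
    field_simp
  have e2 := sph2_fd f θ θ
  rw [pd, d5.fderiv]
  simp only [ContinuousLinearMap.comp_apply, _root_.add_apply,
    _root_.smul_apply, ContinuousLinearMap.smulRight_apply,
    ContinuousLinearMap.id_apply, id, e1, map_add, map_smul, hn, smul_eq_mul, ← e2]
  simp only [mul_comm (θ _)]
  rw [pd]
  field_simp
  ring

/-- The zeroth order part of `cov`. -/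
def bnd_M (g K : Fld n) (S : Euc n → Fin n → Ms ι) (x : Euc n) (k : Fin n) : Ms ι :=
  pd (rho g K) k x • (1 : Ms ι) + rho g K x • S x k

/-- The zeroth order part of `pn`. -/
def bnd_N (g K : Fld n) (S : Euc n → Fin n → Ms ι) (x : Euc n) : Ms ι :=
  ∑ k, nu g k x • bnd_M g K S x k

/-- The zeroth order part of `cT`. -/
def bnd_R (g K : Fld n) (γ S : Euc n → Fin n → Ms ι) (x : Euc n) (k : Fin n) : Ms ι :=
  bnd_M g K S x k + (-nl g k x) • bnd_N g K S x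
    + ∑ j, (-(1 / 2) * (sff g x k j * rho g K x)) • bt g γ x j

section
variable {ρ : ℝ} {g K : Fld n} {η κ : ℝ → ℝ} {γ S : Euc n → Fin n → Ms ι} (hn : 3 ≤ n)
  (h : Sh ρ g K η κ) (hG : Geo ρ g γ S) {t : ℝ} (ht : ρ < t)
include hn h hG ht

theorem cov_exs {φ : Euc n → ι → ℝ} (hφ : Sm φ) {θ : Euc n} (hθ : ‖θ‖ = 1) (k : Fin n) :
    cov S (exs g K φ) (t • θ) k = (rho g K (t • θ) / t) • tg φ k θ
      + pd (rho g K) k (t • θ) • φ θ + rho g K (t • θ) • (S (t • θ) k *ᵥ φ θ) := by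
  have t0 : 0 < t := h.met.pos.trans ht
  have hn' := norm_smul_sph t0 hθ
  have hx : ρ < ‖t • θ‖ := by rwa [hn']
  have e0 : ‖t • θ‖⁻¹ • t • θ = θ := by rw [hn', smul_smul, inv_mul_cancel₀ t0.ne', one_smul]
  have h1 : ContDiffAt ℝ ∞ (fun y : Euc n => ‖y‖⁻¹ • y) (t • θ) :=
    ((contDiffAt_norm ℝ (sm0_ne h.met hx)).inv (hn'.trans_ne t0.ne')).smul contDiffAt_id
  have e1 : pdV (exs g K φ) k (t • θ) = (rho g K (t • θ) / t) • tg φ k θ
      + pd (rho g K) k (t • θ) • φ θ := by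
    funext s
    have d1 : ContDiffAt ℝ ∞ (fun y : Euc n => φ (‖y‖⁻¹ • y) s) (t • θ) :=
      ContDiffAt.comp (g := fun y => φ y s) _ (by rw [e0]; exact hφ θ hθ s) h1
    have e2 := pd_mul (k := k) ((h.sm_rho hx).differentiableAt (by simp))
      (d1.differentiableAt (by simp))
    rw [bnd_pd (f := fun y => φ y s) t0 hθ ((hφ θ hθ s).differentiableAt (by simp)), e0] at e2
    refine e2.trans ?_
    simp only [tg, pdV, Pi.add_apply, Pi.smul_apply, Pi.sub_apply, Finset.sum_apply, smul_eq_mul]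
    ring
  rw [cov, e1, exs, e0, mulVec_smul]

theorem bnd_cov {φ : Euc n → ι → ℝ} (hφ : Sm φ) {θ : Euc n} (hθ : ‖θ‖ = 1) (k : Fin n) :
    cov S (exs g K φ) (t • θ) k = (rho g K (t • θ) / t) • tg φ k θ
      + bnd_M g K S (t • θ) k *ᵥ φ θ := by
  rw [cov_exs hn h hG ht hφ hθ, bnd_M, add_mulVec, smul_mulVec, smul_mulVec, one_mulVec, add_assoc]

theorem bnd_pn {φ : Euc n → ι → ℝ} (hφ : Sm φ) {θ : Euc n} (hθ : ‖θ‖ = 1) :
    pn g S (exs g K φ) (t • θ) = (rho g K (t • θ) / t) • ∑ k, nu g k (t • θ) • tg φ k θ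
      + bnd_N g K S (t • θ) *ᵥ φ θ := by
  simp only [pn, pnA, nuV, bnd_cov hn h hG ht hφ hθ, bnd_N, sum_mulVec, smul_mulVec, smul_add,
    Finset.sum_add_distrib, Finset.smul_sum, smul_comm (rho g K (t • θ) / t)]

theorem bnd_cT {φ : Euc n → ι → ℝ} (hφ : Sm φ) {θ : Euc n} (hθ : ‖θ‖ = 1) (k : Fin n) :
    (rho g K (t • θ) / t) • (tg φ k θ
      - θ k • (lapse g (t • θ) • ∑ l, nu g l (t • θ) • tg φ l θ))
      = cT g γ S (exs g K φ) (t • θ) k + (-bnd_R g K γ S (t • θ) k) *ᵥ φ θ := by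
  have t0 : 0 < t := h.met.pos.trans ht
  have hn' := norm_smul_sph t0 hθ
  have e0 : ‖t • θ‖⁻¹ • t • θ = θ := by rw [hn', smul_smul, inv_mul_cancel₀ t0.ne', one_smul]
  have e1 : nl g k (t • θ) = θ k * lapse g (t • θ) := by
    rw [nl, hn', PiLp.smul_apply, smul_eq_mul]
    field_simp
  have e2 := bnd_pn hn h hG ht hφ hθ
  rw [pn] at e2
  have e3 : (∑ j, (-(1 / 2) * (sff g (t • θ) k j * rho g K (t • θ))) • bt g γ (t • θ) j) *ᵥ φ θ
      = -((1 / 2 : ℝ) • ∑ j, sff g (t • θ) k j • (bt g γ (t • θ) j *ᵥ (rho g K (t • θ) • φ θ))) := by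
    simp only [sum_mulVec, smul_mulVec, mulVec_smul, Finset.smul_sum, smul_smul,
      ← Finset.sum_neg_distrib, ← neg_smul, neg_mul]
  rw [cT, cTA, e2, bnd_cov hn h hG ht hφ hθ, exs, e0, bnd_R, neg_mulVec, add_mulVec, add_mulVec,
    smul_mulVec, e3, nlV, e1]
  simp only [bt]
  module

omit hn ht in
theorem bnd_smM {x : Euc n} (hx : ρ < ‖x‖) (k : Fin n) : sm1_M x fun y => bnd_M g K S y k :=
  sm1_madd (sm1_msmul (contDiffAt_pd (h.sm_rho hx) k) (sm1_mconst 1))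
    (sm1_msmul (h.sm_rho hx) (hG.smS x hx k))

omit hn ht in
theorem bnd_smN {x : Euc n} (hx : ρ < ‖x‖) : sm1_M x (bnd_N g K S) :=
  sm1_msum (P := fun y k => nu g k y • bnd_M g K S y k)
    fun k => sm1_msmul (h.met.sm_nu hx k) (bnd_smM h hG hx k)

omit hn ht in
theorem bnd_smR {x : Euc n} (hx : ρ < ‖x‖) (k : Fin n) : sm1_M x fun y => -bnd_R g K γ S y k :=
  fun p q => (sm1_madd (sm1_madd (bnd_smM h hG hx k) (sm1_msmul (h.met.sm_nl hx k).neg
    (bnd_smN h hG hx))) (sm1_msum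
      (P := fun y j => (-(1 / 2) * (sff g y k j * rho g K y)) • bt g γ y j) fun j => sm1_msmul
        (contDiffAt_const.mul ((h.met.sm_sff hx k j).mul (h.sm_rho hx))) (hG.sm_bt hx j)) p q).neg

/-- With `Q k = (rho / t) tg φ k`: `∑ θ_k Q k = 0`, `Q' k = Q k - nl k ∑ ν^l Q l` differs from `Q`
by a multiple of `θ_k`, so `∑ |Q k|^2 ≤ ∑ |Q' k|^2`, and `cT k - Q' k` is a bounded matrix applied
to `φ θ`. All coefficients are continuous on the sphere (`CS.bdd`, `CS.low`). -/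
theorem h1d_le : ∃ C, 0 < C ∧ ∀ φ : Euc n → ι → ℝ, Sm φ → ∀ θ : Euc n, ‖θ‖ = 1 →
    h1d φ θ ≤ C * (Jf g (t • θ) * (lapse g (t • θ) * nT g γ S (exs g K φ) (t • θ)) + φ θ ⬝ᵥ φ θ) := by
  have t0 : 0 < t := h.met.pos.trans ht
  obtain ⟨c, hc, he⟩ := h.met.ell (ι := ι) ht
  have hf : CS t fun x => (rho g K x / t)⁻¹ ^ 2 * (2 / (c * (Jf g x * lapse g x))
      + 2 * ∑ k, bnd_F (-bnd_R g K γ S x k)) + 1 := fun x hx => by
    have hx' : ρ < ‖x‖ := by rwa [hx]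
    exact ContDiffAt.continuousAt (n := ∞) ((((((h.sm_rho hx').div_const t).inv
      (div_pos (h.rho_pos hx') t0).ne').pow 2).mul ((contDiffAt_const.div (contDiffAt_const.mul
        ((h.met.sm_Jf hx').mul (h.met.sm_lapse hx')))
        (mul_pos hc (mul_pos (h.met.Jf_pos hx') (h.met.lapse_pos hx'))).ne').add
        (contDiffAt_const.mul (ContDiffAt.sum fun k _ => bnd_Fc (bnd_smR h hG hx' k))))).add
        contDiffAt_const)
  obtain ⟨C, hC, hb⟩ := CS.bdd t0 hf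
  refine ⟨C, hC, fun φ hφ θ hθ => ?_⟩
  have hn' := norm_smul_sph t0 hθ
  have hx : ρ < ‖t • θ‖ := by rwa [hn']
  have b1 := (le_abs_self _).trans (hb _ hn')
  have b2 := he _ hn' (cT g γ S (exs g K φ) (t • θ))
  have b3 := bnd_proj (bnd_tan φ hθ) (lapse g (t • θ) • ∑ l, nu g l (t • θ) • tg φ l θ)
  have b4 : ∀ k, (rho g K (t • θ) / t) ^ 2 *
      ((tg φ k θ - θ k • (lapse g (t • θ) • ∑ l, nu g l (t • θ) • tg φ l θ)) ⬝ᵥ
        (tg φ k θ - θ k • (lapse g (t • θ) • ∑ l, nu g l (t • θ) • tg φ l θ)))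
      ≤ 2 * (cT g γ S (exs g K φ) (t • θ) k ⬝ᵥ cT g γ S (exs g K φ) (t • θ) k)
        + 2 * (bnd_F (-bnd_R g K γ S (t • θ) k) * (φ θ ⬝ᵥ φ θ)) := fun k => by
    have := bnd_add (cT g γ S (exs g K φ) (t • θ) k) ((-bnd_R g K γ S (t • θ) k) *ᵥ φ θ)
    rw [← bnd_cT hn h hG ht hφ hθ, smul_dotProduct, dotProduct_smul, smul_eq_mul, smul_eq_mul,
      ← mul_assoc, ← sq] at this
    linarith [bnd_mv (-bnd_R g K γ S (t • θ) k) (φ θ)]
  have b5 := Finset.sum_le_sum fun k (_ : k ∈ Finset.univ) => b4 k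
  rw [← Finset.mul_sum, Finset.sum_add_distrib, ← Finset.mul_sum, ← Finset.mul_sum,
    ← Finset.sum_mul] at b5
  have p1 := div_pos (h.rho_pos hx) t0
  have p2 := mul_pos (h.met.Jf_pos hx) (h.met.lapse_pos hx)
  have p3 : 0 ≤ nT g γ S (exs g K φ) (t • θ) := nTA_nonneg (h.met.posDef _ hx).inv _
  have p4 : 0 ≤ ∑ k, bnd_F (-bnd_R g K γ S (t • θ) k) := Finset.sum_nonneg fun _ _ => bnd_F0 _
  have p5 := ipc_dot (φ θ)
  rw [h1d, ← mul_assoc (Jf g (t • θ))]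
  change _ ≤ nT g γ S (exs g K φ) (t • θ) at b2
  generalize nT g γ S (exs g K φ) (t • θ) = T at *
  generalize Jf g (t • θ) * lapse g (t • θ) = J at *
  generalize rho g K (t • θ) / t = r at *
  generalize ∑ k, bnd_F (-bnd_R g K γ S (t • θ) k) = F at *
  generalize φ θ ⬝ᵥ φ θ = u at *
  generalize ∑ k, cT g γ S (exs g K φ) (t • θ) k ⬝ᵥ cT g γ S (exs g K φ) (t • θ) k = A at *
  generalize ∑ k, tg φ k θ ⬝ᵥ tg φ k θ = B at *
  have q0 : 0 ≤ J * T := mul_nonneg p2.le p3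
  refine le_trans ?_ (mul_le_mul_of_nonneg_right b1 (add_nonneg q0 p5))
  have q1 : r ^ 2 * B ≤ 2 * A + 2 * (F * u) := (mul_le_mul_of_nonneg_left b3 (sq_nonneg r)).trans b5
  have q2 : 2 * A ≤ 2 / (c * J) * (J * T) := by
    have e : 2 / (c * J) * (J * T) = 2 * (T / c) := by field_simp
    rw [e]
    exact mul_le_mul_of_nonneg_left ((le_div_iff₀' hc).2 b2) zero_le_two
  have q3 : 0 ≤ 2 / (c * J) := by positivity
  have q4 : r ^ 2 * B ≤ (2 / (c * J) + 2 * F) * (J * T + u) := by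
    nlinarith [mul_nonneg q3 p5, mul_nonneg p4 q0]
  have q5 : B ≤ r⁻¹ ^ 2 * ((2 / (c * J) + 2 * F) * (J * T + u)) := by
    rw [inv_pow, ← div_eq_inv_mul, le_div_iff₀' (pow_pos p1 2)]
    exact q4
  nlinarith

theorem pn_le : ∃ C, 0 < C ∧ ∀ φ : Euc n → ι → ℝ, Sm φ → ∀ θ : Euc n, ‖θ‖ = 1 →
    Jf g (t • θ) * (pn g S (exs g K φ) (t • θ) ⬝ᵥ pn g S (exs g K φ) (t • θ)) ≤ C * h1d φ θ := by
  have t0 : 0 < t := h.met.pos.trans ht
  have hf : CS t fun x => Jf g x * (2 * ((rho g K x / t) ^ 2 * ∑ k, nu g k x ^ 2)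
      + 2 * bnd_F (bnd_N g K S x)) := fun x hx => by
    have hx' : ρ < ‖x‖ := by rwa [hx]
    exact ContDiffAt.continuousAt (n := ∞) ((h.met.sm_Jf hx').mul ((contDiffAt_const.mul
      ((((h.sm_rho hx').div_const t).pow 2).mul (ContDiffAt.sum fun k _ =>
        (h.met.sm_nu hx' k).pow 2))).add (contDiffAt_const.mul (bnd_Fc (bnd_smN h hG hx')))))
  obtain ⟨C, hC, hb⟩ := CS.bdd t0 hf
  refine ⟨C, hC, fun φ hφ θ hθ => ?_⟩
  have hn' := norm_smul_sph t0 hθ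
  have hx : ρ < ‖t • θ‖ := by rwa [hn']
  have b1 := (le_abs_self _).trans (hb _ hn')
  have b2 := bnd_add ((rho g K (t • θ) / t) • ∑ k, nu g k (t • θ) • tg φ k θ)
    (bnd_N g K S (t • θ) *ᵥ φ θ)
  rw [← bnd_pn hn h hG ht hφ hθ, smul_dotProduct, dotProduct_smul, smul_eq_mul, smul_eq_mul,
    ← mul_assoc (rho g K (t • θ) / t), ← sq] at b2
  have b3 := mul_le_mul_of_nonneg_left (bnd_sum (fun k => nu g k (t • θ)) fun k => tg φ k θ)
    (sq_nonneg (rho g K (t • θ) / t))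
  have b4 := bnd_mv (bnd_N g K S (t • θ)) (φ θ)
  have p1 : 0 ≤ ∑ k, tg φ k θ ⬝ᵥ tg φ k θ := Finset.sum_nonneg fun _ _ => ipc_dot _
  have p2 := ipc_dot (φ θ)
  have p3 := bnd_F0 (bnd_N g K S (t • θ))
  have p4 : 0 ≤ (rho g K (t • θ) / t) ^ 2 * ∑ k, nu g k (t • θ) ^ 2 := by positivity
  rw [h1d]
  refine le_trans ?_ (mul_le_mul_of_nonneg_right b1 (add_nonneg p1 p2))
  rw [mul_assoc]
  refine mul_le_mul_of_nonneg_left ?_ (h.met.Jf_pos hx).le
  rw [← mul_assoc] at b3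
  nlinarith [mul_nonneg p4 p2, mul_nonneg p3 p1]

end

end Vale.Agent.P366
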