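import Vale.Agent.P366I.Base

/-! Clifford modules: existence, commutators, traces. -/

noncomputable section

open Matrix MeasureTheory Set Filter Topology Asymptotics
open scoped ContDiff

namespace Vale.Agent.P366

variable {n : ℕ} {ι : Type} [Fintype ι] [DecidableEq ι]

/-- Induction on `n`: on `ι × Fin 2` (Kronecker product) take `c a ⊗ diag(1,-1)` and
`1 ⊗ !![0,-1;1,0]`. -/
theorem exists_cl (n : ℕ) : ∃ (ι : Type) (_ : Fintype ι) (_ : DecidableEq ι) (_ : Nonempty ι)
    (c : Fin n → Ms ι), Cl c := by
  induction n with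
  | zero =>
    exact ⟨Unit, inferInstance, inferInstance, inferInstance, Fin.elim0,
      ⟨fun a => a.elim0, fun a => a.elim0⟩⟩
  | succ n ih =>
    obtain ⟨ι, _, _, _, c, hc⟩ := ih
    refine ⟨ι ⊕ ι, inferInstance, inferInstance, inferInstance,
      Fin.cons (fromBlocks 0 (-1) 1 0) fun a => fromBlocks (c a) 0 0 (-c a), ?_, ?_⟩
    · intro a
      refine Fin.cases ?_ (fun a => ?_) a
      · simp [fromBlocks_transpose, fromBlocks_neg]
      · simp [fromBlocks_transpose, fromBlocks_neg, hc.skew]
    · intro a b
      refine Fin.cases ?_ (fun a => ?_) a <;> refine Fin.cases ?_ (fun b => ?_) b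
      · simp only [Fin.cons_zero, fromBlocks_multiply, fromBlocks_add, if_true]
        rw [← fromBlocks_one, fromBlocks_smul]
        congr 1
        · simp only [mul_zero, mul_one, zero_add]
          module
        · simp
        · simp
        · simp only [mul_zero, one_mul, add_zero]
          module
      · rw [if_neg (Fin.succ_ne_zero b).symm]
        simp [fromBlocks_multiply, fromBlocks_add]
      · rw [if_neg (Fin.succ_ne_zero a)]
        simp [fromBlocks_multiply, fromBlocks_add]
      · simp only [Fin.cons_succ, fromBlocks_multiply, fromBlocks_add, Fin.succ_inj]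
        rw [← fromBlocks_one, fromBlocks_smul]
        congr 1
        · simpa using hc.ac a b
        · simp
        · simp
        · simpa using hc.ac a b

theorem cl0_w {w : Mn n} (hw : wᵀ = -w) (a b : Fin n) : w b a = -w a b :=
  congrFun (congrFun hw a) b

theorem cl0_diag {w : Mn n} (hw : wᵀ = -w) (a : Fin n) : w a a = 0 := by
  have := cl0_w hw a a
  linarith

theorem cl0_mul {c : Fin n → Ms ι} (v w : Fin n → ℝ) :
    cv c v * cv c w = ∑ a, ∑ b, (v a * w b) • (c a * c b) := by
  rw [cv, cv, Finset.sum_mul_sum]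
  simp only [smul_mul_assoc, mul_smul_comm, smul_smul, mul_comm]

theorem cl0_sub {c : Fin n → Ms ι} (w w' : Mn n) : sig c (w - w') = sig c w - sig c w' := by
  simp only [sig, Matrix.sub_apply, mul_sub, sub_smul, Finset.sum_sub_distrib]

theorem cl0_comm {c : Fin n → Ms ι} (hc : Cl c) (a b e : Fin n) :
    c a * c b * c e - c e * (c a * c b) =
      (if b = e then (-2 : ℝ) else 0) • c a - (if a = e then (-2 : ℝ) else 0) • c b := by
  have h : c a * c b * c e - c e * (c a * c b) =
      c a * (c b * c e + c e * c b) - (c a * c e + c e * c a) * c b := by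
    noncomm_ring
  rw [h, hc.ac, hc.ac, mul_smul_comm, smul_mul_assoc, mul_one, one_mul]

theorem cl0_sig_c {c : Fin n → Ms ι} (hc : Cl c) {w : Mn n} (hw : wᵀ = -w) (e : Fin n) :
    sig c w * c e - c e * sig c w = ∑ a, w a e • c a := by
  have e1 : sig c w * c e - c e * sig c w =
      ∑ a, ∑ b, (-(1 / 4) * w a b) • (c a * c b * c e - c e * (c a * c b)) := by
    simp only [sig, Finset.mul_sum, Finset.sum_mul, mul_smul_comm, smul_mul_assoc, smul_sub,
      Finset.sum_sub_distrib]
  rw [e1]
  simp only [cl0_comm hc, smul_sub, smul_smul, Finset.sum_sub_distrib, ite_smul, smul_ite,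
    smul_zero, zero_smul, Finset.sum_ite_eq', Finset.mem_univ, if_true]
  rw [Finset.sum_comm]
  simp only [Finset.sum_ite_eq', Finset.mem_univ, if_true]
  rw [← Finset.sum_sub_distrib]
  refine Finset.sum_congr rfl fun a _ => ?_
  rw [← sub_smul, cl0_w hw a e]
  congr 1
  ring

section
variable {c : Fin n → Ms ι} (hc : Cl c)
include hc

theorem cv_skew (v : Fin n → ℝ) : (cv c v)ᵀ = -cv c v := by
  simp only [cv, transpose_sum, transpose_smul, hc.skew, smul_neg, Finset.sum_neg_distrib]

theorem cv_ac (v w : Fin n → ℝ) :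
    cv c v * cv c w + cv c w * cv c v = (-2 * (v ⬝ᵥ w)) • (1 : Ms ι) := by
  have e1 : cv c v * cv c w = ∑ a, ∑ b, (v a * w b) • (c a * c b) := cl0_mul v w
  have e2 : cv c w * cv c v = ∑ a, ∑ b, (v a * w b) • (c b * c a) := by
    rw [cl0_mul, Finset.sum_comm]
    simp only [mul_comm]
  rw [e1, e2, ← Finset.sum_add_distrib]
  simp only [← Finset.sum_add_distrib, ← smul_add, hc.ac, smul_smul, ite_smul, smul_ite, smul_zero,
    zero_smul, Finset.sum_ite_eq, Finset.mem_univ, if_true, ← Finset.sum_smul]
  congr 1
  rw [dotProduct, Finset.mul_sum]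
  exact Finset.sum_congr rfl fun a _ => mul_comm _ _

theorem sig_skew {w : Mn n} (hw : wᵀ = -w) : (sig c w)ᵀ = -sig c w := by
  simp only [sig, transpose_sum, transpose_smul, transpose_mul, hc.skew, neg_mul_neg]
  rw [Finset.sum_comm, ← Finset.sum_neg_distrib]
  refine Finset.sum_congr rfl fun a _ => ?_
  rw [← Finset.sum_neg_distrib]
  refine Finset.sum_congr rfl fun b _ => ?_
  rw [cl0_w hw a b, ← neg_smul]
  congr 1
  ring

/-- `[c a c b, c e] = 2 δ_ae c b - 2 δ_be c a`. -/
theorem sig_comm_cv {w : Mn n} (hw : wᵀ = -w) (v : Fin n → ℝ) :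
    sig c w * cv c v - cv c v * sig c w = cv c (w *ᵥ v) := by
  have e : sig c w * cv c v - cv c v * sig c w =
      ∑ e, v e • (sig c w * c e - c e * sig c w) := by
    simp only [cv, Finset.mul_sum, Finset.sum_mul, mul_smul_comm, smul_mul_assoc, smul_sub,
      Finset.sum_sub_distrib]
  rw [e]
  simp only [cl0_sig_c hc hw, Finset.smul_sum, smul_smul]
  rw [Finset.sum_comm]
  refine Finset.sum_congr rfl fun a _ => ?_
  rw [← Finset.sum_smul]
  congr 1
  exact Finset.sum_congr rfl fun e _ => mul_comm _ _

/-- `[sig w, c a c b] = cv (w e_a) c b + c a cv (w e_b)`. -/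
theorem sig_lie {w w' : Mn n} (hw : wᵀ = -w) :
    sig c w * sig c w' - sig c w' * sig c w = sig c (w * w' - w' * w) := by
  have e : sig c w * sig c w' - sig c w' * sig c w =
      ∑ a, ∑ b, (-(1 / 4) * w' a b) • (sig c w * (c a * c b) - c a * c b * sig c w) := by
    generalize sig c w = S
    simp only [sig, Finset.mul_sum, Finset.sum_mul, mul_smul_comm, smul_mul_assoc, smul_sub,
      Finset.sum_sub_distrib]
  have e2 : ∀ a b, sig c w * (c a * c b) - c a * c b * sig c w =
      ∑ p, w p a • (c p * c b) + ∑ p, w p b • (c a * c p) := by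
    intro a b
    have : sig c w * (c a * c b) - c a * c b * sig c w =
        (sig c w * c a - c a * sig c w) * c b + c a * (sig c w * c b - c b * sig c w) := by
      noncomm_ring
    rw [this, cl0_sig_c hc hw, cl0_sig_c hc hw]
    simp only [Finset.mul_sum, Finset.sum_mul, mul_smul_comm, smul_mul_assoc]
  have e3 : ∑ a, ∑ b, ∑ p, (-(1 / 4) * w' a b * w p a) • (c p * c b) = sig c (w * w') := by
    unfold sig
    rw [Finset.sum_comm]
    conv_rhs => rw [Finset.sum_comm]
    refine Finset.sum_congr rfl fun b _ => ?_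
    rw [Finset.sum_comm]
    refine Finset.sum_congr rfl fun p _ => ?_
    rw [← Finset.sum_smul, Matrix.mul_apply, Finset.mul_sum]
    congr 1
    exact Finset.sum_congr rfl fun a _ => by ring
  have e4 : ∑ a, ∑ b, ∑ p, (-(1 / 4) * w' a b * w p b) • (c a * c p) = -sig c (w' * w) := by
    unfold sig
    rw [← Finset.sum_neg_distrib]
    refine Finset.sum_congr rfl fun a _ => ?_
    rw [Finset.sum_comm, ← Finset.sum_neg_distrib]
    refine Finset.sum_congr rfl fun p _ => ?_
    rw [← Finset.sum_smul, Matrix.mul_apply, Finset.mul_sum, ← neg_smul, ← Finset.sum_neg_distrib]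
    congr 1
    refine Finset.sum_congr rfl fun b _ => ?_
    rw [cl0_w hw b p]
    ring
  rw [e, cl0_sub, sub_eq_add_neg (sig c (w * w')), ← e3, ← e4]
  simp only [e2, smul_add, Finset.smul_sum, smul_smul, Finset.sum_add_distrib]

omit hc in
theorem sig_add (w w' : Mn n) : sig c (w + w') = sig c w + sig c w' := by
  simp only [sig, Matrix.add_apply, mul_add, add_smul, Finset.sum_add_distrib]

omit hc in
theorem sig_sub (w w' : Mn n) : sig c (w - w') = sig c w - sig c w' := by
  exact cl0_sub w w'

theorem trace_cc (a b : Fin n) :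
    trace (c a * c b) = -(if a = b then (Fintype.card ι : ℝ) else 0) := by
  have h := congrArg trace (hc.ac a b)
  rw [trace_add, trace_mul_comm (c b), trace_smul, trace_one, smul_eq_mul] at h
  split_ifs at h ⊢ <;> linarith

/-- Move `c j` to the right through the three other factors and use cyclicity. -/
theorem trace_c4 (j e a b : Fin n) : trace (c j * c e * c a * c b) = (Fintype.card ι : ℝ) *
    ((if j = e then 1 else 0) * (if a = b then 1 else 0)
      - (if j = a then 1 else 0) * (if e = b then 1 else 0)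
      + (if j = b then 1 else 0) * (if e = a then 1 else 0)) := by
  have h1 : c j * c e * c a * c b + c e * c a * c b * c j =
      (c j * c e + c e * c j) * (c a * c b) - c e * (c j * c a + c a * c j) * c b
        + c e * c a * (c j * c b + c b * c j) := by
    noncomm_ring
  rw [hc.ac, hc.ac, hc.ac] at h1
  have h2 := congrArg trace h1
  have h3 : trace (c e * c a * c b * c j) = trace (c j * c e * c a * c b) := by
    rw [trace_mul_comm (c e * c a * c b)]
    simp only [Matrix.mul_assoc]
  simp only [trace_add, trace_sub, smul_mul_assoc, mul_smul_comm, one_mul, mul_one, trace_smul,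
    smul_eq_mul, trace_cc hc, h3] at h2
  split_ifs at h2 ⊢ <;> linarith

theorem trace_sig {w : Mn n} (hw : wᵀ = -w) : trace (sig c w) = 0 := by
  simp only [sig, trace_sum, trace_smul, trace_cc hc, smul_eq_mul, mul_neg, mul_ite, mul_zero,
    Finset.sum_neg_distrib, Finset.sum_ite_eq, Finset.mem_univ, if_true, cl0_diag hw, zero_mul,
    Finset.sum_const_zero, neg_zero, ite_self]

theorem trace_cv_c_sig {w : Mn n} (hw : wᵀ = -w) (v : Fin n → ℝ) (e : Fin n) :
    trace (cv c v * c e * sig c w) = -(1 / 2) * (Fintype.card ι : ℝ) * ∑ j, v j * w e j := by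
  have e1 : trace (cv c v * c e * sig c w) =
      ∑ j, v j * ∑ a, ∑ b, (-(1 / 4) * w a b) * trace (c j * c e * c a * c b) := by
    simp only [cv, sig, Finset.mul_sum, Finset.sum_mul, mul_smul_comm, smul_mul_assoc, trace_sum,
      trace_smul, smul_eq_mul, Matrix.mul_assoc]
    conv_rhs => rw [Finset.sum_comm]
    refine Finset.sum_congr rfl fun a _ => ?_
    conv_rhs => rw [Finset.sum_comm]
    refine Finset.sum_congr rfl fun b _ => Finset.sum_congr rfl fun j _ => ?_
    ring
  rw [e1, Finset.mul_sum]
  refine Finset.sum_congr rfl fun j _ => ?_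
  have e2 : ∑ a, ∑ b, (-(1 / 4) * w a b) * trace (c j * c e * c a * c b) =
      -(1 / 2) * (Fintype.card ι : ℝ) * w e j := by
    simp only [trace_c4 hc, mul_add, mul_sub, mul_ite, mul_one, mul_zero,
      zero_mul, Finset.sum_add_distrib, Finset.sum_sub_distrib, Finset.sum_ite_eq,
      Finset.mem_univ, if_true, cl0_diag hw, ite_self, Finset.sum_const_zero,
      Finset.sum_ite_irrel]
    rw [cl0_w hw e j]
    ring
  rw [e2]
  ring

end

end Vale.Agent.P366
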