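import Vale.Agent.P366I.Cl0

/-! The Clifford contraction of a curvature tensor. -/

noncomputable section

open Matrix MeasureTheory Set Filter Topology Asymptotics
open scoped ContDiff

namespace Vale.Agent.P366

variable {n : ℕ} {ι : Type} [Fintype ι] [DecidableEq ι]

theorem cl1_move {c : Fin n → Ms ι} (hc : Cl c) (b e f : Fin n) :
    c b * c e * c f = c e * c f * c b + (if b = f then (2 : ℝ) else 0) • c e -
      (if b = e then (2 : ℝ) else 0) • c f := by
  have e1 : c b * c e = (if b = e then (-2 : ℝ) else 0) • (1 : Ms ι) - c e * c b :=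
    eq_sub_of_add_eq (hc.ac b e)
  have e2 : c b * c f = (if b = f then (-2 : ℝ) else 0) • (1 : Ms ι) - c f * c b :=
    eq_sub_of_add_eq (hc.ac b f)
  rw [e1, sub_mul, mul_assoc (c e), e2, mul_sub, ← mul_assoc, smul_mul_assoc, mul_smul_comm,
    one_mul, mul_one]
  split_ifs <;> module

theorem cl1_cyc {M : Type} [AddCommMonoid M] (F : Fin n → Fin n → Fin n → M) :
    ∑ e, ∑ f, ∑ b, F e f b = ∑ e, ∑ f, ∑ b, F f b e :=
  ((Finset.sum_congr rfl fun _ _ => Finset.sum_comm).trans Finset.sum_comm)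

theorem cl1_three {c : Fin n → Ms ι} (hc : Cl c) {r : Fin n → Fin n → Fin n → ℝ}
    (h2 : ∀ e f b, r e f b = -r f e b) (h3 : ∀ e f b, r e f b + r f b e + r b e f = 0) :
    ∑ e, ∑ f, ∑ b, r e f b • (c e * c f * c b) = (2 : ℝ) • ∑ f, (∑ e, r e f e) • c f := by
  have z : ∀ e b, r e e b = 0 := fun e b => by linarith [h2 e e b]
  have a1 : ∑ e, ∑ f, ∑ b, r f b e • (c e * c f * c b) =
      ∑ e, ∑ f, ∑ b, r e f b • (c b * c e * c f) :=
    (cl1_cyc fun e f b => r e f b • (c b * c e * c f)).symm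
  have a2 : ∑ e, ∑ f, ∑ b, r b e f • (c e * c f * c b) =
      ∑ e, ∑ f, ∑ b, r e f b • (c f * c b * c e) :=
    cl1_cyc fun e f b => r b e f • (c e * c f * c b)
  have a0 : ∑ e, ∑ f, ∑ b, r e f b • (c e * c f * c b) +
      ∑ e, ∑ f, ∑ b, r f b e • (c e * c f * c b) +
      ∑ e, ∑ f, ∑ b, r b e f • (c e * c f * c b) = 0 := by
    simp only [← Finset.sum_add_distrib, ← add_smul, h3, zero_smul, Finset.sum_const_zero]
  have m2 : ∀ e f b, c f * c b * c e = c e * c f * c b - (if b = e then (2 : ℝ) else 0) • c f +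
      (if e = f then (2 : ℝ) else 0) • c b := fun e f b => by
    rw [cl1_move hc e f b]
    simp only [eq_comm (a := b) (b := e)]
    abel
  have s1 : ∑ e, ∑ f, ∑ b, r e f b • ((if b = e then (2 : ℝ) else 0) • c f) =
      (2 : ℝ) • ∑ f, (∑ e, r e f e) • c f := by
    rw [Finset.sum_comm, Finset.smul_sum]
    refine Finset.sum_congr rfl fun f _ => ?_
    rw [Finset.sum_smul, Finset.smul_sum]
    refine Finset.sum_congr rfl fun e _ => ?_
    rw [Finset.sum_eq_single e (fun b _ hb => by simp [hb]) (by simp), if_pos rfl, smul_comm]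
  have s2 : ∑ e, ∑ f, ∑ b, r e f b • ((if b = f then (2 : ℝ) else 0) • c e) =
      -((2 : ℝ) • ∑ f, (∑ e, r e f e) • c f) := by
    rw [← s1, Finset.sum_comm]
    simp only [← Finset.sum_neg_distrib, ← neg_smul]
    exact Finset.sum_congr rfl fun e _ => Finset.sum_congr rfl fun f _ =>
      Finset.sum_congr rfl fun b _ => by rw [← h2]
  have s3 : ∑ e, ∑ f, ∑ b, r e f b • ((if e = f then (2 : ℝ) else 0) • c b) = 0 :=
    Finset.sum_eq_zero fun e _ => Finset.sum_eq_zero fun f _ => Finset.sum_eq_zero fun b _ => by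
      by_cases h : e = f
      · rw [h, z, zero_smul]
      · simp [h]
  have b1 : ∑ e, ∑ f, ∑ b, r e f b • (c b * c e * c f) =
      ∑ e, ∑ f, ∑ b, r e f b • (c e * c f * c b) +
      ∑ e, ∑ f, ∑ b, r e f b • ((if b = f then (2 : ℝ) else 0) • c e) -
      ∑ e, ∑ f, ∑ b, r e f b • ((if b = e then (2 : ℝ) else 0) • c f) := by
    simp only [← Finset.sum_add_distrib, ← Finset.sum_sub_distrib, ← smul_add, ← smul_sub]
    exact Finset.sum_congr rfl fun e _ => Finset.sum_congr rfl fun f _ =>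
      Finset.sum_congr rfl fun b _ => by rw [cl1_move hc b e f]
  have b2 : ∑ e, ∑ f, ∑ b, r e f b • (c f * c b * c e) =
      ∑ e, ∑ f, ∑ b, r e f b • (c e * c f * c b) -
      ∑ e, ∑ f, ∑ b, r e f b • ((if b = e then (2 : ℝ) else 0) • c f) +
      ∑ e, ∑ f, ∑ b, r e f b • ((if e = f then (2 : ℝ) else 0) • c b) := by
    simp only [← Finset.sum_add_distrib, ← Finset.sum_sub_distrib, ← smul_add, ← smul_sub]
    exact Finset.sum_congr rfl fun e _ => Finset.sum_congr rfl fun f _ =>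
      Finset.sum_congr rfl fun b _ => by rw [m2 e f b]
  rw [a1, a2, b1, b2, s1, s2, s3] at a0
  generalize ∑ e, ∑ f, ∑ b, r e f b • (c e * c f * c b) = T at a0 ⊢
  generalize (2 : ℝ) • ∑ f, (∑ e, r e f e) • c f = U at a0 ⊢
  linear_combination (norm := module) (1 / 3 : ℝ) • a0

theorem cl1_sym {c : Fin n → Ms ι} (hc : Cl c) {w : Fin n → Fin n → ℝ} (hw : ∀ a f, w a f = w f a) :
    ∑ a, ∑ f, w a f • (c f * c a) = -(∑ a, w a a) • (1 : Ms ι) := by
  have h1 : ∑ a, ∑ f, w a f • (c f * c a) = ∑ a, ∑ f, w a f • (c a * c f) := by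
    rw [Finset.sum_comm]
    exact Finset.sum_congr rfl fun a _ => Finset.sum_congr rfl fun f _ => by rw [hw]
  have h2 : ∑ a, ∑ f, w a f • (c f * c a) + ∑ a, ∑ f, w a f • (c a * c f) =
      (-2 : ℝ) • (∑ a, w a a) • (1 : Ms ι) := by
    simp only [← Finset.sum_add_distrib, ← smul_add, hc.ac]
    rw [Finset.sum_smul, Finset.smul_sum]
    refine Finset.sum_congr rfl fun a _ => ?_
    rw [Finset.sum_eq_single a (fun b _ hb => by simp [hb]) (by simp), if_pos rfl, smul_comm]
  rw [← h1] at h2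
  rw [neg_smul]
  generalize ∑ a, ∑ f, w a f • (c f * c a) = T at h2 ⊢
  generalize (∑ a, w a a) • (1 : Ms ι) = U at h2 ⊢
  linear_combination (norm := module) (1 / 2 : ℝ) • h2

/-- `Rm e f a b = R^a_{b e f}`. First `∑_{e,f,b} R^a_{bef} c e c f c b`: put
`T = ∑ R_{bef} c_e c_f c_b`; by the Bianchi identity the sum of the three cyclic reorderings vanishes,
and each reordering differs from `T` by contractions, so `T` is a multiple of `∑ Ric_{af} c f`.
The pair symmetry `Rm e f a b = Rm a b e f` follows from the three hypotheses. -/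
theorem bianchi_contr {c : Fin n → Ms ι} (hc : Cl c) {Rm : Fin n → Fin n → Mn n}
    (h1 : ∀ e f, (Rm e f)ᵀ = -Rm e f) (h2 : ∀ e f, Rm e f = -Rm f e)
    (h3 : ∀ e f a b, Rm e f a b + Rm f b a e + Rm b e a f = 0) :
    ∑ e, ∑ f, c e * c f * sig c (Rm e f) = ((∑ a, ∑ b, Rm a b a b) / 2) • (1 : Ms ι) := by
  have k1 : ∀ e f a b, Rm e f a b = -Rm e f b a := fun e f a b => by
    simpa using congrFun (congrFun (h1 e f) b) a
  have k2 : ∀ e f a b, Rm e f a b = -Rm f e a b := fun e f a b => by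
    rw [h2 e f]; rfl
  have sy : ∀ a f, ∑ e, Rm e f a e = ∑ e, Rm e a f e := fun a f =>
    Finset.sum_congr rfl fun e _ => by
      linarith [h3 e f e a, k1 f a e e, k2 a e e f, k1 e f a e, k1 e a f e]
  have t : ∀ a, ∑ e, ∑ f, ∑ b, Rm e f a b • (c e * c f * c b) =
      (2 : ℝ) • ∑ f, (∑ e, Rm e f a e) • c f := fun a =>
    cl1_three hc (r := fun e f b => Rm e f a b) (fun e f b => k2 e f a b) fun e f b => h3 e f a b
  have e1 : ∑ e, ∑ f, c e * c f * sig c (Rm e f) =
      (1 / 4 : ℝ) • ∑ a, (∑ e, ∑ f, ∑ b, Rm e f a b • (c e * c f * c b)) * c a := by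
    simp only [sig, Finset.mul_sum, Finset.sum_mul, Finset.smul_sum]
    rw [cl1_cyc fun a e f => ∑ b, (1 / 4 : ℝ) • (Rm e f a b • (c e * c f * c b) * c a),
      cl1_cyc fun f a e => ∑ b, (1 / 4 : ℝ) • (Rm e f a b • (c e * c f * c b) * c a)]
    refine Finset.sum_congr rfl fun e _ => Finset.sum_congr rfl fun f _ => ?_
    rw [Finset.sum_comm]
    refine Finset.sum_congr rfl fun a _ => Finset.sum_congr rfl fun b _ => ?_
    rw [mul_smul_comm, smul_mul_assoc, smul_smul, k1 e f b a, mul_assoc (c e * c f)]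
    congr 1
    ring
  have e2 : ∑ a, ((2 : ℝ) • ∑ f, (∑ e, Rm e f a e) • c f) * c a =
      (2 : ℝ) • ∑ a, ∑ f, (∑ e, Rm e f a e) • (c f * c a) := by
    simp only [Finset.smul_sum, Finset.sum_mul, smul_mul_assoc]
  have e3 : ∑ a, ∑ e, Rm e a a e = -∑ a, ∑ b, Rm a b a b := by
    rw [Finset.sum_comm]
    simp only [← Finset.sum_neg_distrib]
    exact Finset.sum_congr rfl fun a _ => Finset.sum_congr rfl fun b _ => k1 a b b a
  rw [e1]
  simp only [t]
  rw [e2, cl1_sym hc (w := fun a f => ∑ e, Rm e f a e) sy, e3, smul_smul, smul_smul]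
  congr 1
  ring

end Vale.Agent.P366
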