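import Vale.Agent.P366I.Sm1
import Vale.Agent.P366I.Nor
import Vale.Agent.P366I.PA3

/-! The constraints along the foliation. -/

noncomputable section

open Matrix MeasureTheory Set Filter Topology Asymptotics
open scoped ContDiff

namespace Vale.Agent.P366

variable {n : ℕ} {ι : Type} [Fintype ι] [DecidableEq ι]

theorem cst_r3 (f : Fin n → Fin n → Fin n → ℝ) :
    ∑ a, ∑ b, ∑ c, f a b c = ∑ c, ∑ a, ∑ b, f a b c :=
  (Finset.sum_congr rfl fun _ _ => Finset.sum_comm).trans Finset.sum_comm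

theorem cst_alg {gi : Mn n} (hgi : gi.IsSymm) (Γ S : Fin n → Fin n → Fin n → ℝ)
    (B N : Fin n → Fin n → ℝ) (ν : Fin n → ℝ) :
    ∑ i, ∑ j, ∑ l, (((-∑ a, (Γ i i a * gi a j + Γ j i a * gi i a)) * B j l + gi i j * S i j l) * ν l
        + gi i j * B j l * (N i l - ∑ a, Γ l i a * ν a))
      + ∑ i, ∑ k, Γ i i k * ∑ j, ∑ l, gi k j * B j l * ν l
    = ∑ j, (∑ i, ∑ k, gi i k * (S k i j - ∑ l, (Γ l k i * B l j + Γ l k j * B i l))) * ν j
      + ∑ i, ∑ j, ∑ l, gi i j * B j l * N i l := by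
  have e1 : ∑ i, ∑ j, ∑ l, ∑ a, Γ i i a * gi a j * B j l * ν l =
      ∑ i, ∑ k, ∑ j, ∑ l, Γ i i k * (gi k j * B j l * ν l) :=
    Finset.sum_congr rfl fun i _ => (cst_r3 _).trans (by simp only [mul_assoc])
  have e2 : ∑ i, ∑ j, ∑ l, ∑ a, Γ j i a * gi i a * B j l * ν l =
      ∑ j, ∑ i, ∑ k, ∑ l, gi i k * (Γ l k i * B l j) * ν j :=
    (cst_r3 _).trans (Finset.sum_congr rfl fun l _ => (cst_r3 _).trans
      (Finset.sum_congr rfl fun a _ => Finset.sum_congr rfl fun i _ =>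
        Finset.sum_congr rfl fun j _ => by rw [hgi.apply a i]; ring))
  have e3 : ∑ i, ∑ j, ∑ l, gi i j * S i j l * ν l = ∑ j, ∑ i, ∑ k, gi i k * S k i j * ν j :=
    (scal_rev _).trans (Finset.sum_congr rfl fun l _ => Finset.sum_congr rfl fun j _ =>
      Finset.sum_congr rfl fun i _ => by rw [hgi.apply j i])
  have e4 : ∑ i, ∑ j, ∑ l, ∑ a, gi i j * B j l * (Γ l i a * ν a) =
      ∑ j, ∑ i, ∑ k, ∑ l, gi i k * (Γ l k j * B i l) * ν j :=
    Finset.sum_comm.trans ((Finset.sum_congr rfl fun j _ => cst_r3 _).trans (Finset.sum_comm.trans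
      (Finset.sum_congr rfl fun a _ => Finset.sum_congr rfl fun j _ =>
        Finset.sum_congr rfl fun i _ => Finset.sum_congr rfl fun l _ => by
          rw [hgi.apply j i]; ring)))
  simp only [neg_mul, add_mul, sub_mul, mul_add, mul_sub, Finset.sum_mul, Finset.mul_sum,
    Finset.sum_add_distrib, Finset.sum_sub_distrib, Finset.sum_neg_distrib, neg_add]
  rw [e1, e2, e3, e4]
  ring

theorem cst_sym {M : Mn n} (hM : M.IsSymm) (u v : Fin n → ℝ) : u ⬝ᵥ M *ᵥ v = v ⬝ᵥ M *ᵥ u := by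
  rw [dotProduct_mulVec, ← mulVec_transpose, hM.eq, dotProduct_comm]

theorem cst_q (M : Mn n) (ν : Fin n → ℝ) : ∑ i, ∑ j, M i j * ν i * ν j = ν ⬝ᵥ M *ᵥ ν := by
  simp only [dotProduct, mulVec, Finset.mul_sum]
  exact Finset.sum_congr rfl fun i _ => Finset.sum_congr rfl fun j _ => by ring

theorem cst_Y (gi M : Mn n) (ν : Fin n → ℝ) (i : Fin n) :
    ∑ j, ∑ l, gi i j * M j l * ν l = (gi *ᵥ (M *ᵥ ν)) i := by
  simp only [dotProduct, mulVec, Finset.mul_sum, mul_assoc]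

theorem cst_ip {gi : Mn n} (hgi : gi.IsSymm) (A B : Mn n) (νl ac : Fin n → ℝ) :
    ∑ i, ∑ j, ∑ l, gi i j * B j l * ∑ m, gi l m * (A i m + νl i * ac m) =
      ipA gi A B + νl ⬝ᵥ gi *ᵥ (B *ᵥ (gi *ᵥ ac)) := by
  simp only [ipA, dotProduct, mulVec, Finset.mul_sum, mul_add, Finset.sum_add_distrib]
  congr 1
  · exact Finset.sum_congr rfl fun i _ => Finset.sum_congr rfl fun j _ => Finset.sum_comm.trans
      (Finset.sum_congr rfl fun m _ => Finset.sum_congr rfl fun l _ => by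
        rw [hgi.apply m l]; ring)
  · exact Finset.sum_congr rfl fun i _ => Finset.sum_congr rfl fun j _ =>
      Finset.sum_congr rfl fun l _ => Finset.sum_congr rfl fun m _ => by ring

theorem cst_ip2 (gi A B : Mn n) : ipA gi A B = trA gi (A * gi * Bᵀ) := by
  simp only [ipA, trA, mul_apply, transpose_apply, Finset.sum_mul, Finset.mul_sum]
  exact Finset.sum_congr rfl fun k _ => Finset.sum_congr rfl fun l _ => Finset.sum_comm.trans
    (Finset.sum_congr rfl fun m _ => Finset.sum_congr rfl fun j _ => by ring)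

theorem cst_dn_congr {g : Fld n} {f f' : Euc n → ℝ} {x : Euc n} (h : f =ᶠ[𝓝 x] f') :
    dn g f x = dn g f' x := by
  simp only [dn, pd_congr h]

theorem cst_dn_mul {g : Fld n} {f f' : Euc n → ℝ} {x : Euc n} (h : ContDiffAt ℝ ∞ f x)
    (h' : ContDiffAt ℝ ∞ f' x) :
    dn g (fun y => f y * f' y) x = dn g f x * f' x + f x * dn g f' x := by
  simp only [dn, pd_mul (h.differentiableAt (by simp)) (h'.differentiableAt (by simp)),
    Finset.sum_mul, Finset.mul_sum, ← Finset.sum_add_distrib]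
  exact Finset.sum_congr rfl fun k _ => by ring

theorem cst_dn_sub {g : Fld n} {f f' : Euc n → ℝ} {x : Euc n} (h : ContDiffAt ℝ ∞ f x)
    (h' : ContDiffAt ℝ ∞ f' x) : dn g (fun y => f y - f' y) x = dn g f x - dn g f' x := by
  simp only [dn, pd_sub (h.differentiableAt (by simp)) (h'.differentiableAt (by simp)), mul_sub,
    Finset.sum_sub_distrib]

theorem cst_gnu {ρ : ℝ} {g : Fld n} (h : Met ρ g) {x : Euc n} (hx : ρ < ‖x‖) :
    g x *ᵥ nuV g x = nlV g x := by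
  rw [nuV_eq h hx, mulVec_mulVec, mul_nonsing_inv _ (h.posDef x hx).det_pos.ne'.isUnit, one_mulVec]

/-- For any symmetric tensor `B` (checked numerically): expand
`div_g (B ν)^♯ = (div B)(ν) + ⟨B, ∇ν⟩` with `∇ν = sff + nl ⊗ acc`, split
`(B ν)^♯ = B(ν,ν) ν + X`, and use `acc_eq`. -/
theorem div_tensor {ρ : ℝ} {g B : Fld n} (h : Met ρ g) {x : Euc n} (hx : ρ < ‖x‖)
    (hB : ∀ i j, ContDiffAt ℝ ∞ (fun y => B y i j) x) (hs : ∀ᶠ y in 𝓝 x, (B y).IsSymm) :
    ∑ j, curA (g x)⁻¹ (dg g x) (B x) (dg B x) j * nu g j x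
      = dn g (fun y => ∑ i, ∑ j, B y i j * nu g i y * nu g j y) x
        + meanH g x * (∑ i, ∑ j, B x i j * nu g i x * nu g j x) - ipA (g x)⁻¹ (sff g x) (B x)
        + divg g (fun i y => lapse g y * Xv g B i y) x / lapse g x := by
  have df : ∀ {f : Euc n → ℝ}, ContDiffAt ℝ ∞ f x → DifferentiableAt ℝ f x :=
    fun hf => hf.differentiableAt (by simp)
  have hgi := (h.symm hx).inv
  have hb := hs.self_of_nhds
  have hu := (h.lapse_pos hx).ne'
  have sY : ∀ i j l, ContDiffAt ℝ ∞ (fun y => (g y)⁻¹ i j * B y j l * nu g l y) x :=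
    fun i j l => ((h.sm_inv hx i j).mul (hB j l)).mul (h.sm_nu hx l)
  have sY' : ∀ i, ContDiffAt ℝ ∞ (fun y => ∑ j, ∑ l, (g y)⁻¹ i j * B y j l * nu g l y) x :=
    fun i => ContDiffAt.sum fun j _ => ContDiffAt.sum fun l _ => sY i j l
  have sf : ContDiffAt ℝ ∞ (fun y => ∑ i, ∑ j, B y i j * nu g i y * nu g j y) x :=
    ContDiffAt.sum fun i _ => ContDiffAt.sum fun j _ =>
      ((hB i j).mul (h.sm_nu hx i)).mul (h.sm_nu hx j)
  have h1 : divg g (fun i y => ∑ j, ∑ l, (g y)⁻¹ i j * B y j l * nu g l y) x =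
      ∑ j, curA (g x)⁻¹ (dg g x) (B x) (dg B x) j * nu g j x + ∑ i, ∑ j, ∑ l,
        (g x)⁻¹ i j * B x j l * ∑ m, (g x)⁻¹ l m * (sff g x i m + nlV g x i * acc g x m) := by
    refine Eq.trans ?_ (cst_alg hgi (fun k i j => chr g k i j x) (dg B x) (B x) _
      fun i => nu g i x)
    refine congrArg (· + _) (Finset.sum_congr rfl fun i _ => ?_)
    rw [pd_sum _ fun j _ => df (ContDiffAt.sum fun l _ => sY i j l)]
    refine Finset.sum_congr rfl fun j _ => ?_
    rw [pd_sum _ fun l _ => df (sY i j l)]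
    refine Finset.sum_congr rfl fun l _ => ?_
    rw [pd_mul (df ((h.sm_inv hx i j).mul (hB j l))) (df (h.sm_nu hx l)),
      pd_mul (df (h.sm_inv hx i j)) (df (hB j l)), h.pd_inv hx, eq_sub_of_add_eq (cov_nu h hx i l)]
    simp only [sff, nlV, of_apply, sub_add_cancel, dg]
  have h2 : divg g (Xv g B) x = divg g (fun i y => ∑ j, ∑ l, (g y)⁻¹ i j * B y j l * nu g l y) x -
      divg g (fun i y => (∑ i, ∑ j, B y i j * nu g i y * nu g j y) * nu g i y) x := by
    have e : ∀ i, pd (Xv g B i) i x = _ := fun i =>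
      pd_sub (df (sY' i)) (df (sf.mul (h.sm_nu hx i)))
    simp only [divg, e, Xv, mul_sub, Finset.sum_sub_distrib]
    ring
  have h3 := divg_mul h hx (V := Xv g B) (df (h.sm_lapse hx)) fun i =>
    df ((sY' i).sub (sf.mul (h.sm_nu hx i)))
  have hX : ∀ w : Fin n → ℝ, ∑ i, w i * Xv g B i x = w ⬝ᵥ (g x)⁻¹ *ᵥ (B x *ᵥ nuV g x) -
      nuV g x ⬝ᵥ B x *ᵥ nuV g x * (w ⬝ᵥ nuV g x) := fun w => by
    simp only [Xv, cst_Y, cst_q (B x) fun i => nu g i x, mul_sub, Finset.sum_sub_distrib]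
    congr 1
    rw [dotProduct.eq_1 w, Finset.mul_sum]
    exact Finset.sum_congr rfl fun i _ => mul_left_comm _ _ _
  have h4 := hX (nlV g x)
  rw [cst_sym hgi, ← nuV_eq h hx, dotProduct_comm (nlV g x), nu_unit h hx,
    dotProduct_comm (B x *ᵥ _), mul_one, sub_self] at h4
  have h5 := hX (acc g x)
  rw [acc_nu h hx, mul_zero, sub_zero, cst_sym hgi, dotProduct_comm, cst_sym hb] at h5
  have h6 : ∑ i, acc g x i * Xv g B i x = (dn g (lapse g) x * ∑ i, nlV g x i * Xv g B i x -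
      ∑ i, pd (lapse g) i x * Xv g B i x) / lapse g x := by
    rw [Finset.mul_sum, ← Finset.sum_sub_distrib, Finset.sum_div]
    exact Finset.sum_congr rfl fun i _ => by rw [acc_eq h hx, nlV]; ring
  rw [cst_ip hgi, cst_sym hgi, ← nuV_eq h hx, dotProduct_comm, ← h5, h6, h4] at h1
  rw [divg_fnu h hx (df sf), h1] at h2
  rw [h3, h2]
  field_simp
  ring

section
variable {ρ : ℝ} {g K : Fld n} {η κ : ℝ → ℝ} (h : Sh ρ g K η κ) {x : Euc n} (hx : ρ < ‖x‖)
include h hx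

/-- `div_tensor` for `mom g K`: its normal component is `-trS`, its `Xv` is that of `K`. -/
theorem Sh.dn_trS : dn g (trS g K) x = -(∑ j, cur g K j x * nu g j x)
    - ipA (g x)⁻¹ (sff g x) (K x) + meanH g x * (∑ i, ∑ j, K x i j * nu g i x * nu g j x) := by
  have hm := h.met
  have ht := hm.sm_trS hx (h.smK x hx)
  have h1 := div_tensor (B := mom g K) hm hx
    (fun i j => (h.smK x hx i j).sub (ht.1.mul (hm.sm x hx i j)))
    ((ev_out hx).mono fun y hy => (h.symK y hy).sub ((hm.symm hy).smul _))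
  have e1 : ∀ y : Euc n, ρ < ‖y‖ →
      ∑ i, ∑ j, mom g K y i j * nu g i y * nu g j y = 0 - trS g K y := fun y hy => by
    rw [trS, cst_q _ fun i => nu g i y, cst_q _ fun i => nu g i y, mom, sub_mulVec, smul_mulVec,
      dotProduct_sub, dotProduct_smul]
    erw [cst_gnu hm hy, nu_unit hm hy]
    simp
  have e2 : ∀ y : Euc n, ρ < ‖y‖ → ∀ i, Xv g (mom g K) i y = Xv g K i y := fun y hy i => by
    rw [Xv, Xv, e1 y hy, trS, cst_Y _ _ fun i => nu g i y, cst_Y _ _ fun i => nu g i y, mom,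
      sub_mulVec, smul_mulVec, mulVec_sub, mulVec_smul]
    erw [cst_gnu hm hy, ← nuV_eq hm hy]
    simp only [Pi.sub_apply, Pi.smul_apply, smul_eq_mul, nuV]
    ring
  have e3 : divg g (fun i y => lapse g y * Xv g (mom g K) i y) x =
      divg g (fun i y => lapse g y * Xv g K i y) x := by
    have e : ∀ i, pd (fun y => lapse g y * Xv g (mom g K) i y) i x = _ := fun i =>
      pd_congr ((ev_out hx).mono fun y hy => congrArg (lapse g y * ·) (e2 y hy i))
    simp only [divg, e, e2 x hx]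
  have e4 : ipA (g x)⁻¹ (sff g x) (mom g K x) =
      ipA (g x)⁻¹ (sff g x) (K x) - trK g K x * meanH g x := by
    rw [cst_ip2, cst_ip2, mom, transpose_sub, transpose_smul, (hm.symm hx).eq, Matrix.mul_sub,
      Matrix.mul_smul, nonsing_inv_mul_cancel_right _ _ (hm.posDef x hx).det_pos.ne'.isUnit,
      ← trA_sff hm hx]
    simp only [trA, Matrix.sub_apply, Matrix.smul_apply, smul_eq_mul, mul_sub, Finset.sum_sub_distrib,
      Finset.mul_sum, mul_left_comm (trK g K x)]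
  rw [cst_dn_congr ((ev_out hx).mono e1), cst_dn_sub contDiffAt_const ht.2.1, e1 x hx, e3,
    h.hX x hx, e4] at h1
  simp only [cur_eq, h1, trS]
  simp only [dn, pd_const, mul_zero, Finset.sum_const_zero]
  ring

/-- `cs_nu`, the energy condition and `con_alg` (its proof does not use the Clifford data; take any
`Pt` from `pt_of`). Here `trS = (κ/η) meanH`. -/
theorem Sh.con {γ S : Euc n → Fin n → Ms ι} (hG : Geo ρ g γ S) :
    -(1 / 2) * trS g K x ^ 2 - (1 / 2) * (κ ‖x‖ / η ‖x‖) ^ 2 * sq2 g x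
      ≤ scal g x / 2 + κ ‖x‖ / η ‖x‖ * dn g (trS g K) x := by
  have hu := h.met.lapse_pos hx
  have hη : 0 < η ‖x‖ := (abs_nonneg _).trans_lt (h.un _ hx)
  obtain ⟨θ, hθ⟩ : ∃ θ, θ = κ ‖x‖ / η ‖x‖ := ⟨_, rfl⟩
  have h1 : |θ| ≤ 1 := by
    rw [hθ, abs_div, abs_of_pos hη, div_le_one hη]
    exact (h.un _ hx).le
  have h2 : θ * meanH g x = trS g K x := by
    rw [hθ, div_mul_eq_mul_div, div_eq_iff hη.ne', ← h.hη x hx, ← h.hκ x hx]
    ring
  have h3 : θ * ∑ j, cur g K j x * nu g j x ≤ mu g K x := by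
    refine (le_abs_self _).trans ?_
    rw [abs_mul]
    exact (mul_le_of_le_one_left (abs_nonneg _) h1).trans
      ((cs_nu (h.met.posDef x hx).inv (fun j => cur g K j x) fun j => x j).trans (h.dec x hx))
  have h4 := (pt_of hG hx).con_alg (h.symK x hx) θ
  have h5 : normSqK g K x = ipA (g x)⁻¹ (K x) (K x) :=
    Finset.sum_congr rfl fun i _ => Finset.sum_comm
  have h6 : trK g K x = trS g K x + nuV g x ⬝ᵥ K x *ᵥ nuV g x := by
    rw [trS, cst_q _ fun i => nu g i x]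
    exact (sub_add_cancel _ _).symm
  rw [mu, h5, h6] at h3
  rw [← hθ, h.dn_trS hx, cst_q _ fun i => nu g i x, sq2, mul_add, ← mul_assoc θ, h2]
  change _ ≤ _ + (_ + _ * (nuV g x ⬝ᵥ K x *ᵥ nuV g x))
  linarith

theorem Sh.dn_wf : wf g K x * dn g (wf g K) x
    = meanH g x * dn g (meanH g) x - trS g K x * dn g (trS g K) x := by
  have h1 := cst_dn_congr (g := g) (f := fun y => wf g K y * wf g K y)
    (f' := fun y => meanH g y * meanH g y - trS g K y * trS g K y)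
    ((ev_out hx).mono fun y hy => by simpa only [sq] using h.wf_sq hy)
  have hH := h.met.sm_meanH hx
  have hT := (h.met.sm_trS hx (h.smK x hx)).2.1
  rw [cst_dn_mul (h.sm_wf hx) (h.sm_wf hx), cst_dn_sub (hH.mul hH) (hT.mul hT), cst_dn_mul hH hH,
    cst_dn_mul hT hT] at h1
  linarith

theorem Sh.dn_wf' : lapse g x * dn g (wf g K) x = wf g K x *
    (deriv (fun r => η r ^ 2 - κ r ^ 2) ‖x‖ / (2 * (η ‖x‖ ^ 2 - κ ‖x‖ ^ 2)) - dn g (lapse g) x) := by
  have e : ∀ y : Euc n, ρ < ‖y‖ →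
      wf g K y * lapse g y * (wf g K y * lapse g y) = η ‖y‖ ^ 2 - κ ‖y‖ ^ 2 := fun y hy => by
    rw [h.wf_eq hy, div_mul_cancel₀ _ (h.met.lapse_pos hy).ne', Real.mul_self_sqrt (h.xi_pos hy).le]
  have h1 := cst_dn_congr (g := g) ((ev_out hx).mono e)
  have hW := (h.sm_wf hx).mul (h.met.sm_lapse hx)
  rw [cst_dn_mul hW hW, cst_dn_mul (h.sm_wf hx) (h.met.sm_lapse hx),
    dn_rad h.met hx (φ := fun r => η r ^ 2 - κ r ^ 2)
      ((((h.smη _ hx).pow 2).sub ((h.smκ _ hx).pow 2)).differentiableAt (by simp)),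
    eq_div_iff (h.met.lapse_pos hx).ne'] at h1
  have hu := (h.met.lapse_pos hx).ne'
  have hw := (h.wf_pos hx).ne'
  rw [← h1, ← e x hx]
  field_simp
  ring

end

end Vale.Agent.P366
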