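import Vale.Agent.P366.Defs

/-! Further coordinate definitions for the foliation by coordinate spheres. -/

noncomputable section

open Matrix

namespace Vale.Agent.P366

variable {n : ℕ}

/-- Lapse of the foliation by coordinate spheres: `1 / |d r|_g` for `r = ‖x‖`. -/
def lapse (g : Fld n) (x : Euc n) : ℝ := ‖x‖ / √(∑ a, ∑ b, (g x)⁻¹ a b * x a * x b)

/-- Trace of `K` along the coordinate sphere through `x`. -/
def trS (g K : Fld n) (x : Euc n) : ℝ :=
  trK g K x - ∑ i, ∑ j, K x i j * nu g i x * nu g j x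

/-- The vector field dual to the tangential part of `K (ν, ·)`. -/
def Xv (g K : Fld n) (i : Fin n) (x : Euc n) : ℝ :=
  ∑ j, ∑ l, (g x)⁻¹ i j * K x j l * nu g l x
    - (∑ j, ∑ l, K x j l * nu g j x * nu g l x) * nu g i x

/-- Divergence of a vector field with respect to `g`. -/
def divg (g : Fld n) (V : Fin n → Euc n → ℝ) (x : Euc n) : ℝ :=
  ∑ i, pd (V i) i x + ∑ i, ∑ k, chr g i i k x * V k x

end Vale.Agent.P366
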