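import Vale.Agent.P366I.IpC

/-! Variation of the bottom of the spectrum. -/

noncomputable section

open Matrix MeasureTheory Set Filter Topology Asymptotics
open scoped ContDiff

namespace Vale.Agent.P366

variable {n : ℕ} {ι : Type} [Fintype ι] [DecidableEq ι]

theorem dini_sqrt {y l x : ℝ} (hl : 0 < l) (h : y ^ 2 ≤ l ^ 2 + x) : y ≤ l + x / (2 * l) := by
  rw [← sub_le_iff_le_add', le_div_iff₀ (by positivity)]
  nlinarith [sq_nonneg (y - l)]

theorem dini_small (t K : ℝ) {δ : ℝ} (hδ : 0 < δ) : ∀ᶠ s in 𝓝 t, |s - t| * K ≤ δ := by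
  have c : Continuous fun s : ℝ => |s - t| * K := by fun_prop
  exact (c.continuousAt.eventually_lt continuousAt_const (by simpa using hδ)).mono fun _ h => h.le

theorem dini_lim {p q c : ℝ} (hc : 0 < c) (H : ∀ e : ℝ, 0 < e → e ≤ 1 → p ≤ q + e * c) :
    p ≤ q := by
  refine le_of_forall_pos_le_add fun η hη =>
    (H (min 1 (η / c)) (lt_min one_pos (div_pos hη hc)) (min_le_left _ _)).trans ?_
  have k := mul_le_mul_of_nonneg_right (min_le_right 1 (η / c)) hc.le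
  rw [div_mul_cancel₀ _ hc.ne'] at k
  linarith

section
variable {a : ℝ → Fin n → Euc n → Ms ι} {b : ℝ → Euc n → Ms ι}
  {a' : Fin n → Euc n → Ms ι} {b' : Euc n → Ms ι} {t : ℝ} (h : Fam a b a' b' t)
include h

theorem dini_B : ∃ B, 0 ≤ B ∧ ∀ φ, Sm φ → nm (Op a' b' φ) ≤ B * √(H1 φ) := by
  obtain ⟨C, hC, h1⟩ := op_bound n ι
  obtain ⟨c, hc, h2⟩ := smM_bdd h.sma' h.smb'
  exact ⟨C * c, by positivity, fun φ hφ => h1 a' b' c φ h.sma' h.smb' h.tan' hφ hc.le h2⟩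

theorem dini_t {φ : Euc n → ι → ℝ} (hφ : Sm φ) : Sm (Op (a t) (b t) φ) :=
  hφ.op h.sma.self_of_nhds h.smb.self_of_nhds

theorem dini_s : ∀ᶠ s in 𝓝 t, ∀ φ, Sm φ → Sm (Op (a s) (b s) φ) := by
  filter_upwards [h.sma, h.smb] with s h1 h2 φ hφ
  exact hφ.op h1 h2

theorem Fam.hasDeriv {φ : Euc n → ι → ℝ} (hφ : Sm φ) :
    HasDerivAt (fun s => ip (Op (a s) (b s) φ) φ) (ip (Op a' b' φ) φ) t := by
  have s1 := dini_t h hφ
  have s2 := hφ.op h.sma' h.smb'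
  have k0 : 0 ≤ √(H1 φ) * nm φ := mul_nonneg (Real.sqrt_nonneg _) nm_nonneg
  refine hasDerivAt_iff_isLittleO.2 (isLittleO_iff.2 fun c hc => ?_)
  filter_upwards [h.rem (div_pos hc (show 0 < √(H1 φ) * nm φ + 1 by linarith)), dini_s h]
    with s h1 h2
  have s3 := h2 φ hφ
  have k := abs_ip_le ((s3.sub s1).sub (s2.smul (s - t))) hφ
  rw [ip_sub (s3.sub s1) (s2.smul _) hφ, ip_sub s3 s1 hφ, ip_smul] at k
  rw [Real.norm_eq_abs, Real.norm_eq_abs, smul_eq_mul]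
  refine k.trans ((mul_le_mul_of_nonneg_right (h1 φ hφ) nm_nonneg).trans ?_)
  rw [mul_assoc, mul_right_comm]
  refine mul_le_mul_of_nonneg_right ?_ (abs_nonneg _)
  rw [div_mul_eq_mul_div, div_le_iff₀ (by linarith)]
  nlinarith

variable [Nonempty ι] (hn : 0 < n) {C : ℝ}
  (hG : ∀ φ, Sm φ → √(H1 φ) ≤ C * (nm (Op (a t) (b t) φ) + nm φ))
include hn hG

omit [Nonempty ι] hn in
theorem dini_near {δ : ℝ} (hδ : 0 < δ) : ∀ᶠ s in 𝓝 t, ∀ φ, Sm φ →
    nm (Op (a s) (b s) φ - Op (a t) (b t) φ) ≤ δ * (nm (Op (a t) (b t) φ) + nm φ) := by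
  obtain ⟨B, hB, h1⟩ := dini_B h
  filter_upwards [h.rem one_pos, dini_s h, dini_small t ((1 + B) * |C|) hδ] with s h2 h3 h4 φ hφ
  have s1 := dini_t h hφ
  have s2 := (hφ.op h.sma' h.smb').smul (s - t)
  have k := nm_add_le (((h3 φ hφ).sub s1).sub s2) s2
  rw [sub_add_cancel, nm_smul] at k
  have p : 0 ≤ nm (Op (a t) (b t) φ) + nm φ := add_nonneg nm_nonneg nm_nonneg
  have k1 := (hG φ hφ).trans (mul_le_mul_of_nonneg_right (le_abs_self C) p)
  have k2 := mul_le_mul_of_nonneg_left (h1 φ hφ) (abs_nonneg (s - t))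
  have k3 := mul_le_mul_of_nonneg_left k1 (show 0 ≤ |s - t| * (1 + B) by positivity)
  have k4 := mul_le_mul_of_nonneg_right h4 p
  have k5 := h2 φ hφ
  linarith

/-- `nm (L s φ - L t φ) ≤ δ (nm (L t φ) + nm φ)` for `s` near `t` (`Fam.rem`, `op_bound`); test with
near minimisers at `t` for the upper bound and at `s` for the lower bound. -/
theorem Fam.cont : ContinuousAt (fun s => lamO (a s) (b s)) t := by
  refine Metric.continuousAt_iff'.2 fun ε hε => ?_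
  have l0 : 0 ≤ lamO (a t) (b t) := lamO_nonneg
  obtain ⟨δ, d0, d1, d2⟩ : ∃ δ : ℝ, 0 < δ ∧ δ ≤ 1 ∧ δ * (lamO (a t) (b t) + 4) ≤ ε :=
    ⟨min 1 (ε / (lamO (a t) (b t) + 4)), lt_min one_pos (by positivity), min_le_left _ _,
      (le_div_iff₀ (by positivity)).1 (min_le_right _ _)⟩
  obtain ⟨φ, hφ, n1, n2⟩ := lamO_near (a := a t) (b := b t) hn d0
  filter_upwards [dini_near h hG d0, dini_s h] with s h1 h2
  obtain ⟨ψ, hψ, m1, m2⟩ := lamO_near (a := a s) (b := b s) hn d0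
  have u1 := lamO_le (a := a s) (b := b s) hφ
  have u2 := nm_add_le ((h2 φ hφ).sub (dini_t h hφ)) (dini_t h hφ)
  have u3 := h1 φ hφ
  have v1 := lamO_le (a := a t) (b := b t) hψ
  have v2 := nm_sub_le (h2 ψ hψ) ((h2 ψ hψ).sub (dini_t h hψ))
  have v3 := h1 ψ hψ
  rw [sub_add_cancel] at u2
  rw [sub_sub_cancel] at v2
  rw [n1] at u1 u3
  rw [m1] at v1 v3
  have u4 := mul_le_mul_of_nonneg_left n2 d0.le
  have v4 := mul_le_mul_of_nonneg_left v1 (sub_nonneg.2 d1)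
  have w := mul_le_mul_of_nonneg_left d1 d0.le
  rw [Real.dist_eq, abs_lt]
  constructor <;> linarith

/-- `lamO s ≤ nm (L s φ) ≤ nm (l φ + (s - t) L' φ) + e + ε' |s - t| C'`, and
`√(l^2 + x) ≤ l + x / (2 l)`; fix `s`, let `e → 0` (only `e ≤ 1` is used, so `H1 φ` is bounded). -/
theorem Fam.dini {l m : ℝ} (hl : 0 < l)
    (happ : ∀ e > 0, ∃ φ, Sm φ ∧ nm φ = 1 ∧ nm (Op (a t) (b t) φ - l • φ) ≤ e ∧
      m - e ≤ ip (Op a' b' φ) φ) {ε : ℝ} (hε : 0 < ε) :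
    ∀ᶠ s in 𝓝[<] t, lamO (a s) (b s) ≤ l - (t - s) * (m - ε) := by
  obtain ⟨B, hB, h1⟩ := dini_B h
  obtain ⟨K, hK⟩ : ∃ K : ℝ, K = |C| * (l + 2) := ⟨_, rfl⟩
  have K0 : 0 ≤ K := by rw [hK]; positivity
  have e1 : ∀ᶠ s in 𝓝[<] t, _ := nhdsWithin_le_nhds
    ((h.rem (div_pos (half_pos hε) (show 0 < K + 1 by linarith))).and ((dini_s h).and
      (dini_small t ((B * K) ^ 2 / (2 * l)) (half_pos hε))))
  filter_upwards [e1, self_mem_nhdsWithin] with s hs hst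
  obtain ⟨h2, h3, h4⟩ := hs
  have τ0 : 0 < t - s := sub_pos.2 hst
  rw [abs_sub_comm, abs_of_pos τ0] at h2 h4
  refine dini_lim (c := t - s + 1) (by linarith) fun e e0 e1 => ?_
  obtain ⟨φ, hφ, n1, n2, n3⟩ := happ e e0
  have s1 := dini_t h hφ
  have s2 := hφ.op h.sma' h.smb'
  have s3 := h3 φ hφ
  have a1 := nm_add_le (s1.sub (hφ.smul l)) (hφ.smul l)
  rw [sub_add_cancel, nm_smul, n1, abs_of_pos hl] at a1
  have a2 : √(H1 φ) ≤ K := by
    refine (hG φ hφ).trans ((mul_le_mul_of_nonneg_right (le_abs_self C)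
      (add_nonneg nm_nonneg nm_nonneg)).trans ?_)
    rw [hK, n1]
    exact mul_le_mul_of_nonneg_left (by linarith) (abs_nonneg C)
  have a3 : nm (Op a' b' φ) ^ 2 ≤ (B * K) ^ 2 :=
    pow_le_pow_left₀ nm_nonneg ((h1 φ hφ).trans (mul_le_mul_of_nonneg_left a2 hB)) 2
  have a4 := nm_sub_sq (hφ.smul l) (s2.smul (t - s))
  rw [nm_smul, nm_smul, n1, ip_smul, ip_comm, ip_smul, mul_one, sq_abs, mul_pow, sq_abs] at a4
  have a5 : nm (l • φ - (t - s) • Op a' b' φ) ≤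
      l + (-(2 * l * ((t - s) * (m - e))) + (t - s) ^ 2 * (B * K) ^ 2) / (2 * l) := by
    refine dini_sqrt hl ?_
    have k1 := mul_le_mul_of_nonneg_left a3 (sq_nonneg (t - s))
    have k2 := mul_le_mul_of_nonneg_left n3 (mul_pos hl τ0).le
    linarith
  have a6 : (-(2 * l * ((t - s) * (m - e))) + (t - s) ^ 2 * (B * K) ^ 2) / (2 * l) =
      -((t - s) * (m - e)) + (t - s) * ((t - s) * ((B * K) ^ 2 / (2 * l))) := by
    field_simp
  have a7 := mul_le_mul_of_nonneg_left h4 τ0.le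
  have a8 : ε / 2 / (K + 1) * (t - s) * √(H1 φ) ≤ (t - s) * (ε / 2) := by
    rw [mul_right_comm, mul_comm]
    refine mul_le_mul_of_nonneg_left ?_ τ0.le
    rw [div_mul_eq_mul_div, div_le_iff₀ (by linarith)]
    nlinarith
  have r := (s3.sub s1).sub (s2.smul (s - t))
  have b1 := nm_add_le (r.add (s1.sub (hφ.smul l))) ((hφ.smul l).sub (s2.smul (t - s)))
  have b2 := nm_add_le r (s1.sub (hφ.smul l))
  have b3 : Op (a s) (b s) φ - Op (a t) (b t) φ - (s - t) • Op a' b' φ +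
      (Op (a t) (b t) φ - l • φ) + (l • φ - (t - s) • Op a' b' φ) = Op (a s) (b s) φ := by
    module
  rw [b3] at b1
  have b4 := lamO_le (a := a s) (b := b s) hφ
  have b5 := h2 φ hφ
  rw [n1] at b4
  linarith

end

end Vale.Agent.P366
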