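import Vale.Agent.P366I.Fri4

/-! Approximate eigenvectors. -/

noncomputable section

open Matrix MeasureTheory Set Filter Topology Asymptotics
open scoped ContDiff

namespace Vale.Agent.P366

variable {n : ℕ} {ι : Type} [Fintype ι] [DecidableEq ι]

/-- If `l = lamO = 0` use `lamO_near`. Otherwise take `φ` from `lamO_near` and `χ` from
`dense_range` with `L χ ≈ φ`, both with error `δ`. Then `l nm χ ≤ 1 + δ`,
`ip χ (L φ) = ip (L χ) φ ≥ 1 - δ`, so `nm (L φ - l^2 χ)^2 = O(δ)`; for `ψ = φ ± l χ`,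
`L ψ ∓ l ψ = (L φ - l^2 χ) ± l (L χ - φ)`, and one of the two has norm at least `1`; normalise. -/
theorem approx_eig [Nonempty ι] (hn : 0 < n) {a : Fin n → Euc n → Ms ι} {b : Euc n → Ms ι}
    (ha : ∀ k, SmM (a k)) (hb : SmM b) (ht : Tang a)
    (hsk : ∀ k θ, ‖θ‖ = 1 → (a k θ)ᵀ = -a k θ) (hs : SymO a b) {e : ℝ} (he : 0 < e) :
    ∃ φ, Sm φ ∧ nm φ = 1 ∧
      (nm (Op a b φ - lamO a b • φ) ≤ e ∨ nm (Op a b φ + lamO a b • φ) ≤ e) := by
  rcases (lamO_nonneg (a := a) (b := b)).eq_or_lt with h0 | hl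
  · obtain ⟨φ, h1, h2, h3⟩ := lamO_near (a := a) (b := b) hn he
    refine ⟨φ, h1, h2, Or.inl ?_⟩
    rw [← h0] at h3 ⊢
    rwa [zero_smul, sub_zero, ← zero_add e]
  obtain ⟨l, hL⟩ : ∃ l, l = lamO a b := ⟨_, rfl⟩
  obtain ⟨δ, hδ, hK⟩ := exists_pos_mul_lt (lt_min one_pos (lt_min (sq_pos_of_pos (half_pos he))
    (half_pos he))) (2 * l + 1 + 5 * l ^ 2)
  obtain ⟨φ, h1, h2, h3⟩ := lamO_near (a := a) (b := b) hn hδ
  obtain ⟨χ, h4, h5⟩ := dense_range hn ha hb ht hsk hs hl h1 hδ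
  have h6 := lamO_le (a := a) (b := b) h4
  rw [← hL] at hl h3 h6 ⊢
  simp only [lt_min_iff] at hK
  have o1 := h1.op ha hb
  have o4 := h4.op ha hb
  have p1 := mul_pos hl hδ
  have p2 := mul_pos (sq_pos_of_pos hl) hδ
  have d1 : δ ≤ 1 := by linarith [hK.1]
  have a1 : l * nm χ ≤ 1 + δ := by
    have := nm_sub_le h1 (h1.sub o4)
    rw [sub_sub_cancel] at this
    linarith
  have a2 : 1 - δ ≤ ip (Op a b φ) χ := by
    have := le_of_abs_le (abs_ip_le (h1.sub o4) h1)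
    rw [ip_sub h1 o4 h1, ← nm_sq, h2, ip_comm, ← hs φ χ h1 h4] at this
    linarith
  have a3 : nm (Op a b φ - l ^ 2 • χ) ≤ e / 2 := by
    refine le_of_sq_le_sq (le_trans ?_ hK.2.1.le) (half_pos he).le
    rw [nm_sub_sq o1 (h4.smul _), ip_comm, ip_smul, ip_comm, nm_smul, abs_of_nonneg (sq_nonneg l)]
    have b1 := pow_le_pow_left₀ nm_nonneg h3 2
    have b2 := mul_le_mul_of_nonneg_left
      (pow_le_pow_left₀ (mul_nonneg hl.le nm_nonneg) a1 2) (sq_nonneg l)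
    have b3 := mul_le_mul_of_nonneg_left a2 (sq_nonneg l)
    have b4 := mul_le_mul_of_nonneg_left d1 hδ.le
    have b5 := mul_le_mul_of_nonneg_left d1 p2.le
    linarith
  have key : ∀ σ : ℝ, |σ| = l → σ * ip χ φ ≤ 0 →
      ∃ ψ, Sm ψ ∧ nm ψ = 1 ∧ nm (Op a b ψ + σ • ψ) ≤ e := fun σ hσ hi => by
    have s1 := h1.sub (h4.smul σ)
    have n1 : 1 ≤ nm (φ - σ • χ) := by
      refine le_of_sq_le_sq ?_ nm_nonneg
      rw [nm_sub_sq h1 (h4.smul σ), h2, ip_comm, ip_smul]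
      linarith [sq_nonneg (nm (σ • χ))]
    have n2 : 0 ≤ (nm (φ - σ • χ))⁻¹ := inv_nonneg.2 nm_nonneg
    refine ⟨(nm (φ - σ • χ))⁻¹ • (φ - σ • χ), s1.smul _, by
      rw [nm_smul, abs_of_nonneg n2, inv_mul_cancel₀ (by linarith)], ?_⟩
    rw [nm_congr (χ := (nm (φ - σ • χ))⁻¹ • (Op a b φ - l ^ 2 • χ + σ • (φ - Op a b χ)))
      fun θ hθ => by
        simp only [Pi.add_apply, Pi.smul_apply, Pi.sub_apply, Op_smul s1 _ hθ,
          Op_sub h1 (h4.smul σ) hθ, Op_smul h4 _ hθ, ← hσ, sq_abs]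
        module, nm_smul, abs_of_nonneg n2]
    refine (mul_le_of_le_one_left nm_nonneg (inv_le_one_of_one_le₀ n1)).trans
      ((nm_add_le (o1.sub (h4.smul _)) ((h1.sub o4).smul σ)).trans ?_)
    rw [nm_smul, hσ]
    linarith [hK.2.2, mul_le_mul_of_nonneg_left h5 hl.le]
  rcases le_total (ip χ φ) 0 with h | h
  · exact (key l (abs_of_pos hl) (mul_nonpos_of_nonneg_of_nonpos hl.le h)).imp
      fun ψ k => ⟨k.1, k.2.1, Or.inr k.2.2⟩
  · refine (key (-l) (by rw [abs_neg, abs_of_pos hl])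
      (mul_nonpos_of_nonpos_of_nonneg (by linarith) h)).imp fun ψ k => ⟨k.1, k.2.1, Or.inl ?_⟩
    rw [sub_eq_add_neg, ← neg_smul]
    exact k.2.2

end Vale.Agent.P366
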