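import Vale.Agent.P366I.Base

/-! Pointwise Clifford algebra on a leaf. -/

noncomputable section

open Matrix MeasureTheory Set Filter Topology Asymptotics
open scoped ContDiff

namespace Vale.Agent.P366

variable {n : ℕ} {ι : Type} [Fintype ι] [DecidableEq ι]

theorem pa1_half {M : Ms ι} {c : ℝ} (h : M + M = (2 * c) • (1 : Ms ι)) : M = c • (1 : Ms ι) := by
  rw [← two_smul ℝ M, mul_smul] at h
  exact smul_right_injective _ (two_ne_zero (α := ℝ)) h

theorem pa1_sym {e : Fin n → Ms ι} {c : Fin n → Fin n → ℝ} {B : Mn n} (hB : B.IsSymm)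
    (he : ∀ k l, e k * e l + e l * e k = (-2 * c k l) • (1 : Ms ι)) :
    ∑ k, ∑ j, B k j • (e k * e j) = (-∑ k, ∑ j, c k j * B k j) • (1 : Ms ι) := by
  refine pa1_half ?_
  nth_rewrite 2 [Finset.sum_comm]
  simp only [← Finset.sum_add_distrib, ← Finset.sum_neg_distrib, Finset.mul_sum, Finset.sum_smul]
  refine Finset.sum_congr rfl fun k _ => Finset.sum_congr rfl fun j _ => ?_
  rw [hB.apply k j, ← smul_add, he, smul_smul]
  congr 1
  ring

omit [DecidableEq ι] in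
theorem pa1_dot (M : Ms ι) (u v : ι → ℝ) : (M *ᵥ u) ⬝ᵥ v = u ⬝ᵥ (Mᵀ *ᵥ v) := by
  rw [dotProduct_comm, dotProduct_mulVec, mulVec_transpose, dotProduct_comm]

section
variable {gi : Mn n} {γ : Fin n → Ms ι} {ν νl ac : Fin n → ℝ} {A : Mn n}
  (h : Pt gi γ ν νl A ac) (ψ : ι → ℝ) (P : Fin n → ι → ℝ)
include h

theorem Pt.pa1_up (k : Fin n) : ∑ j, νl j * gi j k = ν k := by
  rw [h.up, mulVec, dotProduct]
  refine Finset.sum_congr rfl fun j _ => ?_
  have h1 := h.pos.1.apply j k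
  rw [star_trivial] at h1
  rw [h1, mul_comm]

theorem Pt.pa1_one : ∑ k, νl k * ν k = 1 := by
  rw [← h.unit, dotProduct_comm, dotProduct]

theorem Pt.pa1_tan (j : Fin n) : ∑ k, ν k * A k j = 0 := by
  have h1 := congrFun h.tanA j
  rw [mulVec, dotProduct] at h1
  exact (Finset.sum_congr rfl fun k _ => by rw [h.sym.apply k j, mul_comm]).trans h1

theorem Pt.ns_skew : (nsA γ νl)ᵀ = -nsA γ νl := by
  simp only [nsA, transpose_sum, transpose_smul, h.skγ, smul_neg, Finset.sum_neg_distrib]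

theorem Pt.ns_gam (k : Fin n) : nsA γ νl * γ k + γ k * nsA γ νl = (-2 * ν k) • (1 : Ms ι) := by
  rw [← h.pa1_up k]
  simp only [nsA, Finset.sum_mul, Finset.mul_sum, ← Finset.sum_add_distrib, Finset.sum_smul]
  refine Finset.sum_congr rfl fun j _ => ?_
  rw [smul_mul_assoc, mul_smul_comm, ← smul_add, h.acγ, smul_smul]
  congr 1
  ring

theorem Pt.ns_sq : nsA γ νl * nsA γ νl = -1 := by
  rw [← neg_one_smul ℝ (1 : Ms ι)]
  refine pa1_half ?_
  have h1 : ∑ k, νl k • (nsA γ νl * γ k + γ k * nsA γ νl)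
      = nsA γ νl * nsA γ νl + nsA γ νl * nsA γ νl := by
    simp only [smul_add, Finset.sum_add_distrib, ← mul_smul_comm (_ : ℝ) (nsA γ νl),
      ← Finset.mul_sum]
    simp only [← smul_mul_assoc, ← Finset.sum_mul]
    rfl
  rw [← h1]
  simp only [h.ns_gam, smul_smul, ← Finset.sum_smul, mul_left_comm _ (-2 : ℝ), ← Finset.mul_sum,
    h.pa1_one]
  norm_num

theorem Pt.pa1_gn (k : Fin n) : γ k * nsA γ νl = (-2 * ν k) • (1 : Ms ι) - nsA γ νl * γ k :=
  eq_sub_of_add_eq' (h.ns_gam k)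

theorem Pt.bt_skew (k : Fin n) : (btA γ ν νl k)ᵀ = -btA γ ν νl k := by
  rw [btA, transpose_add, transpose_mul, h.skγ, h.ns_skew, neg_mul_neg, h.pa1_gn, transpose_smul,
    transpose_one]
  module

theorem Pt.pa1_bn (k : Fin n) : btA γ ν νl k * nsA γ νl = γ k - ν k • nsA γ νl := by
  rw [btA, add_mul, mul_assoc, h.pa1_gn, mul_sub, ← mul_assoc, h.ns_sq, mul_smul_comm,
    smul_mul_assoc, mul_one, one_mul, neg_one_mul]
  module

theorem Pt.pa1_bb (k l : Fin n) : btA γ ν νl k * btA γ ν νl l = γ k * γ l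
    - ν k • (nsA γ νl * γ l) + ν l • (nsA γ νl * γ k) + (ν k * ν l) • (1 : Ms ι) := by
  nth_rewrite 2 [btA]
  rw [mul_add, ← mul_assoc, h.pa1_bn, sub_mul, smul_mul_assoc, mul_smul_comm, mul_one, btA]
  module

theorem Pt.bt_ac (k l : Fin n) : btA γ ν νl k * btA γ ν νl l + btA γ ν νl l * btA γ ν νl k
    = (-2 * (gi k l - ν k * ν l)) • (1 : Ms ι) := by
  rw [h.pa1_bb, h.pa1_bb, eq_sub_of_add_eq (h.acγ k l)]
  module

theorem Pt.ns_bt (k : Fin n) : nsA γ νl * btA γ ν νl k = -(btA γ ν νl k * nsA γ νl) := by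
  rw [h.pa1_bn, btA, mul_add, ← mul_assoc, h.ns_sq, mul_smul_comm, mul_one, neg_mul, one_mul]
  module

theorem Pt.bt_tan : ∑ k, νl k • btA γ ν νl k = 0 := by
  simp only [btA, smul_add, Finset.sum_add_distrib, smul_smul, ← Finset.sum_smul, h.pa1_one]
  simp only [← mul_smul_comm, ← Finset.mul_sum]
  rw [one_smul, add_eq_zero_iff_eq_neg]
  exact h.ns_sq

theorem Pt.ns_dot (u v : ι → ℝ) : (nsA γ νl *ᵥ u) ⬝ᵥ (nsA γ νl *ᵥ v) = u ⬝ᵥ v := by
  rw [pa1_dot, mulVec_mulVec, h.ns_skew, neg_mul, h.ns_sq, neg_neg, one_mulVec]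

theorem Pt.bt_bt_sym {B : Mn n} (hB : B.IsSymm) (hBν : B *ᵥ ν = 0) :
    ∑ k, ∑ j, B k j • (btA γ ν νl k * btA γ ν νl j) = (-trA gi B) • (1 : Ms ι) := by
  rw [pa1_sym hB h.bt_ac, trA]
  congr 2
  refine Finset.sum_congr rfl fun k _ => ?_
  have h1 := congrFun hBν k
  rw [mulVec, dotProduct] at h1
  simp only [sub_mul, Finset.sum_sub_distrib, mul_assoc, ← Finset.mul_sum, mul_comm (ν _) (B k _)]
  rw [h1, Pi.zero_apply, mul_zero, sub_zero]

theorem Pt.pa1_gg : ∑ k, ∑ j, A k j • (γ k * γ j) = (-trA gi A) • (1 : Ms ι) :=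
  pa1_sym h.sym h.acγ

theorem Pt.ds_eq : dsA gi γ ν νl A ψ P = ∑ k, btA γ ν νl k *ᵥ cTA γ ν νl A ψ P k := by
  have h1 := congrArg (· *ᵥ pnA ν P) h.bt_tan
  have h2 := congrArg (· *ᵥ ψ) (h.bt_bt_sym h.sym h.tanA)
  simp only [sum_mulVec, smul_mulVec, zero_mulVec, one_mulVec] at h1 h2
  simp only [dsA, cTA, mulVec_sub, mulVec_smul, mulVec_sum, mulVec_mulVec, Finset.sum_sub_distrib,
    ← Finset.smul_sum, h1, h2]
  module

theorem Pt.cT_tan : ∑ k, ν k • cTA γ ν νl A ψ P k = 0 := by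
  have h1 : ∑ k, ν k • ∑ j, A k j • (btA γ ν νl j *ᵥ ψ) = 0 := by
    simp only [Finset.smul_sum, smul_smul]
    rw [Finset.sum_comm]
    simp only [← Finset.sum_smul, h.pa1_tan, zero_smul, Finset.sum_const_zero]
  simp only [cTA, smul_sub, Finset.sum_sub_distrib, smul_comm (ν _) (1 / 2 : ℝ),
    ← Finset.smul_sum, h1]
  simp only [smul_smul, ← Finset.sum_smul, mul_comm (ν _), h.pa1_one]
  rw [one_smul, smul_zero, sub_zero, pnA, sub_self]

theorem Pt.wit_flux : ∑ k, (ψ ⬝ᵥ ∑ l, (gi k l • (1 : Ms ι) + γ k * γ l) *ᵥ P l) * νl k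
    = ψ ⬝ᵥ dsA gi γ ν νl A ψ P - trA gi A / 2 * (ψ ⬝ᵥ ψ) := by
  have h1 : ∀ l, btA γ ν νl l = ∑ k, νl k • (gi k l • (1 : Ms ι) + γ k * γ l) := fun l => by
    simp only [smul_add, Finset.sum_add_distrib, smul_smul, ← Finset.sum_smul, h.pa1_up]
    simp only [← smul_mul_assoc, ← Finset.sum_mul]
    exact add_comm _ _
  rw [dsA, dotProduct_add, dotProduct_smul, smul_eq_mul, add_sub_cancel_right]
  simp only [h1, sum_mulVec, smul_mulVec, dotProduct_sum, dotProduct_smul, smul_eq_mul,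
    Finset.sum_mul]
  rw [Finset.sum_comm]
  simp only [mul_comm]

theorem Pt.ds_ns : dsA gi γ ν νl A (nsA γ νl *ᵥ ψ) (p2A γ νl A ac ψ P)
    = -(nsA γ νl *ᵥ dsA gi γ ν νl A ψ P) := by
  have h1 : ∑ k, ∑ j, (A k j + νl k * ac j) • (btA γ ν νl k * γ j) = (-trA gi A) • nsA γ νl := by
    have b1 : ∑ k, ∑ j, (νl k * ac j) • (btA γ ν νl k * γ j)
        = (∑ k, νl k • btA γ ν νl k) * ∑ j, ac j • γ j := by
      simp only [Finset.sum_mul_sum, smul_mul_smul_comm]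
    have b2 : ∑ k, ∑ j, A k j • ν k • γ j = 0 := by
      rw [Finset.sum_comm]
      simp only [smul_smul, ← Finset.sum_smul, mul_comm _ (ν _), h.pa1_tan, zero_smul,
        Finset.sum_const_zero]
    simp only [add_smul, Finset.sum_add_distrib, b1, h.bt_tan, zero_mul, add_zero]
    simp only [btA, add_mul, smul_add, Finset.sum_add_distrib, smul_mul_assoc, one_mul, b2,
      mul_assoc]
    simp only [← mul_smul_comm (_ : ℝ) (nsA γ νl), ← Finset.mul_sum, h.pa1_gg]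
    rw [mul_smul_comm, mul_one, add_zero]
  have h2 := congrArg (· *ᵥ ψ) h1
  simp only [sum_mulVec, smul_mulVec] at h2
  simp only [dsA, p2A, mulVec_add, mulVec_smul, mulVec_sum, mulVec_mulVec, Finset.sum_add_distrib,
    h2, h.ns_bt, neg_mulVec, Finset.sum_neg_distrib]
  module

theorem Pt.ba_orth : baA γ ν νl ac ψ ⬝ᵥ ψ = 0 := by
  rw [baA, sum_dotProduct]
  refine Finset.sum_eq_zero fun k _ => ?_
  have h1 := pa1_dot (btA γ ν νl k) ψ ψ
  rw [h.bt_skew, neg_mulVec, dotProduct_neg, dotProduct_comm ψ] at h1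
  rw [smul_dotProduct, self_eq_neg.1 h1, smul_zero]

theorem Pt.ba_sq : baA γ ν νl ac ψ ⬝ᵥ baA γ ν νl ac ψ = (ac ⬝ᵥ (gi *ᵥ ac)) * (ψ ⬝ᵥ ψ) := by
  have h1 := congrArg (fun M => ψ ⬝ᵥ (M *ᵥ ψ)) (h.bt_bt_sym (B := vecMulVec ac ac)
    (transpose_vecMulVec _ _) (by rw [vecMulVec_mulVec, h.tana]; simp))
  have h2 : trA gi (vecMulVec ac ac) = ac ⬝ᵥ (gi *ᵥ ac) := by
    simp only [trA, vecMulVec_apply, dotProduct, mulVec, Finset.mul_sum, mul_left_comm]
  simp only [sum_mulVec, smul_mulVec, one_mulVec, dotProduct_sum, dotProduct_smul, smul_eq_mul,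
    vecMulVec_apply, h2] at h1
  simp only [baA, sum_dotProduct, smul_dotProduct, pa1_dot, h.bt_skew, neg_mulVec, mulVec_mulVec,
    dotProduct_neg, dotProduct_sum, dotProduct_smul, smul_eq_mul, mul_neg, Finset.mul_sum,
    ← mul_assoc, Finset.sum_neg_distrib, neg_mul]
  rw [Finset.sum_comm, neg_eq_iff_eq_neg, ← neg_mul, ← h1]
  simp only [mul_comm]

/-- The divergence of `β^k`: with `∇_k ν_j = A k j + νl k * ac j`. -/
theorem Pt.div_bt : ∑ k, (∑ j, (A k j + νl k * ac j) • γ j) * γ k + trA gi A • (1 : Ms ι)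
    = -∑ k, ac k • btA γ ν νl k := by
  have b1 : ∑ k, ∑ j, A k j • (γ j * γ k) = (-trA gi A) • (1 : Ms ι) := by
    rw [← h.pa1_gg, Finset.sum_comm]
    exact Finset.sum_congr rfl fun k _ => Finset.sum_congr rfl fun j _ => by rw [h.sym.apply k j]
  have b2 : ∑ k, ∑ j, (νl k * ac j) • (γ j * γ k) = ∑ j, ac j • (γ j * nsA γ νl) := by
    rw [Finset.sum_comm]
    simp only [nsA, Finset.mul_sum, Finset.smul_sum, mul_smul_comm, smul_smul, mul_comm]
  have b3 : ∑ k, ac k * ν k = 0 := h.tana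
  simp only [Finset.sum_mul, add_smul, add_mul, smul_mul_assoc, Finset.sum_add_distrib, b1, b2,
    h.pa1_gn, btA, smul_add, smul_sub, Finset.sum_sub_distrib, smul_smul, ← Finset.sum_smul,
    mul_left_comm _ (-2 : ℝ), ← Finset.mul_sum, b3]
  module

end

end Vale.Agent.P366
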