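import Vale.Agent.P366I.IpC
import Vale.Agent.P366I.Sm1
import Vale.Agent.P366I.Nor
import Vale.Agent.P366I.PA1

/-! The family of leaf operators is differentiable. -/

noncomputable section

open Matrix MeasureTheory Set Filter Topology Asymptotics
open scoped ContDiff

namespace Vale.Agent.P366

variable {n : ℕ} {ι : Type} [Fintype ι] [DecidableEq ι]

theorem famb_right {F : ℝ × Euc n → ℝ} {t : ℝ} {θ : Euc n} (h : ContDiffAt ℝ ∞ F (t, θ)) :
    ContDiffAt ℝ ∞ (fun y => F (t, y)) θ :=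
  ContDiffAt.comp (g := F) (f := fun y => (t, y)) θ h (contDiffAt_const.prodMk contDiffAt_id)

theorem famb_der {F : ℝ × Euc n → ℝ} {t : ℝ} {θ : Euc n} (h : DifferentiableAt ℝ F (t, θ)) :
    HasDerivAt (fun s => F (s, θ)) (fderiv ℝ F (t, θ) (1, 0)) t :=
  HasFDerivAt.comp_hasDerivAt (l := F) (f := fun s => (s, θ)) t h.hasFDerivAt
    ((hasDerivAt_id t).prodMk (hasDerivAt_const t θ))

theorem famb_sm {F : ℝ × Euc n → ℝ} {z : ℝ × Euc n} (h : ContDiffAt ℝ ∞ F z) :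
    ContDiffAt ℝ ∞ (fun w => fderiv ℝ F w (1, 0)) z :=
  (h.fderiv_right (m := ∞) le_rfl).clm_apply contDiffAt_const

theorem famb_smd {F : ℝ × Euc n → ℝ} {t : ℝ} {θ : Euc n} (h : ContDiffAt ℝ ∞ F (t, θ)) :
    ContDiffAt ℝ ∞ (fun y => deriv (fun s => F (s, y)) t) θ := by
  refine (famb_right (famb_sm h)).congr_of_eventuallyEq ?_
  have h1 := (h.of_le (m := 1) (by simp)).eventually (by simp)
  have h2 : ContinuousAt (fun y : Euc n => (t, y)) θ := by fun_prop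
  filter_upwards [h2.eventually h1] with y hy
  exact (famb_der (hy.differentiableAt one_ne_zero)).deriv

theorem famb_ud {F : ℝ × Euc n → ℝ} {ρ t : ℝ} (ht : ρ < t)
    (h : ∀ s, ρ < s → ∀ θ : Euc n, ‖θ‖ = 1 → ContDiffAt ℝ ∞ F (s, θ)) {ε : ℝ} (hε : 0 < ε) :
    ∀ᶠ s in 𝓝 t, ∀ θ : Euc n, ‖θ‖ = 1 →
      |F (s, θ) - F (t, θ) - (s - t) * deriv (fun s => F (s, θ)) t| ≤ ε * |s - t| := by
  have h1 : ∀ᶠ s in 𝓝 t, ∀ θ ∈ Metric.sphere (0 : Euc n) 1,
      |fderiv ℝ F (s, θ) (1, 0) - fderiv ℝ F (t, θ) (1, 0)| < ε := by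
    refine (isCompact_sphere (0 : Euc n) 1).eventually_forall_of_forall_eventually
      (P := fun s θ => |fderiv ℝ F (s, θ) (1, 0) - fderiv ℝ F (t, θ) (1, 0)| < ε) fun θ hθ => ?_
    have h2 := famb_sm (h t ht θ (mem_sphere_zero_iff_norm.1 hθ))
    have h3 : ContinuousAt (fun z : ℝ × Euc n => fderiv ℝ F (t, z.2) (1, 0)) (t, θ) :=
      ContinuousAt.comp (g := fun y => fderiv ℝ F (t, y) (1, 0)) (f := Prod.snd)
        (famb_right h2).continuousAt continuousAt_snd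
    exact (h2.continuousAt.sub h3).abs.eventually_lt continuousAt_const (by simpa using hε)
  obtain ⟨r, hr, h2⟩ := Metric.eventually_nhds_iff_ball.1 (h1.and (lt_mem_nhds ht))
  filter_upwards [Metric.ball_mem_nhds t hr] with s hs θ hθ
  have hd : ∀ s, ρ < s → HasDerivAt (fun s => F (s, θ)) (fderiv ℝ F (s, θ) (1, 0)) s :=
    fun s hs => famb_der ((h s hs θ hθ).differentiableAt (by simp))
  have h3 := (convex_ball t r).norm_image_sub_le_of_norm_hasDerivWithin_le (C := ε)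
    (f := fun s => F (s, θ) - s * fderiv ℝ F (t, θ) (1, 0))
    (f' := fun s => fderiv ℝ F (s, θ) (1, 0) - fderiv ℝ F (t, θ) (1, 0))
    (fun x hx => ((hd x (h2 x hx).2).sub (hasDerivAt_mul_const _)).hasDerivWithinAt)
    (fun x hx => ((h2 x hx).1 θ (mem_sphere_zero_iff_norm.2 hθ)).le) (Metric.mem_ball_self hr) hs
  rw [(hd t ht).deriv]
  refine le_of_eq_of_le (congrArg abs ?_) h3
  ring

theorem famb_comp {f : Euc n → ℝ} {t : ℝ} {θ : Euc n} (h : ContDiffAt ℝ ∞ f (t • θ)) :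
    ContDiffAt ℝ ∞ (fun z : ℝ × Euc n => f (z.1 • z.2)) (t, θ) :=
  ContDiffAt.comp (g := f) (f := fun z : ℝ × Euc n => z.1 • z.2) (t, θ) h
    (contDiffAt_fst.smul contDiffAt_snd)

theorem famb_norm {t : ℝ} (ht : 0 < t) {θ : Euc n} (hθ : ‖θ‖ = 1) : ‖t • θ‖ = t := by
  rw [norm_smul, hθ, mul_one, Real.norm_eq_abs, abs_of_pos ht]

/-- Joint smoothness gives uniform differentiability (mean value inequality for
`s ↦ a s θ p q - s * a' θ p q`, uniform continuity of the `s`-derivative on a compact set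
`[t - δ, t + δ] × sphere`). -/
theorem ud_of_smooth {ρ t : ℝ} (ht : ρ < t) {a : ℝ → Euc n → Ms ι}
    (ha : ∀ s, ρ < s → ∀ θ : Euc n, ‖θ‖ = 1 → ∀ p q,
      ContDiffAt ℝ ∞ (fun z : ℝ × Euc n => a z.1 z.2 p q) (s, θ)) :
    UD a (fun y => Matrix.of fun p q => deriv (fun s => a s y p q) t) t ∧
      SmM (fun y => Matrix.of fun p q => deriv (fun s => a s y p q) t) ∧
      ∀ s, ρ < s → SmM (a s) := by
  refine ⟨fun ε hε => ?_, fun θ hθ p q => famb_smd (ha t ht θ hθ p q),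
    fun s hs θ hθ p q => famb_right (ha s hs θ hθ p q)⟩
  filter_upwards [eventually_all.2 fun p => eventually_all.2 fun q =>
    famb_ud (F := fun z => a z.1 z.2 p q) ht (fun s hs θ hθ => ha s hs θ hθ p q) hε] with s hs
  exact fun θ hθ p q => hs p q θ hθ

section
variable {ρ : ℝ} {g K : Fld n} {η κ : ℝ → ℝ} {γ S : Euc n → Fin n → Ms ι} (hn : 3 ≤ n)
  (h : Sh ρ g K η κ) (hG : Geo ρ g γ S) {t : ℝ} (ht : ρ < t)
include hn h hG ht

theorem aa_joint {θ : Euc n} (hθ : ‖θ‖ = 1) (k : Fin n) (p q : ι) :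
    ContDiffAt ℝ ∞ (fun z : ℝ × Euc n => aa g K γ z.1 k z.2 p q) (t, θ) := by
  have h0 := h.met.pos.trans ht
  have hx : ρ < ‖t • θ‖ := by rwa [famb_norm h0 hθ]
  exact ((contDiffAt_fst.mul (famb_comp (h.sm_wf hx))).inv
    (mul_pos h0 (h.wf_pos hx)).ne').mul (famb_comp (hG.sm_bt hx k p q))

theorem bb_joint {θ : Euc n} (hθ : ‖θ‖ = 1) (p q : ι) :
    ContDiffAt ℝ ∞ (fun z : ℝ × Euc n => bb g K γ S z.1 z.2 p q) (t, θ) := by
  have hx : ρ < ‖t • θ‖ := by rwa [famb_norm (h.met.pos.trans ht) hθ]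
  have h1 : sm1_M (t • θ) fun x => (wf g K x)⁻¹ • (Zm g γ S x + (meanH g x / 2) • (1 : Ms ι)
      + ∑ k, (pd (rho g K) k x / rho g K x) • bt g γ x k) :=
    sm1_msmul ((h.sm_wf hx).inv (h.wf_pos hx).ne') (sm1_madd (sm1_madd (hG.sm_Zm hx)
      (sm1_msmul ((h.met.sm_meanH hx).div_const 2) (sm1_mconst 1)))
      (sm1_msum (P := fun x k => (pd (rho g K) k x / rho g K x) • bt g γ x k) fun k =>
        sm1_msmul ((contDiffAt_pd (h.sm_rho hx) k).div (h.sm_rho hx) (h.rho_pos hx).ne')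
          (hG.sm_bt hx k)))
  exact famb_comp (h1 p q)

theorem aa_sm (k : Fin n) : SmM (aa g K γ t k) := by
  exact fun θ hθ p q => famb_right (aa_joint hn h hG ht hθ k p q)

theorem bb_sm : SmM (bb g K γ S t) := by
  exact fun θ hθ p q => famb_right (bb_joint hn h hG ht hθ p q)

/-- `Pt.bt_tan`: `nl g k (t • θ) = lapse * θ k`. -/
theorem aa_tan : Tang (aa g K γ t) := by
  intro θ hθ
  have h0 := h.met.pos.trans ht
  have hx : ρ < ‖t • θ‖ := by rwa [famb_norm h0 hθ]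
  have h1 : ∑ k, nl g k (t • θ) • bt g γ (t • θ) k = 0 := (pt_of hG hx).bt_tan
  have h2 : ∀ k, θ k • aa g K γ t k θ = ((t * wf g K (t • θ))⁻¹ * (lapse g (t • θ))⁻¹) •
      (nl g k (t • θ) • bt g γ (t • θ) k) := fun k => by
    have h3 := (h.met.lapse_pos hx).ne'
    rw [aa, smul_smul, smul_smul, nl, famb_norm h0 hθ, PiLp.smul_apply, smul_eq_mul]
    congr 1
    field_simp
  simp only [h2, ← Finset.smul_sum, h1, smul_zero]

theorem aa_skew (k : Fin n) (θ : Euc n) (hθ : ‖θ‖ = 1) : (aa g K γ t k θ)ᵀ = -aa g K γ t k θ := by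
  have hx : ρ < ‖t • θ‖ := by rwa [famb_norm (h.met.pos.trans ht) hθ]
  have h1 : (bt g γ (t • θ) k)ᵀ = -bt g γ (t • θ) k := (pt_of hG hx).bt_skew k
  rw [aa, transpose_smul, h1, smul_neg]

theorem fam_of : Fam (aa g K γ) (bb g K γ S) (aa' g K γ t) (bb' g K γ S t) t := by
  have e : ∀ᶠ s in 𝓝 t, ρ < s := lt_mem_nhds ht
  have ua := fun k => ud_of_smooth ht (a := fun s => aa g K γ s k)
    fun s hs θ hθ p q => aa_joint hn h hG hs hθ k p q
  have ub := ud_of_smooth ht (a := bb g K γ S) fun s hs θ hθ p q => bb_joint hn h hG hs hθ p q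
  refine ⟨e.mono fun s hs k => aa_sm hn h hG hs k, e.mono fun s hs => bb_sm hn h hG hs,
    e.mono fun s hs => aa_tan hn h hG hs, fun k => (ua k).2.1, ub.2.1, fun θ hθ => ?_,
    fun k => (ua k).1, ub.1⟩
  ext p q
  have h1 : HasDerivAt (fun s => ∑ k, θ k * aa g K γ s k θ p q)
      (∑ k, θ k * deriv (fun s => aa g K γ s k θ p q) t) t :=
    HasDerivAt.fun_sum fun k _ => (famb_der ((aa_joint hn h hG ht hθ k p q).differentiableAt
      (by simp))).differentiableAt.hasDerivAt.const_mul _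
  have h2 : HasDerivAt (fun s => ∑ k, θ k * aa g K γ s k θ p q) 0 t :=
    (hasDerivAt_const t (0 : ℝ)).congr_of_eventuallyEq (e.mono fun s hs => by
      have h3 := congrFun (congrFun (aa_tan hn h hG hs θ hθ) p) q
      simpa only [Matrix.sum_apply, Matrix.smul_apply, smul_eq_mul, Matrix.zero_apply] using h3)
  simpa only [Matrix.sum_apply, Matrix.smul_apply, smul_eq_mul, Matrix.zero_apply, aa',
    Matrix.of_apply] using h1.unique h2

end

end Vale.Agent.P366
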