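import Vale.Agent.P366I.Base

/-! A smooth choice of orthonormal frames (Gram-Schmidt). -/

noncomputable section

open Matrix MeasureTheory Set Filter Topology Asymptotics
open scoped ContDiff

namespace Vale.Agent.P366

variable {n : ℕ} {ι : Type} [Fintype ι] [DecidableEq ι]

/-- The new row of the elimination matrix. -/
def fr0_w (k : Fin n) (H : Mn n) (j : Fin n) : ℝ :=
  (if j = k then (√(H k k))⁻¹ else 0) - H k j / H k k

/-- One elimination step. -/
def fr0_E (k : Fin n) (H : Mn n) : Mn n :=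
  Matrix.of fun i j => (if i = j then 1 else 0) + if i = k then fr0_w k H j else 0

theorem fr0_inj {k : Fin n} {H : Mn n} (h : 0 < H k k) : Function.Injective (fr0_E k H).mulVec := by
  refine (injective_iff_map_eq_zero (fr0_E k H).mulVecLin).2 fun v hv => funext fun i => ?_
  have e : ∀ i, v i + (if i = k then ∑ j, fr0_w k H j * v j else 0) = 0 := fun i => by
    simpa [fr0_E, mulVec, dotProduct, add_mul, Finset.sum_add_distrib] using congrFun hv i
  have e1 : ∀ i, i ≠ k → v i = 0 := fun i hi => by simpa [hi] using e i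
  by_cases hi : i = k
  · have e2 := e k
    rw [if_pos rfl, Finset.sum_eq_single k (fun j _ hj => by rw [e1 j hj, mul_zero]) (by simp),
      fr0_w, if_pos rfl, div_self h.ne'] at e2
    have e3 : (√(H k k))⁻¹ * v k = 0 := by linarith
    exact hi ▸ (mul_eq_zero.1 e3).resolve_left (inv_ne_zero (Real.sqrt_pos.2 h).ne')
  · exact e1 i hi

theorem fr0_ent {k : Fin n} {H : Mn n} (h : 0 < H k k) (hs : ∀ a, H a k = H k a) (a b : Fin n) :
    ((fr0_E k H)ᵀ * H * fr0_E k H) a b =
      H a b - H a k * H k b / H k k + if a = k ∧ b = k then 1 else 0 := by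
  have e : ((fr0_E k H)ᵀ * H * fr0_E k H) a b = H a b + fr0_w k H a * H k b +
      (H a k + fr0_w k H a * H k k) * fr0_w k H b := by
    simp [fr0_E, Matrix.mul_apply, add_mul, mul_add, Finset.sum_add_distrib]
  obtain ⟨r, hr, hr'⟩ : ∃ r : ℝ, 0 < r ∧ H k k = r * r :=
    ⟨_, Real.sqrt_pos.2 h, (Real.mul_self_sqrt h.le).symm⟩
  rw [e, fr0_w, fr0_w, hs a, hr', Real.sqrt_mul_self hr.le]
  by_cases ha : a = k <;> by_cases hb : b = k <;> simp only [ha, hb, hr', if_true, if_false,
    and_self, and_true, and_false, hs] <;> field_simp <;> ring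

theorem fr0_ind (s : Finset (Fin n)) : ∃ Φ : Mn n → Mn n, (∀ G : Mn n, G.PosDef →
    ((Φ G)ᵀ * G * Φ G).PosDef ∧ (∀ a ∈ s, ∀ b, ((Φ G)ᵀ * G * Φ G) a b = (1 : Mn n) a b) ∧
    ∀ i j, ContDiffAt ℝ ∞ (fun M : Fin n → Fin n → ℝ => Φ (Matrix.of M) i j) (fun a b => G a b)) ∧
    Φ 1 = 1 := by
  induction s using Finset.induction_on with
  | empty => exact ⟨fun _ => 1, fun G hG => ⟨by simpa using hG, by simp, fun _ _ =>
      contDiffAt_const⟩, rfl⟩
  | insert k s hk ih =>
    obtain ⟨Φ, h, h1⟩ := ih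
    refine ⟨fun G => Φ G * fr0_E k ((Φ G)ᵀ * G * Φ G), fun G hG => ?_, ?_⟩
    · obtain ⟨p, q, c⟩ := h G hG
      have p0 : 0 < ((Φ G)ᵀ * G * Φ G) k k := p.diag_pos
      have e : ∀ E : Mn n, (Φ G * E)ᵀ * G * (Φ G * E) = Eᵀ * ((Φ G)ᵀ * G * Φ G) * E := fun E => by
        simp only [transpose_mul, Matrix.mul_assoc]
      rw [e]
      refine ⟨p.conjTranspose_mul_mul_same (fr0_inj p0), fun a ha b => ?_, fun i j => ?_⟩
      · rw [fr0_ent p0 fun a => p.1.apply k a]
        rcases Finset.mem_insert.1 ha with rfl | ha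
        · rw [mul_div_cancel_left₀ _ p0.ne', sub_self, zero_add, Matrix.one_apply]
          simp only [true_and, eq_comm]
        · have hak : a ≠ k := fun e => hk (e ▸ ha)
          simp [q a ha, hak]
      · have c2 : ∀ a b, ContDiffAt ℝ ∞ (fun M : Fin n → Fin n → ℝ =>
            ((Φ (Matrix.of M))ᵀ * Matrix.of M * Φ (Matrix.of M)) a b) fun a b => G a b :=
          fun a b => ContDiffAt.sum (s := Finset.univ) fun x _ =>
            (ContDiffAt.sum (s := Finset.univ) fun y _ => (c y a).mul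
            (contDiff_apply_apply ℝ ℝ y x).contDiffAt).mul (c x b)
        refine ContDiffAt.sum (s := Finset.univ) fun l _ => (c i l).mul ?_
        simp only [fr0_E, fr0_w, Matrix.of_apply]
        refine contDiffAt_const.add ?_
        have c3 := (c2 k j).div (c2 k k) p0.ne'
        split_ifs
        exacts [(((c2 k k).sqrt p0.ne').inv (Real.sqrt_pos.2 p0).ne').sub c3,
          contDiffAt_const.sub c3, contDiffAt_const]
    · ext i j
      simp [h1, fr0_E, fr0_w, Matrix.one_apply, eq_comm]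

/-- Define `v k = e k - ∑_{j<k} (G(e k, v j)/G(v j, v j)) v j` by strong recursion as a function of
the matrix entries, columns `v k / √G(v k, v k)`; `v k ≠ 0` because its `k`-th entry is `1`
(entries above `k` vanish). Smoothness by strong induction. (Any other construction is fine.) -/
theorem exists_frameFn (n : ℕ) : ∃ Φ : Mn n → Mn n, FrameFn Φ := by
  obtain ⟨Φ, h, h1⟩ := fr0_ind (Finset.univ : Finset (Fin n))
  exact ⟨Φ, fun G hG => Matrix.ext fun a => (h G hG).2.1 a (Finset.mem_univ a),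
    fun G hG => (h G hG).2.2, h1⟩

end Vale.Agent.P366
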