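import Vale.Agent.P366I.IpC

/-! Smoothing operators on the unit sphere: kernels. -/

noncomputable section

open Matrix MeasureTheory Set Filter Topology Asymptotics
open scoped ContDiff

namespace Vale.Agent.P366

variable {n : ℕ} {ι : Type} [Fintype ι] [DecidableEq ι]

/-- A radial kernel at scale `ε`. -/
def kerE (β : ℝ → ℝ) (ε : ℝ) (z : Euc n) : ℝ := (ε ^ n)⁻¹ * β (‖z‖ ^ 2 / ε ^ 2)

/-- Extension along rays. -/
def cone {α : Type} (φ : Euc n → α) (y : Euc n) : α := φ (‖y‖⁻¹ • y)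

/-- The smoothing operator. -/
def Jm (β : ℝ → ℝ) (ε : ℝ) (φ : Euc n → ι → ℝ) (x : Euc n) : ι → ℝ :=
  fun s => ∫ y, kerE β ε (x - y) * cone φ y s

/-- A continuous non-negative profile vanishing on `[1, ∞)`. -/
structure Prf (m : ℝ → ℝ) : Prop where
  cont : Continuous m
  nonneg : ∀ s, 0 ≤ m s
  zero : ∀ s, 1 ≤ s → m s = 0

/-- A normalised smooth profile. -/
structure Bp (n : ℕ) (β : ℝ → ℝ) : Prop where
  prf : Prf β
  sm : ContDiff ℝ ∞ β
  one : ∫ z : Euc n, β (‖z‖ ^ 2) = 1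

theorem fri0_supp {m : ℝ → ℝ} (hm : ∀ s, 1 ≤ s → m s = 0) :
    HasCompactSupport (fun z : Euc n => m (‖z‖ ^ 2)) := by
  refine HasCompactSupport.intro (isCompact_closedBall (0 : Euc n) 1) (fun z hz => ?_)
  apply hm
  have : 1 < ‖z‖ := by simpa using hz
  nlinarith

/-- A multiple of `expNegInvGlue (1 - s)`. -/
theorem exists_bp (n : ℕ) : ∃ β, Bp n β := by
  have hz : ∀ s : ℝ, 1 ≤ s → expNegInvGlue (1 - s) = 0 := fun s hs =>
    expNegInvGlue.zero_of_nonpos (by linarith)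
  have hsm : ContDiff ℝ ∞ (fun s : ℝ => expNegInvGlue (1 - s)) :=
    expNegInvGlue.contDiff.comp (contDiff_const.sub contDiff_id)
  have hc : Continuous (fun z : Euc n => expNegInvGlue (1 - ‖z‖ ^ 2)) :=
    hsm.continuous.comp (continuous_norm.pow 2)
  have hs : HasCompactSupport (fun z : Euc n => expNegInvGlue (1 - ‖z‖ ^ 2)) :=
    fri0_supp (m := fun s => expNegInvGlue (1 - s)) hz
  have hpos : 0 < ∫ z : Euc n, expNegInvGlue (1 - ‖z‖ ^ 2) := by
    refine hc.integral_pos_of_hasCompactSupport_nonneg_nonzero (x := 0) hs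
      (fun z => expNegInvGlue.nonneg _) ?_
    have : 0 < expNegInvGlue (1 - ‖(0 : Euc n)‖ ^ 2) := expNegInvGlue.pos_of_pos (by simp)
    exact this.ne'
  set I := ∫ z : Euc n, expNegInvGlue (1 - ‖z‖ ^ 2) with hI
  refine ⟨fun s => I⁻¹ * expNegInvGlue (1 - s), ⟨?_, ?_, ?_⟩, ?_, ?_⟩
  · exact continuous_const.mul hsm.continuous
  · exact fun s => mul_nonneg (inv_nonneg.2 hpos.le) (expNegInvGlue.nonneg _)
  · intro s hs
    simp [hz s hs]
  · exact contDiff_const.mul hsm
  · rw [integral_const_mul, ← hI, inv_mul_cancel₀ hpos.ne']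

theorem Bp.prf' {β : ℝ → ℝ} (h : Bp n β) : Prf (fun s => β s + |deriv β s|) := by
  have hd : Continuous (deriv β) := h.sm.continuous_deriv (by simp)
  refine ⟨h.prf.cont.add hd.abs, fun s => add_nonneg (h.prf.nonneg s) (abs_nonneg _), ?_⟩
  intro s hs
  have hmin : IsLocalMin β s := by
    refine Filter.Eventually.of_forall (fun y => ?_)
    rw [h.prf.zero s hs]
    exact h.prf.nonneg y
  rw [h.prf.zero s hs, hmin.deriv_eq_zero]
  simp

section
variable {m : ℝ → ℝ} (hm : Prf m) {ε : ℝ} (hε : 0 < ε)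
include hm hε

theorem kerE_nonneg (z : Euc n) : 0 ≤ kerE m ε z := by
  unfold kerE
  exact mul_nonneg (inv_nonneg.2 (pow_nonneg hε.le _)) (hm.nonneg _)

theorem kerE_zero {z : Euc n} (hz : ε ≤ ‖z‖) : kerE m ε z = 0 := by
  unfold kerE
  rw [hm.zero _ ((one_le_div (pow_pos hε 2)).2 (pow_le_pow_left₀ hε.le hz 2)), mul_zero]

theorem kerE_cont : Continuous (kerE m ε : Euc n → ℝ) := by
  have _ := hε
  unfold kerE
  exact continuous_const.mul (hm.cont.comp ((continuous_norm.pow 2).div_const _))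

theorem kerE_supp : HasCompactSupport (kerE m ε : Euc n → ℝ) := by
  refine HasCompactSupport.intro (isCompact_closedBall (0 : Euc n) ε) (fun z hz => ?_)
  apply kerE_zero hm hε
  have : ε < ‖z‖ := by simpa using hz
  exact this.le

/-- Translation and `Measure.integral_comp_smul`. -/
theorem kerE_int (x : Euc n) : ∫ y, kerE m ε (x - y) = ∫ z : Euc n, m (‖z‖ ^ 2) := by
  have _ := hm
  rw [integral_sub_left_eq_self (kerE m ε : Euc n → ℝ) volume x]
  have h1 := Measure.integral_comp_inv_smul (μ := (volume : Measure (Euc n)))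
    (fun z : Euc n => m (‖z‖ ^ 2)) ε
  have h2 : ∀ z : Euc n, kerE m ε z = (ε ^ n)⁻¹ * m (‖ε⁻¹ • z‖ ^ 2) := by
    intro z
    unfold kerE
    congr 2
    rw [norm_smul, Real.norm_eq_abs, abs_of_pos (inv_pos.2 hε)]
    field_simp
  simp_rw [h2]
  rw [integral_const_mul, h1]
  have hp : 0 < ε ^ n := pow_pos hε n
  simp only [finrank_euclideanSpace, Fintype.card_fin, smul_eq_mul, abs_of_pos hp]
  field_simp

end

theorem fri0_norm {y : Euc n} (hy : y ≠ 0) : ‖‖y‖⁻¹ • y‖ = 1 := by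
  rw [norm_smul, norm_inv, norm_norm, inv_mul_cancel₀ (norm_ne_zero_iff.2 hy)]

theorem fri0_bdd {u : Euc n → ℝ} (hu : CS 1 u) : ∃ C, ∀ y : Euc n, y ≠ 0 → ‖cone u y‖ ≤ C := by
  have hc : ContinuousOn u (Metric.sphere (0 : Euc n) 1) := fun x hx =>
    (hu x (by simpa using hx)).continuousWithinAt
  obtain ⟨C, hC⟩ := (isCompact_sphere (0 : Euc n) 1).exists_bound_of_continuousOn hc
  exact ⟨C, fun y hy => hC _ (by simpa using fri0_norm hy)⟩

theorem fri0_contOn {u : Euc n → ℝ} (hu : CS 1 u) : ContinuousOn (cone u) ({0}ᶜ : Set (Euc n)) := by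
  intro y hy
  have hy' : y ≠ 0 := hy
  have h1 : ContinuousAt (fun y : Euc n => ‖y‖⁻¹ • y) y :=
    (continuous_norm.continuousAt.inv₀ (norm_ne_zero_iff.2 hy')).smul continuousAt_id
  exact (ContinuousAt.comp (f := fun y : Euc n => ‖y‖⁻¹ • y) (hu _ (fri0_norm hy')) h1).continuousWithinAt

theorem fri0_ae (hn : 0 < n) : ∀ᵐ y : Euc n, y ≠ 0 := by
  have : Nonempty (Fin n) := ⟨⟨0, hn⟩⟩
  have : (volume : Measure (Euc n)) {0} = 0 := measure_singleton _
  exact compl_mem_ae_iff.2 this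

theorem fri0_meas (hn : 0 < n) {u : Euc n → ℝ} (hu : CS 1 u) :
    AEStronglyMeasurable (cone u) volume := by
  have h := (fri0_contOn hu).aestronglyMeasurable (μ := volume)
    (measurableSet_singleton (0 : Euc n)).compl
  have e : (volume : Measure (Euc n)).restrict ({0}ᶜ) = volume :=
    Measure.restrict_eq_self_of_ae_mem (fri0_ae hn)
  rwa [e] at h

/-- `cone u` is bounded and continuous off the origin; `κ` is continuous with compact support. -/
theorem ker_integrable (hn : 0 < n) {κ u : Euc n → ℝ} (hκ : Continuous κ)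
    (hc : HasCompactSupport κ) (hu : CS 1 u) (x : Euc n) :
    Integrable (fun y => κ (x - y) * cone u y) := by
  obtain ⟨C, hC⟩ := fri0_bdd hu
  have h1 : Integrable (fun y => κ (x - y)) (volume : Measure (Euc n)) :=
    (hκ.integrable_of_hasCompactSupport hc).comp_sub_left x
  refine h1.mul_bdd (c := C) (fri0_meas hn hu) ?_
  filter_upwards [fri0_ae hn] with y hy using hC y hy

theorem cone_locInt (hn : 0 < n) {u : Euc n → ℝ} (hu : CS 1 u) : LocallyIntegrable (cone u) := by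
  obtain ⟨C, hC⟩ := fri0_bdd hu
  refine (locallyIntegrable_const C).mono (fri0_meas hn hu) ?_
  filter_upwards [fri0_ae hn] with y hy using (hC y hy).trans (le_abs_self C)

theorem pd_kerE {β : ℝ → ℝ} (h : Bp n β) {ε : ℝ} (hε : 0 < ε) (k : Fin n) (z : Euc n) :
    pd (kerE β ε) k z = 2 * z k / ε ^ 2 * kerE (deriv β) ε z := by
  have _ := hε
  have h1 : HasFDerivAt (fun z : Euc n => ‖z‖ ^ 2 / ε ^ 2)
      ((ε ^ 2)⁻¹ • (2 • innerSL ℝ z)) z := by
    have := ((hasStrictFDerivAt_norm_sq z).hasFDerivAt).const_mul (ε ^ 2)⁻¹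
    simpa [div_eq_inv_mul] using this
  have h2 : HasDerivAt β (deriv β (‖z‖ ^ 2 / ε ^ 2)) (‖z‖ ^ 2 / ε ^ 2) :=
    (h.sm.differentiable (by simp) _).hasDerivAt
  have h3 := (h2.comp_hasFDerivAt z h1).const_mul (ε ^ n)⁻¹
  have h4 : HasFDerivAt (kerE β ε : Euc n → ℝ) _ z := h3
  unfold pd
  rw [h4.fderiv]
  simp [kerE, EuclideanSpace.inner_single_right]
  ring

theorem kerE_sm {β : ℝ → ℝ} (h : Bp n β) (ε : ℝ) : ContDiff ℝ ∞ (kerE β ε : Euc n → ℝ) := by
  unfold kerE
  exact contDiff_const.mul (h.sm.comp ((contDiff_norm_sq ℝ).div_const _))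

end Vale.Agent.P366
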