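import Vale.Agent.P366I.Fri0

/-! Symmetry of the smoothing kernel and the Schur test. -/

noncomputable section

open Matrix MeasureTheory Set Filter Topology Asymptotics
open scoped ContDiff

namespace Vale.Agent.P366

variable {n : ℕ} {ι : Type} [Fintype ι] [DecidableEq ι]

theorem fri1_fin (n : ℕ) : IsFiniteMeasure (sph n) :=
  inferInstanceAs (IsFiniteMeasure (volume : Measure (Euc n)).toSphere)

theorem fri1_cont {u : Euc n → ℝ} (hu : CS 1 u) :
    Continuous fun θ : Metric.sphere (0 : Euc n) 1 => u θ :=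
  continuous_iff_continuousAt.2 fun θ =>
    (hu θ (norm_eq_of_mem_sphere θ)).comp continuous_subtype_val.continuousAt

theorem fri1_int {u : Euc n → ℝ} (hu : CS 1 u) :
    Integrable (fun θ : Metric.sphere (0 : Euc n) 1 => u θ) (sph n) := by
  simpa using hu.integrable one_pos

theorem fri1_symm (θ η : Metric.sphere (0 : Euc n) 1) (σ : ℝ) :
    ‖(θ : Euc n) - σ • (η : Euc n)‖ ^ 2 = ‖(η : Euc n) - σ • (θ : Euc n)‖ ^ 2 := by
  rw [norm_sub_sq_real, norm_sub_sq_real, norm_smul, norm_smul, inner_smul_right,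
    inner_smul_right, norm_eq_of_mem_sphere, norm_eq_of_mem_sphere, real_inner_comm]

section
variable (hn : 0 < n) {m : ℝ → ℝ} (hm : Prf m) {ε : ℝ} (hε : 0 < ε) {u v : Euc n → ℝ}
  (hu : CS 1 u)
include hn hm hε hu

theorem ker_cont : Continuous (fun x : Euc n => ∫ y, kerE m ε (x - y) * cone u y) :=
  (kerE_supp hm hε).continuous_convolution_right (ContinuousLinearMap.mul ℝ ℝ).flip
    (cone_locInt hn hu) (kerE_cont hm hε)

theorem fri1_rep (hv : CS 1 v) :
    ∫ θ, (∫ y, kerE m ε ((θ : Euc n) - y) * cone u y) * v (θ : Euc n) ∂(sph n)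
      = ∫ σ in Ioi (0 : ℝ), ∫ θ, ∫ η, σ ^ (n - 1) * (kerE m ε ((θ : Euc n) - σ • (η : Euc n)) *
        u (η : Euc n)) * v (θ : Euc n) ∂(sph n) ∂(sph n) := by
  have := fri1_fin n
  have hc : Continuous fun p : (Metric.sphere (0 : Euc n) 1 × ℝ) × Metric.sphere (0 : Euc n) 1 =>
      p.1.2 ^ (n - 1) * (kerE m ε ((p.1.1 : Euc n) - p.1.2 • (p.2 : Euc n)) * u (p.2 : Euc n)) *
        v (p.1.1 : Euc n) :=
    (((continuous_snd.comp continuous_fst).pow _).mul (((kerE_cont hm hε).comp (by fun_prop)).mul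
      ((fri1_cont hu).comp continuous_snd))).mul
      ((fri1_cont hv).comp (continuous_fst.comp continuous_fst))
  have hi := (hc.integrable_of_hasCompactSupport
    (μ := ((sph n).prod (volume.restrict (Ioi (0 : ℝ)))).prod (sph n))
    (HasCompactSupport.intro (((isCompact_univ.prod
      (isCompact_closedBall (0 : ℝ) (1 + ε))).prod isCompact_univ)) fun p hp => by
        have h1 : 1 + ε < ‖p.1.2‖ := by simpa using hp
        have h2 := norm_sub_norm_le (p.1.2 • (p.2 : Euc n)) (p.1.1 : Euc n)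
        rw [norm_smul, norm_eq_of_mem_sphere, norm_eq_of_mem_sphere, norm_sub_rev] at h2
        rw [kerE_zero hm hε (by linarith), zero_mul, mul_zero, zero_mul])).integral_prod_left
  rw [← integral_integral_swap hi]
  refine integral_congr_ae (.of_forall fun θ => ?_)
  simp only
  rw [(polar hn (ker_integrable hn (kerE_cont hm hε) (kerE_supp hm hε) hu θ)).2,
    ← integral_mul_const]
  refine setIntegral_congr_fun measurableSet_Ioi fun σ hσ => ?_
  simp only [sInt]
  rw [integral_mul_const, integral_const_mul]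
  congr 2
  refine integral_congr_ae (.of_forall fun η => ?_)
  simp only [cone]
  rw [norm_smul_sph hσ (norm_eq_of_mem_sphere η), inv_smul_smul₀ (ne_of_gt hσ)]

/-- `polar`: the inner integral is `∫ σ, σ^(n-1) ∫ θ', kerE (θ - σ θ') u θ'`; Fubini and
`‖θ - σ θ'‖ = ‖θ' - σ θ‖` for unit vectors. -/
theorem ker_symm (hv : CS 1 v) :
    ∫ θ, (∫ y, kerE m ε ((θ : Euc n) - y) * cone u y) * v (θ : Euc n) ∂(sph n)
      = ∫ θ, u (θ : Euc n) * (∫ y, kerE m ε ((θ : Euc n) - y) * cone v y) ∂(sph n) := by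
  have := fri1_fin n
  simp only [mul_comm (u _)]
  rw [fri1_rep hn hm hε hu hv, fri1_rep hn hm hε hv hu]
  refine integral_congr_ae (.of_forall fun σ => ?_)
  simp only
  rw [integral_integral_swap]
  · refine integral_congr_ae (.of_forall fun θ => integral_congr_ae (.of_forall fun η => ?_))
    simp only [kerE, fri1_symm η θ]
    ring
  · refine Continuous.integrable_of_hasCompactSupport ?_ (HasCompactSupport.of_compactSpace _)
    exact (continuous_const.mul (((kerE_cont hm hε).comp (by fun_prop)).mul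
      ((fri1_cont hu).comp continuous_snd))).mul ((fri1_cont hv).comp continuous_fst)

theorem fri1_cs (x : Euc n) : (∫ y, kerE m ε (x - y) * cone u y) ^ 2 ≤
    (∫ z : Euc n, m (‖z‖ ^ 2)) * ∫ y, kerE m ε (x - y) * cone (fun z => u z ^ 2) y := by
  have k := fun (w : Euc n → ℝ) (hw : CS 1 w) =>
    ker_integrable hn (kerE_cont hm hε) (kerE_supp hm hε) hw x
  have k0 : Integrable fun y => kerE m ε (x - y) := by
    simpa [cone] using k (fun _ => 1) fun _ _ => continuousAt_const
  have k1 := k u hu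
  have k2 := k (fun z => u z ^ 2) fun z hz => (hu z hz).pow 2
  have h := discrim_le_zero (a := ∫ y, kerE m ε (x - y))
    (b := -2 * ∫ y, kerE m ε (x - y) * cone u y)
    (c := ∫ y, kerE m ε (x - y) * cone (fun z => u z ^ 2) y) fun t => by
      rw [← integral_mul_const, mul_right_comm, ← integral_const_mul,
        ← integral_add (k0.mul_const _) (k1.const_mul _),
        ← integral_add ((k0.mul_const _).fun_add (k1.const_mul _)) k2]
      refine integral_nonneg fun y => ?_
      have := mul_nonneg (kerE_nonneg hm hε (x - y)) (sq_nonneg (t - cone u y))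
      simp only [cone, Pi.zero_apply] at this ⊢
      linarith
  rw [discrim, kerE_int hm hε] at h
  linarith

/-- Cauchy-Schwarz: `(∫ k u)^2 ≤ (∫ k) ∫ k u^2`; then `ker_symm` for `u^2` and `1`, `kerE_int`. -/
theorem ker_schur : ∫ θ, (∫ y, kerE m ε ((θ : Euc n) - y) * cone u y) ^ 2 ∂(sph n)
    ≤ (∫ z : Euc n, m (‖z‖ ^ 2)) ^ 2 * ∫ θ, u (θ : Euc n) ^ 2 ∂(sph n) := by
  have h2 : CS 1 fun z => u z ^ 2 := fun z hz => (hu z hz).pow 2
  have h := ker_symm hn hm hε h2 (v := fun _ => 1) fun _ _ => continuousAt_const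
  simp only [cone, mul_one, kerE_int hm hε, integral_mul_const] at h
  refine (integral_mono (fri1_int fun z _ => ((ker_cont hn hm hε hu).pow 2).continuousAt)
    ((fri1_int fun z _ => (ker_cont hn hm hε h2).continuousAt).const_mul _)
    fun θ => fri1_cs hn hm hε hu θ).trans (le_of_eq ?_)
  simp only [cone]
  rw [integral_const_mul, h]
  ring

end

theorem ker_bound (hn : 0 < n) {m : ℝ → ℝ} (hm : Prf m) : ∃ C, 0 < C ∧
    ∀ (ε c : ℝ) (φ v : Euc n → ι → ℝ), 0 < ε → 0 ≤ c → Sm φ → Sm v →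
      (∀ θ, ‖θ‖ = 1 → ∀ s, |v θ s| ≤ c * ∫ y, kerE m ε (θ - y) * cone (fun z => ∑ p, |φ z p|) y) →
      nm v ≤ C * c * nm φ := by
  have hI : 0 ≤ ∫ z : Euc n, m (‖z‖ ^ 2) := integral_nonneg fun z => hm.nonneg _
  refine ⟨Fintype.card ι * (∫ z : Euc n, m (‖z‖ ^ 2)) + 1, by positivity,
    fun ε c φ v hε hc hφ hv h => ?_⟩
  have hu : CS 1 fun z => ∑ p, |φ z p| := fun z hz =>
    tendsto_finsetSum _ fun p _ => (hφ z hz p).continuousAt.abs
  have h1 := ker_schur hn hm hε hu
  have h2 : ∫ θ, (∑ p, |φ (θ : Euc n) p|) ^ 2 ∂(sph n) ≤ Fintype.card ι * nm φ ^ 2 := by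
    rw [nm_sq, ip, ← integral_const_mul]
    refine integral_mono (fri1_int fun z hz => (hu z hz).pow 2)
      ((fri1_int (hφ.cs_dot hφ)).const_mul _) fun θ => ?_
    simpa only [sq_abs, dotProduct, Finset.card_univ, ← sq] using
      sq_sum_le_card_mul_sum_sq (s := Finset.univ) (f := fun p => |φ (θ : Euc n) p|)
  have h3 : nm v ^ 2 ≤ Fintype.card ι * c ^ 2 * ∫ θ, (∫ y, kerE m ε ((θ : Euc n) - y) *
      cone (fun z => ∑ p, |φ z p|) y) ^ 2 ∂(sph n) := by
    rw [nm_sq, ip, ← integral_const_mul]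
    refine integral_mono (fri1_int (hv.cs_dot hv))
      ((fri1_int fun z _ => ((ker_cont hn hm hε hu).pow 2).continuousAt).const_mul _) fun θ => ?_
    simp only [dotProduct]
    rw [mul_assoc, ← mul_pow, ← nsmul_eq_mul]
    refine Finset.sum_le_card_nsmul _ _ _ fun s _ => ?_
    rw [← sq, ← sq_abs]
    exact pow_le_pow_left₀ (abs_nonneg _) (h θ (norm_eq_of_mem_sphere θ) s) 2
  have h4 : nm v ^ 2 ≤ (Fintype.card ι * (∫ z : Euc n, m (‖z‖ ^ 2)) * c * nm φ) ^ 2 :=
    (h3.trans (mul_le_mul_of_nonneg_left (h1.trans (mul_le_mul_of_nonneg_left h2 (sq_nonneg _)))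
      (by positivity))).trans (le_of_eq (by ring))
  have h5 : 0 ≤ nm φ := nm_nonneg
  refine ((pow_le_pow_iff_left₀ nm_nonneg (by positivity) two_ne_zero).1 h4).trans ?_
  gcongr
  exact le_add_of_nonneg_right zero_le_one

end Vale.Agent.P366
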