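import Vale.Agent.P366I.Fri1

/-! Smoothness, symmetry and convergence of the smoothing operators. -/

noncomputable section

open Matrix MeasureTheory Set Filter Topology Asymptotics
open scoped ContDiff

namespace Vale.Agent.P366

variable {n : ℕ} {ι : Type} [Fintype ι] [DecidableEq ι]

omit [Fintype ι] [DecidableEq ι] in
theorem fri2_cs {φ : Euc n → ι → ℝ} (hφ : Sm φ) (s : ι) : CS 1 fun z => φ z s :=
  fun x hx => (hφ x hx s).continuousAt

omit [Fintype ι] [DecidableEq ι] in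
theorem fri2_cone {φ : Euc n → ι → ℝ} (hφ : Sm φ) (s : ι) {x : Euc n} (hx : x ≠ 0) :
    ContDiffAt ℝ ∞ (fun y => cone φ y s) x := by
  have h0 : 0 < ‖x‖ := norm_pos_iff.2 hx
  have h1 : ContDiffAt ℝ ∞ (fun y : Euc n => ‖y‖⁻¹ • y) x :=
    ((contDiffAt_norm ℝ hx).inv h0.ne').smul contDiffAt_id
  have h2 : ‖‖x‖⁻¹ • x‖ = 1 := by
    rw [norm_smul, norm_inv, norm_norm, inv_mul_cancel₀ h0.ne']
  exact ContDiffAt.comp (g := fun y => φ y s) x (hφ _ h2 s) h1

omit [Fintype ι] [DecidableEq ι] in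
theorem fri2_eq (β : ℝ → ℝ) (ε : ℝ) (φ : Euc n → ι → ℝ) (s : ι) :
    (fun x => Jm β ε φ x s) = convolution (cone fun z => φ z s) (kerE β ε)
      (ContinuousLinearMap.mul ℝ ℝ) volume := by
  funext x
  rw [convolution_mul]
  exact integral_congr_ae (ae_of_all _ fun y => mul_comm _ _)

theorem fri2_ne {θ y : Euc n} {ε : ℝ} (hθ : ‖θ‖ = 1) (hε : ε < 1 / 2)
    (hy : y ∈ Metric.closedBall θ ε) : 1 / 2 ≤ ‖y‖ ∧ ‖y‖ ≤ 2 := by
  rw [Metric.mem_closedBall, dist_eq_norm] at hy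
  have h1 := norm_sub_norm_le y θ
  have h2 := norm_sub_norm_le θ y
  rw [norm_sub_rev θ y] at h2
  constructor <;> linarith

theorem fri2_int {m : ℝ → ℝ} (hm : Prf m) {ε : ℝ} (h0 : 0 < ε) (hε : ε < 1 / 2) {w : Euc n → ℝ}
    (hw : ∀ y, y ≠ 0 → ContinuousAt w y) {θ : Euc n} (hθ : ‖θ‖ = 1) :
    Integrable fun y => kerE m ε (θ - y) * w y := by
  have hc : Continuous fun y : Euc n => kerE m ε (θ - y) :=
    (kerE_cont hm h0).comp (continuous_const.sub continuous_id)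
  refine IntegrableOn.integrable_of_forall_notMem_eq_zero (s := Metric.closedBall θ ε)
    (ContinuousOn.integrableOn_compact (isCompact_closedBall θ ε) fun y hy =>
      (hc.continuousAt.mul (hw y ?_)).continuousWithinAt) fun y hy => ?_
  · rintro rfl
    have := (fri2_ne hθ hε hy).1
    rw [norm_zero] at this
    linarith
  · rw [Metric.mem_closedBall, dist_comm, dist_eq_norm, not_le] at hy
    rw [kerE_zero hm h0 hy.le, zero_mul]

theorem fri2_app {β : ℝ → ℝ} (hβ : Bp n β) {w : Euc n → ℝ} (hw : ∀ y, y ≠ 0 → ContinuousAt w y)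
    {δ : ℝ} (hδ : 0 < δ) : ∀ᶠ ε in 𝓝[>] (0 : ℝ), ∀ θ : Euc n, ‖θ‖ = 1 →
      |(∫ y, kerE β ε (θ - y) * w y) - w θ| ≤ δ := by
  have hK : IsCompact (Metric.closedBall (0 : Euc n) 2 \ Metric.ball 0 (1 / 2)) :=
    (isCompact_closedBall 0 2).diff Metric.isOpen_ball
  have hmem : ∀ y : Euc n, 1 / 2 ≤ ‖y‖ ∧ ‖y‖ ≤ 2 →
      y ∈ Metric.closedBall (0 : Euc n) 2 \ Metric.ball 0 (1 / 2) := fun y hy =>
    ⟨mem_closedBall_zero_iff.2 hy.2, fun h => absurd (mem_ball_zero_iff.1 h) (not_lt.2 hy.1)⟩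
  have hu := hK.uniformContinuousOn_of_continuous (f := w) fun y hy =>
    (hw y fun h => hy.2 (by rw [h]; simp)).continuousWithinAt
  obtain ⟨r, hr, h⟩ := Metric.uniformContinuousOn_iff.1 hu δ hδ
  filter_upwards [Ioo_mem_nhdsGT (lt_min hr (by norm_num : (0 : ℝ) < 1 / 2))] with ε hε θ hθ
  have h0 := hε.1
  have h1 := hε.2.trans_le (min_le_left _ _)
  have h2 := hε.2.trans_le (min_le_right _ _)
  have e1 : ∫ y, kerE β ε (θ - y) = 1 := (kerE_int hβ.prf h0 θ).trans hβ.one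
  have i1 := fri2_int hβ.prf h0 h2 hw hθ
  have i2 : ∀ c : ℝ, Integrable fun y => kerE β ε (θ - y) * c := fun c =>
    fri2_int hβ.prf h0 h2 (w := fun _ => c) (fun _ _ => continuousAt_const) hθ
  have e2 : (∫ y, kerE β ε (θ - y) * w y) - w θ =
      ∫ y, (kerE β ε (θ - y) * w y - kerE β ε (θ - y) * w θ) := by
    rw [integral_sub i1 (i2 _), integral_mul_const, e1, one_mul]
  have e3 : δ = ∫ y, kerE β ε (θ - y) * δ := by rw [integral_mul_const, e1, one_mul]
  rw [e2, e3, ← Real.norm_eq_abs]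
  refine norm_integral_le_of_norm_le (i2 δ) (ae_of_all _ fun y => ?_)
  rw [← mul_sub, norm_mul, Real.norm_of_nonneg (kerE_nonneg hβ.prf h0 _)]
  rcases le_or_gt ε ‖θ - y‖ with hy | hy
  · rw [kerE_zero hβ.prf h0 hy, zero_mul, zero_mul]
  · have hd : dist y θ < ε := by rwa [dist_comm, dist_eq_norm]
    refine mul_le_mul_of_nonneg_left ?_ (kerE_nonneg hβ.prf h0 _)
    rw [← dist_eq_norm]
    exact (h y (hmem y (fri2_ne hθ h2 hd.le)) θ
      (hmem θ (fri2_ne hθ h2 (Metric.mem_closedBall_self h0.le))) (hd.trans h1)).le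

section
variable (hn : 0 < n) {β : ℝ → ℝ} (hβ : Bp n β) {φ χ : Euc n → ι → ℝ} (hφ : Sm φ)
include hn hβ hφ

/-- `HasCompactSupport.contDiff_convolution_left`, `cone_locInt`. -/
theorem Jm_sm {ε : ℝ} (hε : 0 < ε) : Sm (Jm β ε φ) := by

  intro θ _ s
  rw [fri2_eq]
  exact ((kerE_supp hβ.prf hε).contDiff_convolution_right _ (cone_locInt hn (fri2_cs hφ s))
    (kerE_sm hβ ε)).contDiffAt

/-- `HasCompactSupport.hasFDerivAt_convolution_left`. -/
theorem Jm_pd {ε : ℝ} (hε : 0 < ε) (k : Fin n) (x : Euc n) (s : ι) :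
    pdV (Jm β ε φ) k x s = ∫ y, pd (kerE β ε) k (x - y) * cone φ y s := by

  have h1 : ContDiff ℝ 1 (kerE β ε : Euc n → ℝ) := (kerE_sm hβ ε).of_le (by simp)
  have hl := cone_locInt hn (fri2_cs hφ s)
  have h := ((kerE_supp hβ.prf hε).hasFDerivAt_convolution_right (ContinuousLinearMap.mul ℝ ℝ)
    hl h1 x).fderiv
  rw [pdV, fri2_eq, pd, h, convolution_precompR_apply _ hl ((kerE_supp hβ.prf hε).fderiv ℝ)
    (h1.continuous_fderiv one_ne_zero), convolution_mul]
  exact integral_congr_ae (ae_of_all _ fun y => mul_comm _ _)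

theorem Jm_sub {ε : ℝ} (hε : 0 < ε) (hχ : Sm χ) : Jm β ε (φ - χ) = Jm β ε φ - Jm β ε χ := by

  funext x s
  have i1 := ker_integrable hn (kerE_cont hβ.prf hε) (kerE_supp hβ.prf hε) (fri2_cs hφ s) x
  have i2 := ker_integrable hn (kerE_cont hβ.prf hε) (kerE_supp hβ.prf hε) (fri2_cs hχ s) x
  refine Eq.trans ?_ (integral_sub i1 i2)
  exact integral_congr_ae (ae_of_all _ fun y => mul_sub _ _ _)

theorem Jm_symm {ε : ℝ} (hε : 0 < ε) (hχ : Sm χ) : ip (Jm β ε φ) χ = ip φ (Jm β ε χ) := by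

  have hi : ∀ {a b : Euc n → ι → ℝ}, Sm a → Sm b → ∀ s,
      Integrable (fun θ : Metric.sphere (0 : Euc n) 1 => a θ s * b θ s) (sph n) := by
    intro a b ha hb s
    have hc : CS 1 fun z => a z s * b z s := fun x hx =>
      (fri2_cs ha s x hx).mul (fri2_cs hb s x hx)
    simpa using hc.integrable one_pos
  unfold ip dotProduct
  rw [integral_finsetSum _ fun s _ => hi (Jm_sm hn hβ hφ hε) hχ s,
    integral_finsetSum _ fun s _ => hi hφ (Jm_sm hn hβ hχ hε) s]
  exact Finset.sum_congr rfl fun s _ => ker_symm hn hβ.prf hε (fri2_cs hφ s) (fri2_cs hχ s)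

/-- Uniform continuity of `cone φ` on the shell `1/2 ≤ ‖y‖ ≤ 3/2`, `kerE_int`. -/
theorem Jm_conv {δ : ℝ} (hδ : 0 < δ) : ∀ᶠ ε in 𝓝[>] (0 : ℝ), ∀ θ : Euc n, ‖θ‖ = 1 → ∀ s,
    |Jm β ε φ θ s - φ θ s| ≤ δ := by

  have h := eventually_all.2 fun s => fri2_app hβ (w := fun y => cone φ y s)
    (fun y hy => (fri2_cone hφ s hy).continuousAt) hδ
  filter_upwards [h] with ε hε θ hθ s
  have h1 := hε s θ hθ
  have e : cone φ θ = φ θ := by rw [cone, hθ, inv_one, one_smul]
  rwa [e] at h1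

/-- For `ε < 1/2` integrate by parts (`int_pd_zero` style, the product
`y ↦ kerE (θ - y) * cone φ y s` is smooth with compact support):
`pdV (Jm φ) k θ s = ∫ kerE (θ - y) * pd (cone φ · s) k y`, and argue as before. -/
theorem Jm_conv1 {δ : ℝ} (hδ : 0 < δ) : ∀ᶠ ε in 𝓝[>] (0 : ℝ), ∀ θ : Euc n, ‖θ‖ = 1 → ∀ k s,
    |pdV (Jm β ε φ) k θ s - pdV (cone φ) k θ s| ≤ δ := by

  have hw : ∀ (p : Fin n × ι) (y : Euc n), y ≠ 0 →
      ContinuousAt (pd (fun y => cone φ y p.2) p.1) y :=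
    fun p y hy => (contDiffAt_pd (fri2_cone hφ p.2 hy) p.1).continuousAt
  have h := eventually_all.2 fun p : Fin n × ι => fri2_app hβ (hw p) hδ
  filter_upwards [h, Ioo_mem_nhdsGT (by norm_num : (0 : ℝ) < 1 / 2)] with ε hε h0 θ hθ k s
  have h1 : ContDiff ℝ 1 (kerE β ε : Euc n → ℝ) := (kerE_sm hβ ε).of_le (by simp)
  have hd : ∀ y : Euc n, HasFDerivAt (fun y => kerE β ε (θ - y)) (-fderiv ℝ (kerE β ε) (θ - y)) y := by
    intro y
    have := ((h1.differentiable one_ne_zero) (θ - y)).hasFDerivAt.comp y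
      ((hasFDerivAt_id y).const_sub θ)
    rw [ContinuousLinearMap.comp_neg, ContinuousLinearMap.comp_id] at this
    exact this
  have i1 := ker_integrable hn (κ := fun z => fderiv ℝ (kerE β ε) z (EuclideanSpace.single k 1))
    ((h1.continuous_fderiv one_ne_zero).clm_apply continuous_const)
    ((kerE_supp hβ.prf h0.1).fderiv_apply ℝ _) (fri2_cs hφ s) θ
  have key := integral_mul_fderiv_eq_neg_fderiv_mul_of_integrable (μ := volume)
    (f := fun y => kerE β ε (θ - y)) (g := fun y => cone φ y s) (v := EuclideanSpace.single k 1)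
    (by
      refine i1.neg.congr (ae_of_all _ fun y => ?_)
      simp only [(hd y).fderiv, Pi.neg_apply, _root_.neg_apply, neg_mul]
      rfl)
    (fri2_int hβ.prf h0.1 h0.2 (hw (k, s)) hθ)
    (ker_integrable hn (kerE_cont hβ.prf h0.1) (kerE_supp hβ.prf h0.1) (fri2_cs hφ s) θ)
    (fun y _ => (hd y).differentiableAt)
    (fun y hy => by
      have hs : tsupport (fun y => kerE β ε (θ - y)) ⊆ Metric.closedBall θ ε := by
        refine closure_minimal (fun z hz => ?_) Metric.isClosed_closedBall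
        by_contra hc
        rw [Metric.mem_closedBall, dist_comm, dist_eq_norm, not_le] at hc
        exact hz (kerE_zero hβ.prf h0.1 hc.le)
      have h2 := (fri2_ne hθ h0.2 (hs hy)).1
      refine (fri2_cone hφ s ?_).differentiableAt (by simp)
      rintro rfl
      rw [norm_zero] at h2
      linarith)
  simp only [(hd _).fderiv, _root_.neg_apply, neg_mul, integral_neg, neg_neg] at key
  have e : pdV (Jm β ε φ) k θ s = ∫ y, kerE β ε (θ - y) * pd (fun y => cone φ y s) k y :=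
    (Jm_pd hn hβ hφ h0.1 k θ s).trans key.symm
  rw [e]
  exact hε (k, s) θ hθ

omit hn hβ in
theorem cone_sm : Sm (cone φ) := by

  intro θ hθ s
  refine fri2_cone hφ s ?_
  rintro rfl
  simp at hθ

end

end Vale.Agent.P366
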