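import Vale.Agent.P366I.Fri2

/-! The commutator estimate. -/

noncomputable section

open Matrix MeasureTheory Set Filter Topology Asymptotics
open scoped ContDiff

namespace Vale.Agent.P366

variable {n : ℕ} {ι : Type} [Fintype ι] [DecidableEq ι]

omit [DecidableEq ι] in
theorem fri3_mv {M : Ms ι} {c : ℝ} (h : ∀ p q, |M p q| ≤ c) (v : ι → ℝ) (s : ι) :
    |(M *ᵥ v) s| ≤ c * ∑ p, |v p| := by
  rw [Finset.mul_sum]
  refine (Finset.abs_sum_le_sum_abs _ _).trans (Finset.sum_le_sum fun p _ => ?_)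
  rw [abs_mul]
  exact mul_le_mul_of_nonneg_right (h s p) (abs_nonneg _)

omit [DecidableEq ι] in
theorem fri3_cs {φ : Euc n → ι → ℝ} (hφ : Sm φ) : CS 1 (fun z => ∑ p, |φ z p|) := fun θ hθ =>
  tendsto_finsetSum _ fun p _ => (hφ θ hθ p).continuousAt.abs

omit [DecidableEq ι] in
theorem fri3_cs2 {φ : Euc n → ι → ℝ} (hφ : Sm φ) {M : Euc n → Ms ι} (hM : SmM M) (s : ι) :
    CS 1 (fun z => (M z *ᵥ φ z) s) := fun θ hθ =>
  tendsto_finsetSum _ fun p _ => (hM θ hθ s p).continuousAt.mul (hφ θ hθ p).continuousAt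

theorem fri3_unit {y : Euc n} (hy : y ≠ 0) : ‖‖y‖⁻¹ • y‖ = 1 := by
  rw [norm_smul, norm_inv, norm_norm, inv_mul_cancel₀ (norm_ne_zero_iff.2 hy)]

theorem fri3_cone {α : Type} (φ : Euc n → α) {σ : ℝ} (hσ : 0 < σ) {θ : Euc n} (hθ : ‖θ‖ = 1) :
    cone φ (σ • θ) = φ θ := by
  rw [cone, norm_smul_sph hσ hθ, inv_smul_smul₀ hσ.ne']

section
variable {β : ℝ → ℝ} (hβ : Bp n β) {ε : ℝ} (hε : 0 < ε)
include hβ hε

theorem fri3_pt (z : Euc n) (v : ι → ℝ) (s : ι) {A : Fin n → Ms ι} {B : Ms ι} {c₁ c₂ : ℝ}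
    (h : ‖z‖ < ε → (∀ k p q, |A k p q| ≤ c₁ * ε) ∧ ∀ p q, |B p q| ≤ c₂) :
    |∑ k, pd (kerE β ε) k z * (A k *ᵥ v) s + kerE β ε z * (B *ᵥ v) s| ≤
      (2 * n * c₁ + c₂) * (kerE (fun s => β s + |deriv β s|) ε z * ∑ p, |v p|) := by
  have h0 := kerE_nonneg hβ.prf hε z
  have e : kerE (fun s => β s + |deriv β s|) ε z = kerE β ε z + |kerE (deriv β) ε z| := by
    simp only [kerE, abs_mul, abs_of_pos (inv_pos.2 (pow_pos hε n)), mul_add]
  rcases lt_or_ge ‖z‖ ε with hz | hz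
  · obtain ⟨h1, h2⟩ := h hz
    have hK := kerE_nonneg hβ.prf' hε z
    have a1 : ∀ k, |pd (kerE β ε) k z * (A k *ᵥ v) s| ≤
        2 * c₁ * (kerE (fun s => β s + |deriv β s|) ε z * ∑ p, |v p|) := fun k => by
      have b1 : |pd (kerE β ε) k z| ≤ 2 / ε * kerE (fun s => β s + |deriv β s|) ε z := by
        rw [pd_kerE hβ hε, abs_mul]
        refine mul_le_mul ?_ (by linarith) (abs_nonneg _) (by positivity)
        rw [abs_div, abs_mul, abs_two, abs_of_pos (pow_pos hε 2), div_le_div_iff₀ (by positivity) hε]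
        have : |z k| ≤ ‖z‖ := PiLp.norm_apply_le z k
        nlinarith
      rw [abs_mul]
      refine (mul_le_mul b1 (fri3_mv (h1 k) v s) (abs_nonneg _) (by positivity)).trans_eq ?_
      field_simp
    have a2 : |kerE β ε z * (B *ᵥ v) s| ≤
        c₂ * (kerE (fun s => β s + |deriv β s|) ε z * ∑ p, |v p|) := by
      rw [abs_mul, abs_of_nonneg h0, mul_left_comm]
      exact mul_le_mul (by linarith [abs_nonneg (kerE (deriv β) ε z)]) (fri3_mv h2 v s)
        (abs_nonneg _) hK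
    have a3 := (Finset.abs_sum_le_sum_abs _ _).trans
      (Finset.sum_le_sum fun k (_ : k ∈ Finset.univ) => a1 k)
    rw [Finset.sum_const, Finset.card_univ, Fintype.card_fin, nsmul_eq_mul] at a3
    refine (abs_add_le _ _).trans ?_
    linarith
  · have z1 := kerE_zero hβ.prf hε hz
    have z2 := kerE_zero hβ.prf' hε hz
    have z3 : kerE (deriv β) ε z = 0 := by
      rw [z1, z2, zero_add] at e
      exact abs_eq_zero.1 e.symm
    simp [pd_kerE hβ hε, z1, z2, z3]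

omit hε in
theorem fri3_pc (k : Fin n) : Continuous (pd (kerE β ε) k) :=
  continuous_iff_continuousAt.2 fun _ => (contDiffAt_pd (kerE_sm hβ ε).contDiffAt k).continuousAt

theorem fri3_ps (k : Fin n) : HasCompactSupport (pd (kerE β ε) k) :=
  (kerE_supp hβ.prf hε).fderiv_apply ℝ _

theorem fri3_le (hn : 0 < n) {φ : Euc n → ι → ℝ} (hφ : Sm φ) {m : ℝ → ℝ} (hm : Prf m)
    (θ : Euc n) {F : Euc n → ℝ} {c : ℝ}
    (h : ∀ y, |F y| ≤ c * (kerE m ε (θ - y) * ∑ p, |cone φ y p|)) :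
    |∫ y, F y| ≤ c * ∫ y, kerE m ε (θ - y) * cone (fun z => ∑ p, |φ z p|) y := by
  rw [← integral_const_mul]
  exact norm_integral_le_of_norm_le (f := F) ((ker_integrable hn (kerE_cont hm hε)
    (kerE_supp hm hε) (fri3_cs hφ) θ).const_mul c) (Eventually.of_forall h)

theorem fri3_mvi (hn : 0 < n) {φ : Euc n → ι → ℝ} (hφ : Sm φ) {κ : Euc n → ℝ} (hκ : Continuous κ)
    (hc : HasCompactSupport κ) (M : Ms ι) (x : Euc n) (s : ι) :
    Integrable (fun y => κ (x - y) * (M *ᵥ cone φ y) s) ∧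
    (M *ᵥ fun p => ∫ y, κ (x - y) * cone φ y p) s = ∫ y, κ (x - y) * (M *ᵥ cone φ y) s := by
  refine ⟨ker_integrable hn hκ hc
    (fri3_cs2 hφ (M := fun _ => M) (fun _ _ _ _ => contDiffAt_const) s) x, ?_⟩
  have h : ∀ p, Integrable fun y => M s p * (κ (x - y) * cone φ y p) := fun p =>
    (ker_integrable hn hκ hc (u := fun z => φ z p)
      (fun θ hθ => (hφ θ hθ p).continuousAt) x).const_mul (M s p)
  simp only [mulVec, dotProduct, Finset.mul_sum, ← integral_const_mul]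
  rw [← integral_finsetSum _ fun p _ => h p]
  exact integral_congr_ae (Eventually.of_forall fun y =>
    Finset.sum_congr rfl fun p _ => mul_left_comm _ _ _)

theorem fri3_rep (hn : 0 < n) {φ : Euc n → ι → ℝ} (hφ : Sm φ) (a : Fin n → Euc n → Ms ι)
    (b : Euc n → Ms ι) (x : Euc n) (s : ι) :
    Integrable (fun y => ∑ k, pd (kerE β ε) k (x - y) * (a k x *ᵥ cone φ y) s +
      kerE β ε (x - y) * (b x *ᵥ cone φ y) s) ∧
    Op a b (Jm β ε φ) x s = ∫ y, (∑ k, pd (kerE β ε) k (x - y) * (a k x *ᵥ cone φ y) s +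
      kerE β ε (x - y) * (b x *ᵥ cone φ y) s) := by
  have h1 := fun k => fri3_mvi hβ hε hn hφ (fri3_pc hβ k) (fri3_ps hβ hε k) (a k x) x s
  have h2 := fri3_mvi hβ hε hn hφ (kerE_cont hβ.prf hε) (kerE_supp hβ.prf hε) (b x) x s
  have h3 := integrable_finsetSum Finset.univ fun k _ => (h1 k).1
  refine ⟨h3.add h2.1, ?_⟩
  rw [integral_add h3 h2.1, integral_finsetSum _ fun k _ => (h1 k).1, ← h2.2, Op, Pi.add_apply,
    Finset.sum_apply]
  congr 1
  refine Finset.sum_congr rfl fun k _ => ?_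
  rw [← (h1 k).2, funext (Jm_pd hn hβ hφ hε k x)]

omit [DecidableEq ι] in
theorem fri3_int (hn : 0 < n) {φ : Euc n → ι → ℝ} (hφ : Sm φ) {a : Fin n → Euc n → Ms ι}
    {b : Euc n → Ms ι} (ha : ∀ k, SmM (a k)) (hb : SmM b) (x : Euc n) (s : ι) :
    Integrable (fun y => ∑ k, pd (kerE β ε) k (x - y) * ‖y‖ *
      (cone (a k) y *ᵥ cone φ y) s + kerE β ε (x - y) * ((cone b y)ᵀ *ᵥ cone φ y) s) := by
  refine (integrable_finsetSum _ fun k _ => ?_).add
    (ker_integrable hn (kerE_cont hβ.prf hε) (kerE_supp hβ.prf hε)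
      (fri3_cs2 hφ (M := fun z => (b z)ᵀ) (fun θ hθ p q => hb θ hθ q p) s) x)
  have := ker_integrable hn (κ := fun z => pd (kerE β ε) k z * ‖x - z‖)
    ((fri3_pc hβ k).mul (by fun_prop)) (fri3_ps hβ hε k).mul_right (fri3_cs2 hφ (ha k) s) x
  simp only [sub_sub_cancel] at this
  exact this

omit hε in
theorem fri3_pd (x : Euc n) (σ c : ℝ) (k : Fin n) (y : Euc n) :
    pd (fun y => kerE β ε (x - σ • y) * c) k y = -σ * pd (kerE β ε) k (x - σ • y) * c := by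
  have h1 : HasFDerivAt (fun y : Euc n => x - σ • y) (-(σ • ContinuousLinearMap.id ℝ (Euc n))) y :=
    ((hasFDerivAt_id y).const_smul σ).const_sub x
  have h2 := ((((kerE_sm hβ ε).differentiable (by simp)) (x - σ • y)).hasFDerivAt.comp y
    h1).mul_const c
  rw [pd, show (fun y => kerE β ε (x - σ • y) * c) = fun y =>
    (kerE β ε ∘ fun y : Euc n => x - σ • y) y * c from rfl, h2.fderiv]
  simp [pd]
  ring

end

section
variable (hn : 0 < n) {β : ℝ → ℝ} (hβ : Bp n β) {a : Fin n → Euc n → Ms ι} {b : Euc n → Ms ι}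
  (ha : ∀ k, SmM (a k)) (hb : SmM b)
include hn hβ

theorem Jm_bound : ∃ C, 0 < C ∧ ∀ ε > 0, ∀ φ : Euc n → ι → ℝ, Sm φ →
    nm (Jm β ε φ) ≤ C * nm φ := by
  obtain ⟨C, hC, h⟩ := ker_bound (ι := ι) hn hβ.prf
  refine ⟨C, hC, fun ε hε φ hφ => ?_⟩
  have := h ε 1 φ _ hε zero_le_one hφ (Jm_sm hn hβ hφ hε) fun θ _ s =>
    fri3_le hβ hε hn hφ hβ.prf θ fun y => by
      rw [one_mul, abs_mul, abs_of_nonneg (kerE_nonneg hβ.prf hε _)]
      exact mul_le_mul_of_nonneg_left (Finset.single_le_sum (f := fun p => |cone φ y p|)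
        (fun _ _ => abs_nonneg _) (Finset.mem_univ s)) (kerE_nonneg hβ.prf hε _)
  rwa [mul_one] at this

include ha hb

/-- `Jm_pd`, `pd_kerE`, `ker_bound` with `Bp.prf'`. -/
theorem op_Jm_bound {ε : ℝ} (hε : 0 < ε) : ∃ C, 0 < C ∧ ∀ φ : Euc n → ι → ℝ, Sm φ →
    nm (Op a b (Jm β ε φ)) ≤ C * nm φ := by
  obtain ⟨C, hC, h⟩ := ker_bound (ι := ι) hn hβ.prf'
  obtain ⟨c, hc, hc'⟩ := smM_bdd ha hb
  refine ⟨C * (2 * n * (c / ε) + c), by positivity, fun φ hφ => ?_⟩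
  refine h ε _ φ _ hε (by positivity) hφ ((Jm_sm hn hβ hφ hε).op ha hb) fun θ hθ s => ?_
  rw [(fri3_rep hβ hε hn hφ a b θ s).2]
  refine fri3_le hβ hε hn hφ hβ.prf' θ fun y => fri3_pt hβ hε _ _ s fun _ =>
    ⟨fun k p q => ?_, fun p q => (hc' θ hθ p q).2⟩
  rw [div_mul_cancel₀ _ hε.ne']
  exact (hc' θ hθ p q).1 k

/-- In polar coordinates apply the symmetry to `χ θ' = kerE (x - σ θ') • e_s`, whose derivative is
`-σ pd kerE k (x - σ θ')`. -/
theorem Jm_op (hsk : ∀ k θ, ‖θ‖ = 1 → (a k θ)ᵀ = -a k θ) (hs : SymO a b) {ε : ℝ} (hε : 0 < ε)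
    {φ : Euc n → ι → ℝ} (hφ : Sm φ) (x : Euc n) (s : ι) :
    Jm β ε (Op a b φ) x s = ∫ y, (∑ k, pd (kerE β ε) k (x - y) * ‖y‖ *
      (cone (a k) y *ᵥ cone φ y) s + kerE β ε (x - y) * ((cone b y)ᵀ *ᵥ cone φ y) s) := by
  have hi : Integrable fun y => kerE β ε (x - y) * cone (Op a b φ) y s :=
    ker_integrable hn (kerE_cont hβ.prf hε) (kerE_supp hβ.prf hε)
      (u := fun z => Op a b φ z s) (fun θ hθ => (hφ.op ha hb θ hθ s).continuousAt) x
  rw [Jm, (polar hn (fri3_int hβ hε hn hφ ha hb x s)).2, (polar hn hi).2]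
  refine setIntegral_congr_fun measurableSet_Ioi fun σ hσ => ?_
  have hχ : Sm fun (y : Euc n) (t : ι) => kerE β ε (x - σ • y) * (Pi.single s 1 : ι → ℝ) t :=
    fun θ _ t => (((kerE_sm hβ ε).comp (contDiff_const.sub (contDiff_id.const_smul σ))).mul
      contDiff_const).contDiffAt
  have e : ∀ (v : ι → ℝ) (M : Ms ι) (c : ℝ),
      v ⬝ᵥ M *ᵥ (fun t => c * (Pi.single s 1 : ι → ℝ) t) = c * (Mᵀ *ᵥ v) s := fun v M c => by
    rw [show (fun t => c * (Pi.single s 1 : ι → ℝ) t) = c • (Pi.single s 1 : ι → ℝ) from rfl,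
      mulVec_smul, dotProduct_smul, dotProduct_mulVec, dotProduct_single, mul_one,
      mulVec_transpose, smul_eq_mul]
  have h := hs φ _ hφ hχ
  simp only [sInt]
  congr 1
  refine Eq.trans (integral_congr_ae (Eventually.of_forall fun θ => ?_))
    (h.trans (integral_congr_ae (Eventually.of_forall fun θ => ?_)))
  · have hθ : ‖(θ : Euc n)‖ = 1 := by simp
    simp only [fri3_cone _ hσ hθ]
    rw [show (fun t => kerE β ε (x - σ • (θ : Euc n)) * (Pi.single s 1 : ι → ℝ) t) =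
      kerE β ε (x - σ • (θ : Euc n)) • (Pi.single s 1 : ι → ℝ) from rfl, dotProduct_smul,
      dotProduct_single, mul_one, smul_eq_mul]
  · have hθ : ‖(θ : Euc n)‖ = 1 := by simp
    simp only [fri3_cone _ hσ hθ, norm_smul_sph hσ hθ]
    rw [Op, dotProduct_add, dotProduct_sum, e]
    congr 1
    refine Finset.sum_congr rfl fun k _ => ?_
    rw [show pdV (fun (y : Euc n) (t : ι) => kerE β ε (x - σ • y) * (Pi.single s 1 : ι → ℝ) t) k θ =
      fun t => -σ * pd (kerE β ε) k (x - σ • (θ : Euc n)) * (Pi.single s 1 : ι → ℝ) t from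
        funext fun t => fri3_pd hβ x σ _ k θ, e, hsk k θ hθ, neg_mulVec, Pi.neg_apply]
    ring

omit hβ hb in
/-- Mean value inequality for the smooth map `y ↦ ‖y‖ * cone (a k) y p q` on the convex ball of
radius `1/2` about `θ`, inside the compact shell `1/2 ≤ ‖y‖ ≤ 3/2`. -/
theorem cone_lip : ∃ C, 0 < C ∧ ∀ θ y : Euc n, ‖θ‖ = 1 → ‖θ - y‖ ≤ 1 / 2 → ∀ k p q,
    |a k θ p q - ‖y‖ * cone (a k) y p q| ≤ C * ‖θ - y‖ := by
  have hK : IsCompact ({y : Euc n | 1 / 2 ≤ ‖y‖} ∩ Metric.closedBall 0 2) :=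
    (isCompact_closedBall _ _).inter_left (isClosed_le continuous_const continuous_norm)
  obtain ⟨K, hL⟩ := LocallyLipschitzOn.exists_lipschitzOnWith_of_compact
    (f := fun (y : Euc n) (k : Fin n) (p q : ι) => ‖y‖ * cone (a k) y p q) hK fun y hy => by
      have h0 : y ≠ 0 := norm_pos_iff.1 (lt_of_lt_of_le (by norm_num) hy.1)
      have h1 : ContDiffAt ℝ ∞ (fun y : Euc n => ‖y‖) y := contDiffAt_norm ℝ h0
      have h2 : ContDiffAt ℝ ∞ (fun y : Euc n => ‖y‖⁻¹ • y) y :=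
        (h1.inv (norm_ne_zero_iff.2 h0)).smul contDiffAt_id
      have h3 : ContDiffAt ℝ ∞
          (fun (y : Euc n) (k : Fin n) (p q : ι) => ‖y‖ * cone (a k) y p q) y :=
        contDiffAt_pi.2 fun k => contDiffAt_pi.2 fun p => contDiffAt_pi.2 fun q =>
          h1.mul ((ha k _ (fri3_unit h0) p q).comp (f := fun y : Euc n => ‖y‖⁻¹ • y) y h2)
      obtain ⟨K, t, ht, h⟩ := (h3.of_le (by simp)).exists_lipschitzOnWith
      exact ⟨K, t, mem_nhdsWithin_of_mem_nhds ht, h⟩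
  refine ⟨K + 1, by positivity, fun θ y hθ hy k p q => ?_⟩
  have h1 := abs_le.1 ((abs_norm_sub_norm_le θ y).trans hy)
  have h2 := hL.norm_sub_le (x := θ) (y := y) ⟨by simp only [mem_ofPred_eq, hθ]; norm_num,
    by simp [hθ]⟩ ⟨by simp only [mem_ofPred_eq]; linarith [h1.2],
      mem_closedBall_zero_iff.2 (by linarith [h1.1])⟩
  have h4 : ∀ F : Fin n → ι → ι → ℝ, ‖F k p q‖ ≤ ‖F‖ := fun F =>
    ((norm_le_pi_norm (F k p) q).trans (norm_le_pi_norm (F k) p)).trans (norm_le_pi_norm F k)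
  have h3 := (h4 _).trans h2
  simp only [Pi.sub_apply, cone, hθ, inv_one, one_smul, one_mul, Real.norm_eq_abs] at h3
  exact h3.trans (mul_le_mul_of_nonneg_right (by linarith) (norm_nonneg _))

/-- The kernel of the commutator is
`∑ k, pd kerE k (θ - y) (a k θ - ‖y‖ cone (a k) y) + kerE (θ - y) (b θ - (cone b y)ᵀ)`, bounded by a
constant times `kerE (β + |β'|) ε (θ - y)` because `‖θ - y‖^2 / ε^2 ≤ 1` on the support. -/
theorem comm_bound (hsk : ∀ k θ, ‖θ‖ = 1 → (a k θ)ᵀ = -a k θ) (hs : SymO a b) :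
    ∃ C, 0 < C ∧ ∀ ε, 0 < ε → ε ≤ 1 / 2 → ∀ φ : Euc n → ι → ℝ, Sm φ →
      nm (Op a b (Jm β ε φ) - Jm β ε (Op a b φ)) ≤ C * nm φ := by
  obtain ⟨C, hC, h⟩ := ker_bound (ι := ι) hn hβ.prf'
  obtain ⟨c, hc, hc'⟩ := smM_bdd ha hb
  obtain ⟨L, hL, hL'⟩ := cone_lip hn ha
  refine ⟨C * (2 * n * L + (c + c)), by positivity, fun ε hε hε' φ hφ => ?_⟩
  refine h ε _ φ _ hε (by positivity) hφ (((Jm_sm hn hβ hφ hε).op ha hb).sub
    (Jm_sm hn hβ (hφ.op ha hb) hε)) fun θ hθ s => ?_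
  rw [Pi.sub_apply, Pi.sub_apply, (fri3_rep hβ hε hn hφ a b θ s).2,
    Jm_op hn hβ ha hb hsk hs hε hφ, ← integral_sub (fri3_rep hβ hε hn hφ a b θ s).1
      (fri3_int hβ hε hn hφ ha hb θ s)]
  refine fri3_le hβ hε hn hφ hβ.prf' θ fun y => le_of_eq_of_le (congrArg _ ?_)
    (fri3_pt hβ hε (θ - y) (cone φ y) s (A := fun k => a k θ - ‖y‖ • cone (a k) y)
      (B := b θ - (cone b y)ᵀ) fun hy => ⟨fun k p q => ?_, fun p q => ?_⟩)
  · simp only [sub_mulVec, smul_mulVec, Pi.sub_apply, Pi.smul_apply, smul_eq_mul, mul_sub,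
      Finset.sum_sub_distrib, ← mul_assoc]
    ring
  · exact (hL' θ y hθ (hy.le.trans hε') k p q).trans (mul_le_mul_of_nonneg_left hy.le hL.le)
  · have h0 : y ≠ 0 := by
      rintro rfl
      rw [sub_zero, hθ] at hy
      linarith
    exact (abs_sub _ _).trans (add_le_add (hc' θ hθ p q).2 (hc' _ (fri3_unit h0) q p).2)

end

end Vale.Agent.P366
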