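import Vale.Agent.P366I.Fri3

/-! Dense range and approximate eigenvectors. -/

noncomputable section

open Matrix MeasureTheory Set Filter Topology Asymptotics
open scoped ContDiff

namespace Vale.Agent.P366

variable {n : ℕ} {ι : Type} [Fintype ι] [DecidableEq ι]

omit [DecidableEq ι] in
theorem fri4_mv {M : Ms ι} {v w : ι → ℝ} {c e : ℝ} (hM : ∀ p q, |M p q| ≤ c)
    (h : ∀ p, |v p - w p| ≤ e) (s : ι) :
    |(M *ᵥ v) s - (M *ᵥ w) s| ≤ Fintype.card ι * (c * e) := by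
  rw [← Pi.sub_apply, ← mulVec_sub, mulVec, dotProduct]
  refine (Finset.abs_sum_le_sum_abs _ _).trans ?_
  rw [← nsmul_eq_mul, ← Finset.card_univ]
  refine Finset.sum_le_card_nsmul _ _ _ fun p _ => ?_
  rw [abs_mul]
  exact mul_le_mul (hM s p) (h p) (abs_nonneg _) ((abs_nonneg _).trans (hM s p))

theorem fri4_pt {a : Fin n → Euc n → Ms ι} {b : Euc n → Ms ι} {u w : Euc n → ι → ℝ} {θ : Euc n}
    {c e : ℝ} (hc : ∀ p q, (∀ k, |a k θ p q| ≤ c) ∧ |b θ p q| ≤ c)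
    (h1 : ∀ k p, |pdV u k θ p - pdV w k θ p| ≤ e) (h0 : ∀ p, |u θ p - w θ p| ≤ e) (s : ι) :
    |Op a b u θ s - Op a b w θ s| ≤ (n + 1) * (Fintype.card ι * (c * e)) := by
  have e1 : Op a b u θ s - Op a b w θ s =
      ∑ k, ((a k θ *ᵥ pdV u k θ) s - (a k θ *ᵥ pdV w k θ) s) +
        ((b θ *ᵥ u θ) s - (b θ *ᵥ w θ) s) := by
    simp only [Op, Pi.add_apply, Finset.sum_apply, Finset.sum_sub_distrib]
    ring
  have e2 : |∑ k, ((a k θ *ᵥ pdV u k θ) s - (a k θ *ᵥ pdV w k θ) s)| ≤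
      n * (Fintype.card ι * (c * e)) := by
    refine (Finset.abs_sum_le_sum_abs _ _).trans ((Finset.sum_le_card_nsmul _ _ _ fun k _ =>
      fri4_mv (fun p q => (hc p q).1 k) (h1 k) s).trans (le_of_eq ?_))
    rw [Finset.card_univ, Fintype.card_fin, nsmul_eq_mul]
  have e3 := fri4_mv (fun p q => (hc p q).2) h0 s
  rw [e1]
  refine (abs_add_le _ _).trans ?_
  linarith

theorem fri4_div {x c : ℝ} (hc : 0 ≤ c) (h : x ^ 2 ≤ c * x) : x ≤ c := by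
  by_contra hlt
  nlinarith [not_le.1 hlt]

section
variable {a : Fin n → Euc n → Ms ι} {b : Euc n → Ms ι} (ha : ∀ k, SmM (a k)) (hb : SmM b)
  {f χ χ' ζ : Euc n → ι → ℝ} (hf : Sm f) {d τ τ' : ℝ}
  (hd : ∀ χ, Sm χ → d ≤ nm (f - Op a b χ) ^ 2)
include ha hb hf hd

theorem fri4_orth (hχ : Sm χ) (hτ : 0 ≤ τ) (h : nm (f - Op a b χ) ^ 2 ≤ d + τ ^ 2) (hζ : Sm ζ) :
    |ip (f - Op a b χ) (Op a b ζ)| ≤ τ * nm (Op a b ζ) := by
  have hr := hf.sub (hχ.op ha hb)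
  have hL := hζ.op ha hb
  have key : ∀ t : ℝ, 0 ≤ nm (Op a b ζ) ^ 2 * (t * t) +
      -(2 * ip (f - Op a b χ) (Op a b ζ)) * t + τ ^ 2 := fun t => by
    have h1 := hd _ (hχ.add (hζ.smul t))
    rw [nm_congr (χ := (f - Op a b χ) - t • Op a b ζ) (fun θ hθ => by
        simp only [Pi.sub_apply, Pi.smul_apply, Op_add hχ (hζ.smul t) hθ, Op_smul hζ t hθ]
        abel), nm_sub_sq hr (hL.smul t), nm_smul, ip_comm, ip_smul, ip_comm, mul_pow, sq_abs] at h1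
    nlinarith
  have h2 := discrim_le_zero key
  refine abs_le_of_sq_le_sq' ?_ (mul_nonneg hτ nm_nonneg) |> abs_le.2
  rw [discrim] at h2
  nlinarith

theorem fri4_close (hχ : Sm χ) (hτ : 0 ≤ τ) (h : nm (f - Op a b χ) ^ 2 ≤ d + τ ^ 2)
    (hχ' : Sm χ') (hτ' : 0 ≤ τ') (h' : nm (f - Op a b χ') ^ 2 ≤ d + τ' ^ 2) :
    nm ((f - Op a b χ) - (f - Op a b χ')) ≤ τ + τ' := by
  have hr := hf.sub (hχ.op ha hb)
  have hr' := hf.sub (hχ'.op ha hb)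
  have e : ∀ θ : Euc n, ‖θ‖ = 1 →
      ((f - Op a b χ) - (f - Op a b χ')) θ = Op a b (χ' - χ) θ := fun θ hθ => by
    simp only [Pi.sub_apply, Op_sub hχ' hχ hθ]
    abel
  have h1 := abs_le.1 (fri4_orth ha hb hf hd hχ hτ h (hχ'.sub hχ))
  have h2 := abs_le.1 (fri4_orth ha hb hf hd hχ' hτ' h' (hχ'.sub hχ))
  refine fri4_div (add_nonneg hτ hτ') ?_
  rw [nm_sq, ip_congr (φ' := (f - Op a b χ) - (f - Op a b χ')) (χ' := Op a b (χ' - χ))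
    (fun θ hθ => by rw [← e θ hθ]), ip_sub hr hr' ((hχ'.sub hχ).op ha hb), nm_congr e]
  linarith [h1.2, h2.1]

end

section
variable (hn : 0 < n) {a : Fin n → Euc n → Ms ι} {b : Euc n → Ms ι}
  (ha : ∀ k, SmM (a k)) (hb : SmM b) (ht : Tang a)
include hn ha hb ht

theorem comm_conv {β : ℝ → ℝ} (hβ : Bp n β) {r : Euc n → ι → ℝ} (hr : Sm r) {δ : ℝ} (hδ : 0 < δ) :
    ∀ᶠ ε in 𝓝[>] (0 : ℝ), nm (Jm β ε r - r) ≤ δ ∧
      nm (Op a b (Jm β ε r) - Jm β ε (Op a b r)) ≤ δ := by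
  obtain ⟨c, c0, hc⟩ := smM_bdd ha hb
  obtain ⟨w, hw⟩ : ∃ w, w = √(Fintype.card ι * omega n) := ⟨_, rfl⟩
  have w0 : 0 ≤ w := hw ▸ Real.sqrt_nonneg _
  obtain ⟨K, hK⟩ : ∃ K : ℝ, K = (n + 1) * (Fintype.card ι * c) + 1 := ⟨_, rfl⟩
  have K1 : 1 ≤ K := hK ▸ le_add_of_nonneg_left (by positivity)
  have e0 : 0 < δ / ((w + 1) * K) := by positivity
  have e1 : (w + 1) * K * (δ / ((w + 1) * K)) = δ := mul_div_cancel₀ _ (by positivity)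
  have hL := hr.op ha hb
  filter_upwards [Jm_conv hn hβ hr e0, Jm_conv hn hβ hL e0, Jm_conv1 hn hβ hr e0,
    self_mem_nhdsWithin] with ε h1 h2 h3 hε
  generalize δ / ((w + 1) * K) = e at e0 e1 h1 h2 h3
  have hJ := Jm_sm hn hβ hr hε
  have hco : ∀ θ : Euc n, ‖θ‖ = 1 → cone r θ = r θ := fun θ hθ => by simp [cone, hθ]
  constructor
  · refine (nm_le_of_abs (hJ.sub hr) e0.le h1).trans ?_
    rw [← hw, ← e1]
    nlinarith [mul_nonneg w0 e0.le]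
  · refine (nm_le_of_abs (c := K * e) ((hJ.op ha hb).sub (Jm_sm hn hβ hL hε)) (by positivity)
      fun θ hθ s => ?_).trans ?_
    · have h4 := fri4_pt (hc θ hθ) (h3 θ hθ) (fun p => by rw [hco θ hθ]; exact h1 θ hθ p) s
      rw [Op_congr ht (cone_sm hr) hr hco hθ] at h4
      have h5 := h2 θ hθ s
      rw [abs_sub_comm] at h5
      refine (abs_sub_le _ (Op a b r θ s) _).trans ((add_le_add h4 h5).trans (le_of_eq ?_))
      rw [hK]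
      ring
    · rw [← hw, ← e1]
      nlinarith [mul_nonneg (zero_le_one.trans K1) e0.le]

theorem dense_range (hsk : ∀ k θ, ‖θ‖ = 1 → (a k θ)ᵀ = -a k θ) (hs : SymO a b)
    (hl : 0 < lamO a b) {f : Euc n → ι → ℝ} (hf : Sm f) {δ : ℝ} (hδ : 0 < δ) :
    ∃ χ, Sm χ ∧ nm (f - Op a b χ) ≤ δ := by
  obtain ⟨β, hβ⟩ := exists_bp n
  obtain ⟨C₁, C₁0, hC₁⟩ := Jm_bound (ι := ι) hn hβ
  obtain ⟨C₂, C₂0, hC₂⟩ := comm_bound hn hβ ha hb hsk hs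
  have hbd : BddBelow {x | ∃ χ, Sm χ ∧ x = nm (f - Op a b χ) ^ 2} :=
    ⟨0, by rintro _ ⟨χ, -, rfl⟩; exact sq_nonneg _⟩
  have hd : ∀ χ, Sm χ → sInf {x | ∃ χ, Sm χ ∧ x = nm (f - Op a b χ) ^ 2} ≤
      nm (f - Op a b χ) ^ 2 := fun χ hχ => csInf_le hbd ⟨χ, hχ, rfl⟩
  have hex : ∀ τ : ℝ, 0 < τ → ∃ χ, Sm χ ∧ nm (f - Op a b χ) ^ 2 ≤
      sInf {x | ∃ χ, Sm χ ∧ x = nm (f - Op a b χ) ^ 2} + τ ^ 2 := fun τ hτ => by
    obtain ⟨_, ⟨χ, hχ, rfl⟩, h⟩ := exists_lt_of_csInf_lt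
      (s := {x | ∃ χ, Sm χ ∧ x = nm (f - Op a b χ) ^ 2}) ⟨_, f, hf, rfl⟩
      (lt_add_of_pos_right _ (pow_pos hτ 2))
    exact ⟨χ, hχ, h.le⟩
  generalize sInf {x | ∃ χ, Sm χ ∧ x = nm (f - Op a b χ) ^ 2} = d at hd hex
  obtain ⟨η, η0, hη⟩ : ∃ η : ℝ, 0 < η ∧
      ((2 + 2 * C₂) + lamO a b * (1 + 2 * C₁)) * η = lamO a b * δ :=
    ⟨lamO a b * δ / ((2 + 2 * C₂) + lamO a b * (1 + 2 * C₁)), by positivity,
      mul_div_cancel₀ _ (by positivity)⟩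
  obtain ⟨χ₁, hχ₁, h₁⟩ := hex η η0
  have hr₁ := hf.sub (hχ₁.op ha hb)
  have ev : ∀ᶠ ε in 𝓝[>] (0 : ℝ), ε ∈ Ioc (0 : ℝ) (1 / 2) := Ioc_mem_nhdsGT (by norm_num)
  obtain ⟨ε, ⟨k1, k2⟩, ε0, ε1⟩ := ((comm_conv hn ha hb ht hβ hr₁ η0).and ev).exists
  obtain ⟨C₃, C₃0, hC₃⟩ := op_Jm_bound hn hβ ha hb ε0
  have τ0 : 0 < η / (1 + C₃) := by positivity
  have τ1 : (1 + C₃) * (η / (1 + C₃)) = η := mul_div_cancel₀ _ (by positivity)
  obtain ⟨χ, hχ, h₂⟩ := hex _ τ0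
  generalize η / (1 + C₃) = τ at τ0 τ1 h₂
  have hr := hf.sub (hχ.op ha hb)
  have cl := fri4_close ha hb hf hd hχ₁ η0.le h₁ hχ τ0.le h₂
  have ort := fun ζ (hζ : Sm ζ) => fri4_orth ha hb hf hd hχ τ0.le h₂ hζ
  refine ⟨χ₁, hχ₁, ?_⟩
  generalize f - Op a b χ₁ = r₁ at hr₁ k1 k2 cl ⊢
  generalize f - Op a b χ = r at hr cl ort
  have τC : 0 < C₃ * τ := mul_pos C₃0 τ0
  have cl2 : nm (r₁ - r) ≤ 2 * η := by linarith
  have sJ : ∀ {φ : Euc n → ι → ℝ}, Sm φ → Sm (Jm β ε φ) := fun h => Jm_sm hn hβ h ε0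
  have sL : ∀ {φ : Euc n → ι → ℝ}, Sm φ → Sm (Op a b φ) := fun h => h.op ha hb
  have hv := sL (sJ hr)
  have c1 : nm (Op a b (Jm β ε r) - Jm β ε (Op a b r)) ≤ η + C₂ * (2 * η) := by
    have e1 : Jm β ε (Op a b (r₁ - r)) = Jm β ε (Op a b r₁ - Op a b r) := by
      funext x s
      refine integral_congr_ae ?_
      have : Nonempty (Fin n) := ⟨⟨0, hn⟩⟩
      filter_upwards [compl_mem_ae_iff.2 (measure_singleton (0 : Euc n))] with y hy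
      have h1 : ‖‖y‖⁻¹ • y‖ = 1 := norm_smul_inv_norm hy
      simp only [cone, Op_sub hr₁ hr h1, Pi.sub_apply]
    rw [nm_congr (χ := (Op a b (Jm β ε r₁) - Jm β ε (Op a b r₁)) -
      (Op a b (Jm β ε (r₁ - r)) - Jm β ε (Op a b (r₁ - r)))) (fun θ hθ => by
        rw [e1, Jm_sub hn hβ hr₁ ε0 hr, Jm_sub hn hβ (sL hr₁) ε0 (sL hr)]
        simp only [Pi.sub_apply, Op_sub (sJ hr₁) (sJ hr) hθ]
        abel)]
    refine (nm_sub_le ((sL (sJ hr₁)).sub (sJ (sL hr₁)))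
      ((sL (sJ (hr₁.sub hr))).sub (sJ (sL (hr₁.sub hr))))).trans (add_le_add k2 ?_)
    exact (hC₂ ε ε0 ε1 _ (hr₁.sub hr)).trans (mul_le_mul_of_nonneg_left cl2 C₂0.le)
  have c2 : nm (Op a b (Jm β ε r)) ≤ (2 + 2 * C₂) * η := by
    refine fri4_div (by positivity) ?_
    have i1 := ip_sub hv (sJ (sL hr)) hv
    rw [Jm_symm hn hβ (sL hr) ε0 hv, hs _ _ hr (sJ hv), ← nm_sq] at i1
    have i2 := (le_abs_self _).trans (abs_ip_le (hv.sub (sJ (sL hr))) hv)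
    have i3 := (le_abs_self _).trans (ort _ (sJ hv))
    have i4 := mul_le_mul_of_nonneg_left (hC₃ _ hv) τ0.le
    have i5 := mul_le_mul_of_nonneg_right c1 (nm_nonneg (φ := Op a b (Jm β ε r)))
    have i6 := mul_le_mul_of_nonneg_right (show C₃ * τ ≤ η by linarith)
      (nm_nonneg (φ := Op a b (Jm β ε r)))
    linarith
  have c3 := (lamO_le (a := a) (b := b) (sJ hr)).trans c2
  have c4 : nm r₁ ≤ nm (Jm β ε r) + (1 + 2 * C₁) * η := by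
    have j1 := nm_sub_le (sJ hr₁) ((sJ hr₁).sub hr₁)
    rw [sub_sub_cancel] at j1
    have j2 := nm_add_le (sJ hr) (sJ (hr₁.sub hr))
    rw [Jm_sub hn hβ hr₁ ε0 hr, add_sub_cancel, ← Jm_sub hn hβ hr₁ ε0 hr] at j2
    have j3 := (hC₁ ε ε0 _ (hr₁.sub hr)).trans (mul_le_mul_of_nonneg_left cl2 C₁0.le)
    linarith
  refine le_of_mul_le_mul_left ?_ hl
  have c5 := mul_le_mul_of_nonneg_left c4 hl.le
  linarith

end

end Vale.Agent.P366
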