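import Vale.Agent.P366I.LtB
import Vale.Agent.P366I.Bnd

/-! The Garding inequality. -/

noncomputable section

open Matrix MeasureTheory Set Filter Topology Asymptotics
open scoped ContDiff

namespace Vale.Agent.P366

variable {n : ℕ} {ι : Type} [Fintype ι] [DecidableEq ι]

omit [DecidableEq ι] in
theorem gard_cs (u v : ι → ℝ) : (u ⬝ᵥ v) ^ 2 ≤ (u ⬝ᵥ u) * (v ⬝ᵥ v) := by
  simpa only [dotProduct, sq] using Finset.sum_mul_sq_le_sq_mul_sq Finset.univ u v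

theorem gard_CS {ρ t : ℝ} (ht : ρ < t) {f : Euc n → ℝ}
    (hf : ∀ x : Euc n, ρ < ‖x‖ → ContDiffAt ℝ ∞ f x) : CS t f :=
  fun x hx => (hf x (hx ▸ ht)).continuousAt

theorem gard_sqrt {a C b : ℝ} (hb : 0 ≤ b) (h : a ≤ C * b ^ 2) : √a ≤ √C * b := by
  refine (Real.sqrt_le_sqrt h).trans_eq ?_
  rw [Real.sqrt_mul' _ (sq_nonneg b), Real.sqrt_sq hb]

section
variable {ρ : ℝ} {g K : Fld n} {η κ : ℝ → ℝ} {γ S : Euc n → Fin n → Ms ι} (hn : 3 ≤ n)
  (h : Sh ρ g K η κ) (hG : Geo ρ g γ S) {t : ℝ} (ht : ρ < t)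
include hn h hG ht

/-- Any continuous coefficient is bounded by a multiple of `wf` on the leaf. -/
theorem LI_coef {c : Euc n → ℝ} (hc : CS t c) : ∃ C, 0 < C ∧ ∀ φ : Euc n → ι → ℝ, Sm φ →
    |LI g t (fun x => c x * (exs g K φ x ⬝ᵥ exs g K φ x))| ≤ C * nm φ ^ 2 := by
  have h0 := h.met.pos.trans ht
  obtain ⟨C, hC, hb⟩ := CS.bdd h0 (f := fun x => c x / wf g K x) fun x hx =>
    (hc x hx).div (h.sm_wf (hx ▸ ht)).continuousAt (h.wf_pos (hx ▸ ht)).ne'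
  refine ⟨C, hC, fun φ hφ => ?_⟩
  have hψ := h.smU_exs hφ
  have s0 := gard_CS ht fun x hx => hψ.dot hψ hx
  have s1 : CS t fun x => c x * (exs g K φ x ⬝ᵥ exs g K φ x) := fun x hx => (hc x hx).mul (s0 x hx)
  have s2 : ∀ a : ℝ, CS t fun x => a * (wf g K x * (exs g K φ x ⬝ᵥ exs g K φ x)) := fun a =>
    gard_CS ht fun x hx => contDiffAt_const.mul ((h.sm_wf hx).mul (hψ.dot hψ hx))
  have b : ∀ x, ‖x‖ = t → |c x| ≤ C * wf g K x := fun x hx => by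
    have w := h.wf_pos (hx ▸ ht : ρ < ‖x‖)
    have := hb x hx
    rwa [abs_div, abs_of_pos w, div_le_iff₀ w] at this
  rw [nm_sq, ip_LI hn h ht, abs_le, ← neg_mul, ← LI_cmul, ← LI_cmul]
  refine ⟨LI_mono h.met ht (s2 _) s1 fun x hx => ?_, LI_mono h.met ht s1 (s2 _) fun x hx => ?_⟩
  · rw [← mul_assoc, neg_mul]
    exact mul_le_mul_of_nonneg_right (abs_le.1 (b x hx)).1 (ipc_dot _)
  · rw [← mul_assoc]
    exact mul_le_mul_of_nonneg_right (abs_le.1 (b x hx)).2 (ipc_dot _)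

omit hG in
theorem gard_pair {V χ : Euc n → ι → ℝ} (hV : SmU ρ V) (hχ : Sm χ) :
    |LI g t (fun x => lapse g x * wf g K x * (V x ⬝ᵥ exs g K χ x))| ≤
      √(LI g t fun x => lapse g x ^ 2 * wf g K x * (V x ⬝ᵥ V x)) * nm χ := by
  have hX := h.smU_exs hχ
  rw [nm, ip_LI hn h ht]
  refine LI_cs h.met ht
    (gard_CS ht fun x hx => ((h.met.sm_lapse hx).mul (h.sm_wf hx)).mul (hV.dot hX hx))
    (gard_CS ht fun x hx => (((h.met.sm_lapse hx).pow 2).mul (h.sm_wf hx)).mul (hV.dot hV hx))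
    (gard_CS ht fun x hx => (h.sm_wf hx).mul (hX.dot hX hx))
    (fun x hx => mul_nonneg (mul_nonneg (sq_nonneg _) (h.wf_pos (hx ▸ ht)).le) (ipc_dot _))
    (fun x hx => mul_nonneg (h.wf_pos (hx ▸ ht)).le (ipc_dot _)) fun x _ => ?_
  have := mul_le_mul_of_nonneg_left (gard_cs (V x) (exs g K χ x))
    (sq_nonneg (lapse g x * wf g K x))
  linarith

/-- `LI_cs` with `A = lapse^2 wf |ba ψ|^2` (`Pt.ba_sq`, `LI_coef`), `B = wf |exs χ|^2`. -/
theorem ba_bound : ∃ C, 0 < C ∧ ∀ φ χ : Euc n → ι → ℝ, Sm φ → Sm χ →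
    |LI g t (fun x => lapse g x * wf g K x * (ba g γ (exs g K φ) x ⬝ᵥ exs g K χ x))|
      ≤ C * nm φ * nm χ := by
  have m := h.met
  obtain ⟨C, hC, hb⟩ := LI_coef (ι := ι) hn h hG ht
    (c := fun x => lapse g x ^ 2 * wf g K x * (acc g x ⬝ᵥ ((g x)⁻¹ *ᵥ acc g x)))
    (gard_CS ht fun x hx => (((m.sm_lapse hx).pow 2).mul (h.sm_wf hx)).mul
      (sm1_dot (m.sm_acc hx) (sm1_mv (m.sm_inv hx) (m.sm_acc hx))))
  refine ⟨√C, Real.sqrt_pos.2 hC, fun φ χ hφ hχ => ?_⟩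
  refine (gard_pair hn h ht (hG.smU_ba (h.smU_exs hφ)) hχ).trans
    (mul_le_mul_of_nonneg_right (gard_sqrt nm_nonneg ?_) nm_nonneg)
  refine le_trans (LI_congr m ht fun x hx => ?_).le ((le_abs_self _).trans (hb φ hφ))
  rw [ba, (pt_of hG (hx ▸ ht)).ba_sq, ← mul_assoc]

theorem pn_bound : ∃ C, 0 < C ∧ ∀ φ χ : Euc n → ι → ℝ, Sm φ → Sm χ →
    |LI g t (fun x => lapse g x * wf g K x * (pn g S (exs g K φ) x ⬝ᵥ exs g K χ x))|
      ≤ C * √(H1 φ) * nm χ := by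
  have m := h.met
  have h0 := m.pos.trans ht
  obtain ⟨C1, p1, b1⟩ := CS.bdd h0 (f := fun x => lapse g x ^ 2 * wf g K x)
    (gard_CS ht fun x hx => ((m.sm_lapse hx).pow 2).mul (h.sm_wf hx))
  obtain ⟨C2, p2, b2⟩ := pn_le hn h hG ht
  refine ⟨√(C1 * C2), by positivity, fun φ χ hφ hχ => ?_⟩
  refine (gard_pair hn h ht (hG.smU_pn (h.smU_exs hφ)) hχ).trans
    (mul_le_mul_of_nonneg_right (gard_sqrt (Real.sqrt_nonneg _) ?_) nm_nonneg)
  have i1 := hφ.cs_h1d.integrable one_pos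
  simp only [one_smul] at i1
  rw [Real.sq_sqrt H1_nonneg, LI_eq m ht, H1, ← integral_const_mul]
  refine integral_mono_of_nonneg (.of_forall fun θ => ?_) (i1.const_mul _) (.of_forall fun θ => ?_)
  · have hx : ρ < ‖t • (θ : Euc n)‖ := (norm_smul_sph h0 (norm_eq_of_mem_sphere θ)).symm ▸ ht
    exact mul_nonneg (m.Jf_pos hx).le
      (mul_nonneg (mul_nonneg (sq_nonneg _) (h.wf_pos hx).le) (ipc_dot _))
  · have hθ : ‖(θ : Euc n)‖ = 1 := norm_eq_of_mem_sphere θ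
    have hx : ρ < ‖t • (θ : Euc n)‖ := (norm_smul_sph h0 hθ).symm ▸ ht
    have a1 := mul_le_mul ((le_abs_self _).trans (b1 _ (norm_smul_sph h0 hθ))) (b2 φ hφ _ hθ)
      (mul_nonneg (m.Jf_pos hx).le (ipc_dot _)) p1.le
    show _ * _ ≤ _ * _
    linarith

theorem gard_nT : ∃ C, 0 < C ∧ ∀ φ : Euc n → ι → ℝ, Sm φ →
    LI g t (fun x => lapse g x * nT g γ S (exs g K φ) x) ≤
      C * (nm (Lt g K γ S t φ) + nm φ) ^ 2 := by
  have m := h.met
  have c1 : ∀ x : Euc n, ρ < ‖x‖ → ContDiffAt ℝ ∞ (fun x => lapse g x * (1 / 2 * sq2 g x +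
      1 / 2 * meanH g x ^ 2 + (scal g x / 2 + dn g (meanH g) x))) x := fun x hx =>
    (m.sm_lapse hx).mul (((contDiffAt_const.mul (m.sm_sq2 hx)).add
      (contDiffAt_const.mul ((m.sm_meanH hx).pow 2))).add (((m.sm_scal hx).div_const 2).add
        (ContDiffAt.sum fun k _ => (m.sm_nu hx k).mul (contDiffAt_pd (m.sm_meanH hx) k))))
  have c2 : ∀ x : Euc n, ρ < ‖x‖ → ContDiffAt ℝ ∞ (fun x => lapse g x * wf g K x ^ 2) x :=
    fun x hx => (m.sm_lapse hx).mul ((h.sm_wf hx).pow 2)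
  obtain ⟨C1, p1, b1⟩ := LI_coef (ι := ι) hn h hG ht (gard_CS ht c1)
  obtain ⟨C2, p2, b2⟩ := LI_coef (ι := ι) hn h hG ht (gard_CS ht c2)
  obtain ⟨C3, p3, b3⟩ := ba_bound hn h hG ht
  refine ⟨C1 + C2 + C3, by positivity, fun φ hφ => ?_⟩
  have hL := Lt_sm hn h hG ht hφ
  have hψ := h.smU_exs hφ
  have hX := h.smU_exs hL
  have s0 := gard_CS ht fun x hx => (m.sm_lapse hx).mul (hG.sm_nT hψ hx)
  have s1 := gard_CS ht fun x hx => (c1 x hx).mul (hψ.dot hψ hx)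
  have s2 := gard_CS ht fun x hx => (c2 x hx).mul (hX.dot hX hx)
  have s3 := gard_CS ht fun x hx =>
    ((m.sm_lapse hx).mul (h.sm_wf hx)).mul ((hG.smU_ba hψ).dot hX hx)
  have two : ∀ {f : Euc n → ℝ}, CS t f → CS t fun x => 2 * f x := fun hf x hx =>
    continuousAt_const.mul (hf x hx)
  have ad : ∀ {f f' : Euc n → ℝ}, CS t f → CS t f' → CS t fun x => f x + f' x :=
    fun hf hf' x hx => (hf x hx).add (hf' x hx)
  have sb : ∀ {f f' : Euc n → ℝ}, CS t f → CS t f' → CS t fun x => f x - f' x :=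
    fun hf hf' x hx => (hf x hx).sub (hf' x hx)
  have e := id_three (by omega) hG ht hψ
  rw [LI_congr m ht (G := fun x => (2 * (lapse g x * nT g γ S (exs g K φ) x) +
      lapse g x * (1 / 2 * sq2 g x + 1 / 2 * meanH g x ^ 2 + (scal g x / 2 + dn g (meanH g) x)) *
        (exs g K φ x ⬝ᵥ exs g K φ x)) +
      (2 * (lapse g x * wf g K x * (ba g γ (exs g K φ) x ⬝ᵥ exs g K (Lt g K γ S t φ) x)) -
        2 * (lapse g x * wf g K x ^ 2 *
          (exs g K (Lt g K γ S t φ) x ⬝ᵥ exs g K (Lt g K γ S t φ) x)))) (fun x hx => by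
      rw [DS_exs hn h hG ht hφ hx]
      simp only [smul_dotProduct, dotProduct_smul, smul_eq_mul]
      ring),
    LI_add m ht (ad (two s0) s1) (sb (two s3) (two s2)),
    LI_add m ht (two s0) s1, LI_sub m ht (two s3) (two s2), LI_cmul, LI_cmul, LI_cmul] at e
  have a1 := (abs_le.1 (b1 φ hφ)).1
  have a2 := (abs_le.1 (b2 _ hL)).2
  have a3 := (abs_le.1 (b3 φ _ hφ hL)).1
  have n1 : 0 ≤ nm φ := nm_nonneg
  have n2 : 0 ≤ nm (Lt g K γ S t φ) := nm_nonneg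
  generalize nm φ = a at *
  generalize nm (Lt g K γ S t φ) = b at *
  have q1 : C1 * a ^ 2 ≤ C1 * (b + a) ^ 2 := by gcongr; linarith
  have q2 : C2 * b ^ 2 ≤ C2 * (b + a) ^ 2 := by gcongr; linarith
  have q3 : C3 * (a * b) ≤ C3 * (b + a) ^ 2 :=
    mul_le_mul_of_nonneg_left (by nlinarith [mul_nonneg n1 n2]) p3.le
  have q4 : 0 ≤ C1 * a ^ 2 := by positivity
  linarith

/-- `id_three` bounds `LI (lapse * nT)`; `lapse * wf = √(η^2 - κ^2)` is constant on the leaf;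
`h1d_le`, `LI_eq`. -/
theorem garding : ∃ C, 0 < C ∧ ∀ φ : Euc n → ι → ℝ, Sm φ →
    √(H1 φ) ≤ C * (nm (Lt g K γ S t φ) + nm φ) := by
  have m := h.met
  have h0 := m.pos.trans ht
  obtain ⟨C1, p1, b1⟩ := h1d_le hn h hG ht
  obtain ⟨C2, p2, b2⟩ := gard_nT hn h hG ht
  refine ⟨√(C1 * (C2 + 1)), by positivity, fun φ hφ => ?_⟩
  have n1 : 0 ≤ nm φ := nm_nonneg
  have n2 : 0 ≤ nm (Lt g K γ S t φ) := nm_nonneg
  refine gard_sqrt (add_nonneg n2 n1) ?_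
  have i1 := hφ.cs_h1d.integrable one_pos
  simp only [one_smul] at i1
  have i2 := (gard_CS ht fun x hx => (m.sm_Jf hx).mul
    ((m.sm_lapse hx).mul (hG.sm_nT (h.smU_exs hφ) hx))).integrable h0
  have i3 := ipb_int hφ hφ
  have a1 : H1 φ ≤ C1 * (LI g t (fun x => lapse g x * nT g γ S (exs g K φ) x) + nm φ ^ 2) := by
    rw [nm_sq, LI_eq m ht, ip, ← integral_add i2 i3, ← integral_const_mul]
    exact integral_mono i1 ((i2.add i3).const_mul _) fun θ => b1 φ hφ _ (norm_eq_of_mem_sphere θ)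
  have a2 : nm φ ^ 2 ≤ (nm (Lt g K γ S t φ) + nm φ) ^ 2 := by gcongr; linarith
  refine a1.trans ?_
  rw [mul_assoc, add_mul, one_mul]
  exact mul_le_mul_of_nonneg_left (add_le_add (b2 φ hφ) a2) p1.le

end

end Vale.Agent.P366
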