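import Vale.Agent.P366I.Sph1

/-! The scalar product on the unit sphere. -/

noncomputable section

open Matrix MeasureTheory Set Filter Topology Asymptotics
open scoped ContDiff

namespace Vale.Agent.P366

variable {n : ℕ} {ι : Type} [Fintype ι] [DecidableEq ι]

/-- The norm of the scalar product `ip`. -/
def nm (φ : Euc n → ι → ℝ) : ℝ := √(ip φ φ)

/-- Symmetric operators. -/
def SymO (a : Fin n → Euc n → Ms ι) (b : Euc n → Ms ι) : Prop :=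
  ∀ φ χ : Euc n → ι → ℝ, Sm φ → Sm χ → ip (Op a b φ) χ = ip φ (Op a b χ)

section
variable {φ χ ζ : Euc n → ι → ℝ} {a : Fin n → Euc n → Ms ι} {b : Euc n → Ms ι}

theorem Sm.add (hφ : Sm φ) (hχ : Sm χ) : Sm (φ + χ) :=
  fun θ hθ s => (hφ θ hθ s).add (hχ θ hθ s)

theorem Sm.sub (hφ : Sm φ) (hχ : Sm χ) : Sm (φ - χ) :=
  fun θ hθ s => (hφ θ hθ s).sub (hχ θ hθ s)

theorem Sm.smul (hφ : Sm φ) (c : ℝ) : Sm (c • φ) :=
  fun θ hθ s => contDiffAt_const.mul (hφ θ hθ s)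

theorem Sm.op (hφ : Sm φ) (ha : ∀ k, SmM (a k)) (hb : SmM b) : Sm (Op a b φ) := by
  intro θ hθ s
  simp only [Op, Pi.add_apply, Finset.sum_apply, Matrix.mulVec, dotProduct, pdV]
  exact (ContDiffAt.sum fun k _ => ContDiffAt.sum fun t _ =>
    (ha k θ hθ s t).mul (contDiffAt_pd (hφ θ hθ t) k)).add
    (ContDiffAt.sum fun t _ => (hb θ hθ s t).mul (hφ θ hθ t))

theorem Sm.cs_dot (hφ : Sm φ) (hχ : Sm χ) : CS 1 (fun y => φ y ⬝ᵥ χ y) :=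
  fun θ hθ => (ContDiffAt.sum fun s _ => (hφ θ hθ s).mul (hχ θ hθ s)).continuousAt

theorem ipb_tg (hφ : Sm φ) (k : Fin n) : Sm (tg φ k) := by
  intro θ hθ s
  have hc : ∀ j, ContDiffAt ℝ ∞ (fun y : Euc n => y j) θ := fun j =>
    (EuclideanSpace.proj j : Euc n →L[ℝ] ℝ).contDiff.contDiffAt
  simp only [tg, Pi.sub_apply, Pi.smul_apply, Finset.sum_apply, smul_eq_mul, pdV]
  exact (contDiffAt_pd (hφ θ hθ s) k).sub ((hc k).mul
    (ContDiffAt.sum fun l _ => (hc l).mul (contDiffAt_pd (hφ θ hθ s) l)))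

theorem Sm.cs_h1d (hφ : Sm φ) : CS 1 (h1d φ) :=
  fun θ hθ => (tendsto_finsetSum _ fun k _ =>
    (ipb_tg hφ k).cs_dot (ipb_tg hφ k) θ hθ).add (hφ.cs_dot hφ θ hθ)

theorem ipb_int (hφ : Sm φ) (hχ : Sm χ) : Integrable
    (fun θ : Metric.sphere (0 : Euc n) 1 => φ (θ : Euc n) ⬝ᵥ χ (θ : Euc n)) (sph n) := by
  simpa only [one_smul] using (hφ.cs_dot hχ).integrable one_pos

theorem ip_congr {φ' χ' : Euc n → ι → ℝ} (e : ∀ θ, ‖θ‖ = 1 → φ θ ⬝ᵥ χ θ = φ' θ ⬝ᵥ χ' θ) :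
    ip φ χ = ip φ' χ' :=
  integral_congr_ae (Eventually.of_forall fun θ => e θ (norm_eq_of_mem_sphere θ))

theorem nm_congr (e : ∀ θ, ‖θ‖ = 1 → φ θ = χ θ) : nm φ = nm χ :=
  congrArg Real.sqrt (ip_congr fun θ hθ => by rw [e θ hθ])

theorem ip_comm : ip φ χ = ip χ φ :=
  ip_congr fun _ _ => dotProduct_comm _ _

theorem ip_add (hφ : Sm φ) (hχ : Sm χ) (hζ : Sm ζ) : ip (φ + χ) ζ = ip φ ζ + ip χ ζ := by
  simp only [ip, Pi.add_apply, add_dotProduct]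
  exact integral_add (ipb_int hφ hζ) (ipb_int hχ hζ)

theorem ip_sub (hφ : Sm φ) (hχ : Sm χ) (hζ : Sm ζ) : ip (φ - χ) ζ = ip φ ζ - ip χ ζ := by
  simp only [ip, Pi.sub_apply, sub_dotProduct]
  exact integral_sub (ipb_int hφ hζ) (ipb_int hχ hζ)

theorem ip_smul (c : ℝ) : ip (c • φ) χ = c * ip φ χ := by
  simp only [ip, Pi.smul_apply, smul_dotProduct, smul_eq_mul]
  exact integral_const_mul _ _

omit [DecidableEq ι] in
theorem ipb_nn (v : ι → ℝ) : 0 ≤ v ⬝ᵥ v := Finset.sum_nonneg fun _ _ => mul_self_nonneg _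

theorem ip_nonneg : 0 ≤ ip φ φ :=
  integral_nonneg fun _ => ipb_nn _

theorem nm_nonneg : 0 ≤ nm φ :=
  Real.sqrt_nonneg _

theorem nm_sq : nm φ ^ 2 = ip φ φ :=
  Real.sq_sqrt ip_nonneg

theorem nm_smul (c : ℝ) : nm (c • φ) = |c| * nm φ := by
  rw [nm, ip_smul, ip_comm, ip_smul, ← mul_assoc, Real.sqrt_mul (mul_self_nonneg c),
    Real.sqrt_mul_self_eq_abs, nm]

theorem ipb_add_sq (hφ : Sm φ) (hχ : Sm χ) :
    ip (φ + χ) (φ + χ) = ip φ φ + 2 * ip φ χ + ip χ χ := by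
  rw [ip_add hφ hχ (hφ.add hχ), ip_comm (χ := φ + χ), ip_comm (φ := χ) (χ := φ + χ),
    ip_add hφ hχ hφ, ip_add hφ hχ hχ, ip_comm (φ := χ) (χ := φ)]
  ring

theorem abs_ip_le (hφ : Sm φ) (hχ : Sm χ) : |ip φ χ| ≤ nm φ * nm χ := by
  have h := discrim_le_zero (a := ip χ χ) (b := 2 * ip φ χ) (c := ip φ φ) fun x => by
    have h1 := ip_nonneg (φ := φ + x • χ)
    rw [ipb_add_sq hφ (hχ.smul x), ip_smul, ip_comm (χ := x • χ), ip_comm (φ := χ) (χ := x • χ),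
      ip_smul, ip_smul, ip_comm (φ := χ) (χ := φ)] at h1
    linarith
  refine abs_le_of_sq_le_sq' ?_ (mul_nonneg nm_nonneg nm_nonneg) |> abs_le.2
  rw [mul_pow, nm_sq, nm_sq]
  rw [discrim] at h
  linarith

theorem nm_add_le (hφ : Sm φ) (hχ : Sm χ) : nm (φ + χ) ≤ nm φ + nm χ := by
  refine Real.sqrt_le_iff.2 ⟨add_nonneg nm_nonneg nm_nonneg, ?_⟩
  rw [ipb_add_sq hφ hχ, add_sq, nm_sq, nm_sq]
  linarith [(abs_le.1 (abs_ip_le hφ hχ)).2]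

theorem ipb_sub_sq (hφ : Sm φ) (hχ : Sm χ) :
    ip (φ - χ) (φ - χ) = ip φ φ - 2 * ip φ χ + ip χ χ := by
  rw [ip_sub hφ hχ (hφ.sub hχ), ip_comm (χ := φ - χ), ip_comm (φ := χ) (χ := φ - χ),
    ip_sub hφ hχ hφ, ip_sub hφ hχ hχ, ip_comm (φ := χ) (χ := φ)]
  ring

theorem nm_sub_le (hφ : Sm φ) (hχ : Sm χ) : nm (φ - χ) ≤ nm φ + nm χ := by
  refine Real.sqrt_le_iff.2 ⟨add_nonneg nm_nonneg nm_nonneg, ?_⟩
  rw [ipb_sub_sq hφ hχ, add_sq, nm_sq, nm_sq]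
  linarith [(abs_le.1 (abs_ip_le hφ hχ)).1]

theorem nm_sub_sq (hφ : Sm φ) (hχ : Sm χ) :
    nm (φ - χ) ^ 2 = nm φ ^ 2 - 2 * ip φ χ + nm χ ^ 2 := by
  rw [nm_sq, nm_sq, nm_sq, ipb_sub_sq hφ hχ]

theorem nm_le_of_abs {c : ℝ} (hφ : Sm φ) (hc : 0 ≤ c) (e : ∀ θ, ‖θ‖ = 1 → ∀ s, |φ θ s| ≤ c) :
    nm φ ≤ √(Fintype.card ι * omega n) * c := by
  have : IsFiniteMeasure (sph n) := by
    unfold sph
    infer_instance
  have h0 : 0 ≤ (Fintype.card ι : ℝ) * omega n := mul_nonneg (Nat.cast_nonneg _) measureReal_nonneg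
  refine Real.sqrt_le_iff.2 ⟨mul_nonneg (Real.sqrt_nonneg _) hc, ?_⟩
  rw [mul_pow, Real.sq_sqrt h0]
  refine (integral_mono (ipb_int hφ hφ) (integrable_const ((Fintype.card ι : ℝ) * c ^ 2))
    fun θ => ?_).trans_eq ?_
  · refine (Finset.sum_le_card_nsmul _ _ (c ^ 2) fun s _ => ?_).trans_eq (by simp)
    rw [← sq, ← sq_abs]
    exact pow_le_pow_left₀ (abs_nonneg _) (e θ (norm_eq_of_mem_sphere θ) s) 2
  · rw [integral_const, smul_eq_mul, omega]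
    ring

theorem ipb_d (hφ : Sm φ) {θ : Euc n} (hθ : ‖θ‖ = 1) (s : ι) :
    DifferentiableAt ℝ (fun y => φ y s) θ := (hφ θ hθ s).differentiableAt (by simp)

theorem Op_add (hφ : Sm φ) (hχ : Sm χ) {θ : Euc n} (hθ : ‖θ‖ = 1) :
    Op a b (φ + χ) θ = Op a b φ θ + Op a b χ θ := by
  have h : ∀ k, pdV (φ + χ) k θ = pdV φ k θ + pdV χ k θ := fun k =>
    funext fun s => pd_add (ipb_d hφ hθ s) (ipb_d hχ hθ s)
  simp only [Op, h, Pi.add_apply, Matrix.mulVec_add, Finset.sum_add_distrib]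
  abel

theorem Op_sub (hφ : Sm φ) (hχ : Sm χ) {θ : Euc n} (hθ : ‖θ‖ = 1) :
    Op a b (φ - χ) θ = Op a b φ θ - Op a b χ θ := by
  have h : ∀ k, pdV (φ - χ) k θ = pdV φ k θ - pdV χ k θ := fun k =>
    funext fun s => pd_sub (ipb_d hφ hθ s) (ipb_d hχ hθ s)
  simp only [Op, h, Pi.sub_apply, Matrix.mulVec_sub, Finset.sum_sub_distrib]
  abel

theorem Op_smul (hφ : Sm φ) (c : ℝ) {θ : Euc n} (hθ : ‖θ‖ = 1) :
    Op a b (c • φ) θ = c • Op a b φ θ := by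
  have h : ∀ k, pdV (c • φ) k θ = c • pdV φ k θ := fun k =>
    funext fun s => pd_cmul c (ipb_d hφ hθ s)
  simp only [Op, h, Pi.smul_apply, Matrix.mulVec_smul, smul_add, Finset.smul_sum]

theorem H1_nonneg : 0 ≤ H1 φ :=
  integral_nonneg fun _ => add_nonneg (Finset.sum_nonneg fun _ _ => ipb_nn _) (ipb_nn _)

end

end Vale.Agent.P366
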