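import Vale.Agent.P366I.IpB

/-! The bottom of the spectrum and bounds for tangential operators. -/

noncomputable section

open Matrix MeasureTheory Set Filter Topology Asymptotics
open scoped ContDiff

namespace Vale.Agent.P366

variable {n : ℕ} {ι : Type} [Fintype ι] [DecidableEq ι]

theorem ipc_bdd (a : Fin n → Euc n → Ms ι) (b : Euc n → Ms ι) : BddBelow
    {e | ∃ φ : Euc n → ι → ℝ, Sm φ ∧ ip φ φ = 1 ∧ e = ip (Op a b φ) (Op a b φ)} :=
  ⟨0, by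
    rintro _ ⟨φ, -, -, rfl⟩
    exact ip_nonneg⟩

theorem ipc_unit {φ : Euc n → ι → ℝ} (h0 : 0 < nm φ) :
    ip ((nm φ)⁻¹ • φ) ((nm φ)⁻¹ • φ) = 1 := by
  rw [← nm_sq, nm_smul, abs_of_pos (inv_pos.2 h0), inv_mul_cancel₀ h0.ne', one_pow]

theorem ipc_tan {a : Fin n → Euc n → Ms ι} (ha : Tang a) {θ : Euc n} (hθ : ‖θ‖ = 1)
    (w : ι → ℝ) : ∑ k, a k θ *ᵥ (θ k • w) = 0 := by
  have h := congrArg (fun M => M *ᵥ w) (ha θ hθ)
  simp only [Matrix.sum_mulVec, Matrix.smul_mulVec, Matrix.zero_mulVec] at h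
  simp only [Matrix.mulVec_smul, h]

theorem ipc_dot (v : ι → ℝ) : 0 ≤ v ⬝ᵥ v := Finset.sum_nonneg fun _ _ => mul_self_nonneg _

theorem ipc_mv {M : Ms ι} {v : ι → ℝ} {c h : ℝ} (hc : 0 ≤ c) (hM : ∀ p q, |M p q| ≤ c)
    (hv : v ⬝ᵥ v ≤ h) (p : ι) : |(M *ᵥ v) p| ≤ Fintype.card ι * (c * √h) := by
  have h1 : ∀ q, |M p q * v q| ≤ c * √h := fun q => by
    rw [abs_mul]
    refine mul_le_mul (hM p q) (Real.abs_le_sqrt (le_trans ?_ hv)) (abs_nonneg _) hc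
    rw [sq]
    exact Finset.single_le_sum (f := fun q => v q * v q) (fun _ _ => mul_self_nonneg _)
      (Finset.mem_univ q)
  calc |(M *ᵥ v) p| ≤ ∑ q, |M p q * v q| := Finset.abs_sum_le_sum_abs _ _
    _ ≤ ∑ _q : ι, c * √h := Finset.sum_le_sum fun q _ => h1 q
    _ = _ := by rw [Finset.sum_const, Finset.card_univ, nsmul_eq_mul]

section
variable {φ χ : Euc n → ι → ℝ} {a : Fin n → Euc n → Ms ι} {b : Euc n → Ms ι}

theorem lamO_nonneg : 0 ≤ lamO a b := by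
  exact Real.sqrt_nonneg _

/-- Normalise `φ` if `nm φ ≠ 0`. -/
theorem lamO_le (hφ : Sm φ) : lamO a b * nm φ ≤ nm (Op a b φ) := by
  rcases (nm_nonneg (φ := φ)).eq_or_lt with h0 | h0
  · rw [← h0, mul_zero]
    exact nm_nonneg
  · have h1 : lamO a b ≤ nm (Op a b ((nm φ)⁻¹ • φ)) :=
      Real.sqrt_le_sqrt (csInf_le (ipc_bdd a b) ⟨_, hφ.smul _, ipc_unit h0, rfl⟩)
    rw [nm_congr (χ := (nm φ)⁻¹ • Op a b φ) fun θ hθ => Op_smul hφ _ hθ, nm_smul,
      abs_of_pos (inv_pos.2 h0), ← div_eq_inv_mul, le_div_iff₀ h0] at h1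
    exact h1

theorem lamO_near [Nonempty ι] (hn : 0 < n) {e : ℝ} (he : 0 < e) :
    ∃ φ, Sm φ ∧ nm φ = 1 ∧ nm (Op a b φ) ≤ lamO a b + e := by
  have h0 : 0 < nm (fun (_ : Euc n) (_ : ι) => (1 : ℝ)) := by
    refine Real.sqrt_pos.2 ?_
    unfold ip
    rw [integral_const, smul_eq_mul]
    refine mul_pos (omega_pos' hn) ?_
    simp [dotProduct, Fintype.card_pos]
  have hs : Sm (fun (_ : Euc n) (_ : ι) => (1 : ℝ)) := fun _ _ _ => contDiffAt_const
  have hp : 0 < lamO a b + e := add_pos_of_nonneg_of_pos lamO_nonneg he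
  have hlt := (Real.sqrt_lt' hp).1 (lt_add_of_pos_right (lamO a b) he)
  obtain ⟨_, ⟨φ, h1, h2, rfl⟩, h3⟩ :=
    exists_lt_of_csInf_lt (by exact ⟨_, _, hs.smul _, ipc_unit h0, rfl⟩) hlt
  refine ⟨φ, h1, ?_, ((Real.sqrt_lt' hp).2 h3).le⟩
  unfold nm
  rw [h2, Real.sqrt_one]

theorem Op_tg (ha : Tang a) {θ : Euc n} (hθ : ‖θ‖ = 1) :
    Op a b φ θ = ∑ k, a k θ *ᵥ tg φ k θ + b θ *ᵥ φ θ := by
  simp only [Op, tg, Matrix.mulVec_sub, Finset.sum_sub_distrib, ipc_tan ha hθ, sub_zero]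

/-- `pd_of_vanish` for the components of `φ - χ`. -/
theorem Op_congr (ha : Tang a) (hφ : Sm φ) (hχ : Sm χ) (e : ∀ θ, ‖θ‖ = 1 → φ θ = χ θ)
    {θ : Euc n} (hθ : ‖θ‖ = 1) : Op a b φ θ = Op a b χ θ := by
  have h0 : θ ≠ 0 := fun h => by simp [h] at hθ
  have d1 : ∀ s, DifferentiableAt ℝ (fun y => φ y s) θ := fun s =>
    (hφ θ hθ s).differentiableAt (by simp)
  have d2 : ∀ s, DifferentiableAt ℝ (fun y => χ y s) θ := fun s =>
    (hχ θ hθ s).differentiableAt (by simp)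
  choose c hc using fun s => pd_of_vanish (f := fun y => φ y s - χ y s) h0 ((d1 s).sub (d2 s))
    fun y hy => by rw [e y (hy.trans hθ), sub_self]
  have e1 : ∀ k, pdV φ k θ = pdV χ k θ + θ k • c := fun k => funext fun s => by
    have := hc s k
    rw [pd_sub (d1 s) (d2 s)] at this
    simp only [pdV, Pi.add_apply, Pi.smul_apply, smul_eq_mul]
    linarith
  simp only [Op, e1, Matrix.mulVec_add, Finset.sum_add_distrib, ipc_tan ha hθ, add_zero, e θ hθ]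

end

theorem op_bound (n : ℕ) (ι : Type) [Fintype ι] [DecidableEq ι] : ∃ C, 0 < C ∧
    ∀ (a : Fin n → Euc n → Ms ι) (b : Euc n → Ms ι) (c : ℝ) (φ : Euc n → ι → ℝ),
      (∀ k, SmM (a k)) → SmM b → Tang a → Sm φ → 0 ≤ c →
      (∀ θ, ‖θ‖ = 1 → ∀ p q, (∀ k, |a k θ p q| ≤ c) ∧ |b θ p q| ≤ c) →
      nm (Op a b φ) ≤ C * c * √(H1 φ) := by
  obtain ⟨N, hN⟩ : ∃ N : ℝ, N = Fintype.card ι := ⟨_, rfl⟩
  have hN0 : 0 ≤ N := hN ▸ Nat.cast_nonneg _
  have hn0 : (0 : ℝ) ≤ n := Nat.cast_nonneg _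
  refine ⟨(N + 1) * ((n + 1) * N + 1), by positivity, fun a b c φ _ _ ha hφ hc hb => ?_⟩
  have pt : ∀ θ : Euc n, ‖θ‖ = 1 → Op a b φ θ ⬝ᵥ Op a b φ θ ≤
      ((N + 1) * ((n + 1) * N + 1) * c) ^ 2 * h1d φ θ := fun θ hθ => by
    have s0 : 0 ≤ ∑ k, tg φ k θ ⬝ᵥ tg φ k θ := Finset.sum_nonneg fun _ _ => ipc_dot _
    have h0 : 0 ≤ h1d φ θ := add_nonneg s0 (ipc_dot _)
    have h1 : ∀ k, tg φ k θ ⬝ᵥ tg φ k θ ≤ h1d φ θ := fun k =>
      (Finset.single_le_sum (f := fun k => tg φ k θ ⬝ᵥ tg φ k θ) (fun _ _ => ipc_dot _)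
        (Finset.mem_univ k)).trans (le_add_of_nonneg_right (ipc_dot _))
    have h2 : φ θ ⬝ᵥ φ θ ≤ h1d φ θ := le_add_of_nonneg_left s0
    have h3 : ∀ p, |Op a b φ θ p| ≤ (n + 1) * N * (c * √(h1d φ θ)) := fun p => by
      rw [Op_tg ha hθ, Pi.add_apply, Finset.sum_apply]
      have b1 := ipc_mv hc (fun p q => (hb θ hθ p q).2) h2 p
      have b2 : |∑ k, (a k θ *ᵥ tg φ k θ) p| ≤ n * (N * (c * √(h1d φ θ))) := by
        refine (Finset.abs_sum_le_sum_abs _ _).trans ((Finset.sum_le_sum fun k _ =>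
          ipc_mv hc (fun p q => (hb θ hθ p q).1 k) (h1 k) p).trans ?_)
        rw [Finset.sum_const, Finset.card_univ, Fintype.card_fin, nsmul_eq_mul, hN]
      rw [← hN] at b1
      linarith [abs_add_le (∑ k, (a k θ *ᵥ tg φ k θ) p) ((b θ *ᵥ φ θ) p)]
    have h4 : ∀ p, Op a b φ θ p * Op a b φ θ p ≤ ((n + 1) * N * c) ^ 2 * h1d φ θ := fun p => by
      have := pow_le_pow_left₀ (abs_nonneg _) (h3 p) 2
      rw [sq_abs, ← mul_assoc, mul_pow, Real.sq_sqrt h0, sq] at this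
      exact this
    refine (Finset.sum_le_sum fun p _ => h4 p).trans ?_
    rw [Finset.sum_const, Finset.card_univ, nsmul_eq_mul, ← hN, ← mul_assoc]
    refine mul_le_mul_of_nonneg_right ?_ h0
    rw [mul_assoc (N + 1), mul_pow (N + 1)]
    refine mul_le_mul (by nlinarith) (pow_le_pow_left₀ (by positivity) ?_ 2) (by positivity)
      (by positivity)
    exact mul_le_mul_of_nonneg_right (by linarith) hc
  have hi : Integrable (fun θ : Metric.sphere (0 : Euc n) 1 => h1d φ (θ : Euc n)) (sph n) := by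
    simpa only [one_smul] using CS.integrable one_pos hφ.cs_h1d
  have hle : ip (Op a b φ) (Op a b φ) ≤ ((N + 1) * ((n + 1) * N + 1) * c) ^ 2 * H1 φ := by
    unfold ip H1
    rw [← integral_const_mul]
    exact integral_mono_of_nonneg (Eventually.of_forall fun _ => ipc_dot _) (hi.const_mul _)
      (Eventually.of_forall fun θ => pt θ (by simp))
  refine (Real.sqrt_le_sqrt hle).trans ?_
  rw [Real.sqrt_mul (sq_nonneg _), Real.sqrt_sq (by positivity)]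

theorem smM_bdd {a : Fin n → Euc n → Ms ι} {b : Euc n → Ms ι} (ha : ∀ k, SmM (a k)) (hb : SmM b) :
    ∃ c, 0 < c ∧ ∀ θ, ‖θ‖ = 1 → ∀ p q, (∀ k, |a k θ p q| ≤ c) ∧ |b θ p q| ≤ c := by
  have hf : CS 1 fun y => ∑ p, ∑ q, (∑ k, |a k y p q| + |b y p q|) := fun y hy =>
    tendsto_finsetSum _ fun p _ => tendsto_finsetSum _ fun q _ =>
      (tendsto_finsetSum _ fun k _ => (ha k y hy p q).continuousAt.abs).add
        (hb y hy p q).continuousAt.abs
  obtain ⟨c, hc, h⟩ := CS.bdd one_pos hf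
  refine ⟨c, hc, fun θ hθ p q => ?_⟩
  have s0 : ∀ p q, 0 ≤ ∑ k, |a k θ p q| := fun p q => Finset.sum_nonneg fun _ _ => abs_nonneg _
  have h1 : ∑ k, |a k θ p q| + |b θ p q| ≤ c :=
    ((Finset.single_le_sum (f := fun q => ∑ k, |a k θ p q| + |b θ p q|)
      (fun q _ => add_nonneg (s0 p q) (abs_nonneg _)) (Finset.mem_univ q)).trans
      (Finset.single_le_sum (f := fun p => ∑ q, (∑ k, |a k θ p q| + |b θ p q|))
        (fun p _ => Finset.sum_nonneg fun q _ => add_nonneg (s0 p q) (abs_nonneg _))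
        (Finset.mem_univ p))).trans ((le_abs_self _).trans (h θ hθ))
  refine ⟨fun k => ?_, by linarith [s0 p q]⟩
  have := Finset.single_le_sum (f := fun k => |a k θ p q|) (fun _ _ => abs_nonneg _)
    (Finset.mem_univ k)
  linarith [abs_nonneg (b θ p q)]

/-- The remainder is `Op` with coefficients `a s - a t - (s - t) • a'`, bounded by `UD`. -/
theorem Fam.rem {a : ℝ → Fin n → Euc n → Ms ι} {b : ℝ → Euc n → Ms ι}
    {a' : Fin n → Euc n → Ms ι} {b' : Euc n → Ms ι} {t : ℝ} (h : Fam a b a' b' t) {ε : ℝ}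
    (hε : 0 < ε) : ∀ᶠ s in 𝓝 t, ∀ φ, Sm φ →
      nm (Op (a s) (b s) φ - Op (a t) (b t) φ - (s - t) • Op a' b' φ)
        ≤ ε * |s - t| * √(H1 φ) := by
  obtain ⟨C, hC, hb⟩ := op_bound n ι
  have hε' : 0 < ε / C := div_pos hε hC
  filter_upwards [h.sma, h.smb, h.tan, eventually_all.2 fun k => h.uda k _ hε', h.udb _ hε']
    with s s1 s2 s3 s4 s5 φ hφ
  have e : Op (a s) (b s) φ - Op (a t) (b t) φ - (s - t) • Op a' b' φ =
      Op (fun k y => a s k y - a t k y - (s - t) • a' k y)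
        (fun y => b s y - b t y - (s - t) • b' y) φ := by
    funext y
    simp only [Op, Pi.sub_apply, Pi.smul_apply, Matrix.sub_mulVec, Matrix.smul_mulVec,
      Finset.sum_sub_distrib, smul_add, Finset.smul_sum]
    abel
  rw [e]
  refine (hb (fun k y => a s k y - a t k y - (s - t) • a' k y)
    (fun y => b s y - b t y - (s - t) • b' y) (ε / C * |s - t|) φ (fun k θ hθ p q => ?_)
    (fun θ hθ p q => ?_)
    (fun θ hθ => ?_) hφ (by positivity) fun θ hθ p q => ⟨fun k => s4 k θ hθ p q,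
      s5 θ hθ p q⟩).trans (le_of_eq ?_)
  · exact ((s1 k θ hθ p q).sub (h.sma.self_of_nhds k θ hθ p q)).sub
      (contDiffAt_const.mul (h.sma' k θ hθ p q))
  · exact ((s2 θ hθ p q).sub (h.smb.self_of_nhds θ hθ p q)).sub
      (contDiffAt_const.mul (h.smb' θ hθ p q))
  · simp only [smul_sub, Finset.sum_sub_distrib, smul_comm _ (s - t), ← Finset.smul_sum,
      s3 θ hθ, h.tan.self_of_nhds θ hθ, h.tan' θ hθ, smul_zero, sub_zero]
  · rw [← mul_assoc C, mul_div_cancel₀ _ hC.ne']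

end Vale.Agent.P366
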