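import Vale.Agent.P366I.Gard
import Vale.Agent.P366I.Cst
import Vale.Agent.P366I.Dini

/-! The key inequalities. -/

noncomputable section

open Matrix MeasureTheory Set Filter Topology Asymptotics
open scoped ContDiff

namespace Vale.Agent.P366

variable {n : ℕ} {ι : Type} [Fintype ι] [DecidableEq ι]

theorem key_c (t c : ℝ) : CS t fun _ : Euc n => c := fun _ _ => continuousAt_const

theorem key_mul {t : ℝ} {A B : Euc n → ℝ} (hA : CS t A) (hB : CS t B) : CS t fun x => A x * B x :=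
  fun x hx => (hA x hx).mul (hB x hx)

theorem key_add {t : ℝ} {A B : Euc n → ℝ} (hA : CS t A) (hB : CS t B) : CS t fun x => A x + B x :=
  fun x hx => (hA x hx).add (hB x hx)

theorem key_sub {t : ℝ} {A B : Euc n → ℝ} (hA : CS t A) (hB : CS t B) : CS t fun x => A x - B x :=
  fun x hx => (hA x hx).sub (hB x hx)

theorem key_cs {ρ t : ℝ} (ht : ρ < t) {A : Euc n → ℝ}
    (hA : ∀ x : Euc n, ρ < ‖x‖ → ContDiffAt ℝ ∞ A x) : CS t A :=
  fun x hx => (hA x (hx ▸ ht)).continuousAt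

theorem key_dn {ρ : ℝ} {g : Fld n} (h : Met ρ g) {x : Euc n} (hx : ρ < ‖x‖) {f : Euc n → ℝ}
    (hf : ContDiffAt ℝ ∞ f x) : ContDiffAt ℝ ∞ (dn g f) x :=
  ContDiffAt.sum fun k _ => (h.sm_nu hx k).mul (contDiffAt_pd hf k)

omit [Fintype ι] [DecidableEq ι] in
theorem key_exs (g K : Fld n) (φ χ : Euc n → ι → ℝ) (l : ℝ) (x : Euc n) :
    exs g K (φ - l • χ) x = exs g K φ x - l • exs g K χ x := by
  simp only [exs, Pi.sub_apply, Pi.smul_apply, smul_sub, smul_comm l]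

section
variable {ρ : ℝ} {g : Fld n} (h : Met ρ g) {t : ℝ} (ht : ρ < t)
  {A B C D E F G H : Euc n → ℝ} (hA : CS t A) (hB : CS t B) (hC : CS t C) (hD : CS t D)
  (hE : CS t E)
include h ht hA hB hC hD hE

theorem key_lin (a b c d e : ℝ) :
    LI g t (fun x => a * A x + b * B x + c * C x + d * D x + e * E x) =
      a * LI g t A + b * LI g t B + c * LI g t C + d * LI g t D + e * LI g t E := by
  have h1 := key_mul (key_c t a) hA
  have h2 := key_mul (key_c t b) hB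
  have h3 := key_mul (key_c t c) hC
  have h4 := key_mul (key_c t d) hD
  have h5 := key_mul (key_c t e) hE
  rw [LI_add h ht (key_add (key_add (key_add h1 h2) h3) h4) h5,
    LI_add h ht (key_add (key_add h1 h2) h3) h4, LI_add h ht (key_add h1 h2) h3,
    LI_add h ht h1 h2, LI_cmul, LI_cmul, LI_cmul, LI_cmul, LI_cmul]

theorem key_le (hF : CS t F) (a b c d e : ℝ)
    (hp : ∀ x, ‖x‖ = t → a * A x + b * B x + c * C x + d * D x + e * E x ≤ F x) :
    a * LI g t A + b * LI g t B + c * LI g t C + d * LI g t D + e * LI g t E ≤ LI g t F := by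
  rw [← key_lin h ht hA hB hC hD hE]
  exact LI_mono h ht (key_add (key_add (key_add (key_add (key_mul (key_c t a) hA)
    (key_mul (key_c t b) hB)) (key_mul (key_c t c) hC)) (key_mul (key_c t d) hD))
    (key_mul (key_c t e) hE)) hF hp

end

section
variable {ρ : ℝ} {g K : Fld n} {η κ : ℝ → ℝ} {γ S : Euc n → Fin n → Ms ι} (hn : 3 ≤ n)
  (h : Sh ρ g K η κ) (hG : Geo ρ g γ S) {t : ℝ} (ht : ρ < t)
include hn h hG ht

omit hn hG in
theorem key_pt {x : Euc n} (hx : ‖x‖ = t) : 0 < lapse g x ∧ 0 < wf g K x ∧ 0 < η t ∧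
    lapse g x * meanH g x = η t ∧ lapse g x * trS g K x = κ t ∧
    √(η t ^ 2 - κ t ^ 2) = lapse g x * wf g K x ∧
    η t ^ 2 - κ t ^ 2 = (lapse g x * wf g K x) ^ 2 := by
  subst hx
  have hu := h.met.lapse_pos ht
  have e : √(η ‖x‖ ^ 2 - κ ‖x‖ ^ 2) = lapse g x * wf g K x := by
    rw [h.wf_eq ht]
    field_simp
  exact ⟨hu, h.wf_pos ht, (abs_nonneg _).trans_lt (h.un _ ht), h.hη x ht, h.hκ x ht, e,
    by rw [← e, Real.sq_sqrt (h.xi_pos ht).le]⟩

/-- `id_three`, `Sh.con`, `Sh.dn_wf`, `Sh.wf_sq`; with `u = lapse`, `u H = η`, `u k = κ`,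
`u w = √ξ`: `scal/2 + dn H ≥ -k^2/2 - (κ/η)^2 sq2/2 + (w/H) dn w` and `w / H = √ξ / η`. -/
theorem key_three {φ : Euc n → ι → ℝ} (hφ : Sm φ) :
    √(η t ^ 2 - κ t ^ 2) / η t *
        LI g t (fun x => lapse g x * dn g (wf g K) x * (exs g K φ x ⬝ᵥ exs g K φ x))
      + LI g t (fun x => lapse g x * (2 * nT g γ S (exs g K φ) x
        + (1 / 2) * ((η t ^ 2 - κ t ^ 2) / η t ^ 2) * sq2 g x * (exs g K φ x ⬝ᵥ exs g K φ x)))
      ≤ √(η t ^ 2 - κ t ^ 2) * (2 * nm (Lt g K γ S t φ) ^ 2 - (1 / 2) * nm φ ^ 2)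
        - 2 * LI g t (fun x => lapse g x * (ba g γ (exs g K φ) x ⬝ᵥ DS g γ S (exs g K φ) x)) := by
  have hψ := h.smU_exs hφ
  have hD := hG.smU_DS hψ
  have cu := key_cs ht fun x hx => h.met.sm_lapse hx
  have cw := key_cs ht fun x hx => h.sm_wf hx
  have cq := key_cs ht fun x hx => hψ.dot hψ hx
  have cD := key_cs ht fun x hx => hD.dot hD hx
  have cb := key_cs ht fun x hx => (hG.smU_ba hψ).dot hD hx
  have cT := key_mul (key_c t 2) (key_cs ht fun x hx => hG.sm_nT hψ hx)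
  have cs := key_cs ht fun x hx => h.met.sm_sq2 hx
  have ci : CS t fun x => (wf g K x)⁻¹ := fun x hx => (cw x hx).inv₀ (key_pt h ht hx).2.1.ne'
  have cH : CS t fun x => meanH g x ^ 2 := key_cs ht fun x hx => (h.met.sm_meanH hx).pow 2
  have cR : CS t fun x => scal g x / 2 := key_cs ht fun x hx => (h.met.sm_scal hx).div_const 2
  have k := key_le h.met ht
    (key_mul (key_mul cu (key_cs ht fun x hx => key_dn h.met hx (h.sm_wf hx))) cq)
    (key_mul cu (key_add cT (key_mul (key_mul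
      (key_c t ((1 / 2) * ((η t ^ 2 - κ t ^ 2) / η t ^ 2))) cs) cq)))
    (key_mul ci cD) (key_mul cw cq) (key_mul cu cb)
    (key_mul cu (key_add (key_add (key_add (key_sub (key_add cT
      (key_mul (key_mul (key_c t (1 / 2)) cs) cq)) (key_mul (key_c t 2) cD))
      (key_mul (key_mul (key_c t (1 / 2)) cH) cq)) (key_mul (key_c t 2) cb))
      (key_mul (key_add cR (key_cs ht fun x hx => key_dn h.met hx (h.met.sm_meanH hx))) cq)))
    (√(η t ^ 2 - κ t ^ 2) / η t) 1 (-2 * √(η t ^ 2 - κ t ^ 2)) (√(η t ^ 2 - κ t ^ 2) / 2) 2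
    fun x hx => ?_
  · rw [id_three (by omega) hG ht hψ, ← ip_Lt_Lt hn h hG ht hφ, ← ip_LI hn h ht, ← nm_sq,
      ← nm_sq] at k
    linarith
  · obtain ⟨hu, hw, hη, e1, e2, e3, e4⟩ := key_pt h ht hx
    have hx' : ρ < ‖x‖ := hx ▸ ht
    have k1 := h.con hx' hG
    have k2 := h.dn_wf hx'
    have k3 := h.wf_sq hx'
    have hq := ipb_nn (exs g K φ x)
    rw [hx] at k1
    have k4 : lapse g x * wf g K x / η t * dn g (wf g K) x =
        dn g (meanH g) x - κ t / η t * dn g (trS g K) x := by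
      field_simp
      rw [← e1, ← e2]
      linear_combination lapse g x * k2
    have k5 : (η t ^ 2 - κ t ^ 2) / η t ^ 2 = 1 - (κ t / η t) ^ 2 := by field_simp
    have k6 := mul_le_mul_of_nonneg_left k1 (mul_nonneg hu.le hq)
    have k7 : wf g K x * (wf g K x)⁻¹ = 1 := mul_inv_cancel₀ hw.ne'
    rw [e3, k5]
    generalize exs g K φ x ⬝ᵥ exs g K φ x = q at *
    generalize DS g γ S (exs g K φ) x ⬝ᵥ DS g γ S (exs g K φ) x = d at *
    have k8 : lapse g x * wf g K x / η t * (lapse g x * dn g (wf g K) x * q) =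
        lapse g x * q * (dn g (meanH g) x - κ t / η t * dn g (trS g K) x) := by
      rw [← k4]
      ring
    have k9 : -2 * (lapse g x * wf g K x) * ((wf g K x)⁻¹ * d) = -2 * lapse g x * d := by
      linear_combination (-2 * lapse g x * d) * k7
    have k10 : lapse g x * wf g K x / 2 * (wf g K x * q) =
        lapse g x * q * (meanH g x ^ 2 - trS g K x ^ 2) / 2 := by
      rw [← k3]
      ring
    rw [k8, k9, k10]
    linarith

/-- `DS_exs`, `Pt.ba_orth`, `ba_bound` with `χ = Lt φ - l • φ`. -/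
theorem ba_small : ∃ C, 0 < C ∧ ∀ (φ : Euc n → ι → ℝ) (l : ℝ), Sm φ →
    |LI g t (fun x => lapse g x * (ba g γ (exs g K φ) x ⬝ᵥ DS g γ S (exs g K φ) x))|
      ≤ C * nm φ * nm (Lt g K γ S t φ - l • φ) := by
  obtain ⟨C, hC, hb⟩ := ba_bound hn h hG ht
  refine ⟨C, hC, fun φ l hφ => ?_⟩
  refine Eq.trans_le (congrArg _ (LI_congr h.met ht fun x hx => ?_))
    (hb φ _ hφ ((Lt_sm hn h hG ht hφ).sub (hφ.smul l)))
  have e : ba g γ (exs g K φ) x ⬝ᵥ exs g K φ x = 0 := (pt_of hG (hx ▸ ht)).ba_orth _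
  rw [DS_exs hn h hG ht hφ hx, key_exs, dotProduct_sub, dotProduct_smul, dotProduct_smul, e,
    smul_eq_mul, smul_zero, sub_zero, mul_assoc]

/-- `Fam.hasDeriv`, `ip_Lt_LI` near `t`, `id_one`; `id_norm` with `w = wf` has derivative `0` by
`ip_LI`. -/
theorem Lt'_eq {φ : Euc n → ι → ℝ} (hφ : Sm φ) (l : ℝ) : ip (Lt' g K γ S t φ) φ
    = LI g t (fun x => lapse g x * cr g γ S (exs g K φ) x)
      + η t * (ip (Lt g K γ S t φ) φ - l * nm φ ^ 2)
      + 2 * LI g t (fun x => lapse g x * wf g K x *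
          (pn g S (exs g K φ) x ⬝ᵥ exs g K (Lt g K γ S t φ - l • φ) x))
      - l * LI g t (fun x => lapse g x * dn g (wf g K) x * (exs g K φ x ⬝ᵥ exs g K φ x))
      - LI g t (fun x => lapse g x * (ba g γ (exs g K φ) x ⬝ᵥ DS g γ S (exs g K φ) x)) := by
  have hψ := h.smU_exs hφ
  have hD := hG.smU_DS hψ
  have cu := key_cs ht fun x hx => h.met.sm_lapse hx
  have cw := key_cs ht fun x hx => h.sm_wf hx
  have cq := key_cs ht fun x hx => hψ.dot hψ hx
  have hp := hG.smU_pn hψ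
  have ev : ∀ᶠ s in 𝓝 t, ρ < s := lt_mem_nhds ht
  have k1 := ((fam_of hn h hG ht).hasDeriv hφ).unique
    ((id_one (by omega) hG ht hψ).congr_of_eventuallyEq
      (ev.mono fun s hs => ip_Lt_LI hn h hG hs hφ))
  have k2 := (hasDerivAt_const t (ip φ φ)).unique
    ((id_norm (by omega) hG ht hψ fun x hx => h.sm_wf hx).congr_of_eventuallyEq
      (ev.mono fun s hs => ip_LI hn h hs))
  have cc := key_mul cu (key_cs ht fun x hx => hG.sm_cr hψ hx)
  have cb := key_mul cu (key_cs ht fun x hx => (hG.smU_ba hψ).dot hD hx)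
  have cD := key_cs ht fun x hx => hD.dot hψ hx
  have cn := key_mul (key_mul cu (key_cs ht fun x hx => key_dn h.met hx (h.sm_wf hx))) cq
  have cp := key_mul (key_mul cu cw) (key_cs ht fun x hx => hp.dot hψ hx)
  have cL := key_mul (key_mul cu cw)
    (key_cs ht fun x hx => hp.dot (h.smU_exs ((Lt_sm hn h hG ht hφ).sub (hφ.smul l))) hx)
  have k3 := key_lin h.met ht cc cD cL cp cb 1 (η t) 2 (2 * l) (-1)
  have k4 := key_lin h.met ht cn cp (key_mul cw cq) cn cn 1 2 (η t) 0 0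
  rw [← ip_Lt_LI hn h hG ht hφ] at k3
  rw [← ip_LI hn h ht, ← nm_sq] at k4
  have k5 := k1.trans ((LI_congr h.met ht fun x hx => ?_).trans k3)
  have k6 := k2.trans ((LI_congr h.met ht fun x hx => ?_).trans k4)
  · unfold Lt'
    linear_combination k5 - l * k6
  · rw [← (key_pt h ht hx).2.2.2.1]
    ring
  · rw [← (key_pt h ht hx).2.2.2.1, key_exs, dotProduct_sub, dotProduct_smul]
    nth_rewrite 2 [DS_exs hn h hG ht hφ hx]
    rw [dotProduct_smul, smul_eq_mul, smul_eq_mul]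
    ring

/-- Integrate `Pt.twistor` (`u = lapse`, `w = wf`, `trA_sff`); `u η / √ξ = η / w`,
`u √ξ / η = w u^2 / η`. -/
theorem twistor_int {φ : Euc n → ι → ℝ} (hφ : Sm φ) {l : ℝ} (hl : 1 / 2 ≤ l) :
    -(η t / ((n : ℝ) - 1)) * ip (Lt g K γ S t φ) φ
      + 2 * l * η t * nm (Lt g K γ S t φ) ^ 2 / ((n : ℝ) - 1)
      + (1 / 2) * l * η t * nm φ ^ 2 / ((n : ℝ) - 1)
    ≤ LI g t (fun x => lapse g x * cr g γ S (exs g K φ) x)
      + l * (η t / √(η t ^ 2 - κ t ^ 2)) * LI g t (fun x => lapse g x * (2 * nT g γ S (exs g K φ) x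
        + (1 / 2) * ((η t ^ 2 - κ t ^ 2) / η t ^ 2) * sq2 g x * (exs g K φ x ⬝ᵥ exs g K φ x))) := by
  have hψ := h.smU_exs hφ
  have hD := hG.smU_DS hψ
  have cu := key_cs ht fun x hx => h.met.sm_lapse hx
  have cw := key_cs ht fun x hx => h.sm_wf hx
  have cq := key_cs ht fun x hx => hψ.dot hψ hx
  have ci : CS t fun x => (wf g K x)⁻¹ := fun x hx => (cw x hx).inv₀ (key_pt h ht hx).2.1.ne'
  have k := key_le h.met ht (key_cs ht fun x hx => hD.dot hψ hx)
    (key_mul ci (key_cs ht fun x hx => hD.dot hD hx)) (key_mul cw cq)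
    (key_mul cu (key_add (key_mul (key_c t 2) (key_cs ht fun x hx => hG.sm_nT hψ hx))
      (key_mul (key_mul (key_c t ((1 / 2) * ((η t ^ 2 - κ t ^ 2) / η t ^ 2)))
        (key_cs ht fun x hx => h.met.sm_sq2 hx)) cq))) cq
    (key_mul cu (key_cs ht fun x hx => hG.sm_cr hψ hx))
    (-(η t / ((n : ℝ) - 1))) (2 * l * η t / ((n : ℝ) - 1)) ((1 / 2) * l * η t / ((n : ℝ) - 1))
    (-(l * (η t / √(η t ^ 2 - κ t ^ 2)))) 0 fun x hx => ?_
  · rw [← ip_Lt_LI hn h hG ht hφ, ← ip_Lt_Lt hn h hG ht hφ, ← ip_LI hn h ht, ← nm_sq,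
      ← nm_sq] at k
    linear_combination k
  · obtain ⟨hu, hw, hη, e1, -, e3, e4⟩ := key_pt h ht hx
    have hx' : ρ < ‖x‖ := hx ▸ ht
    have k1 := (pt_of hG hx').twistor (exs g K φ x) (cov S (exs g K φ) x) (by omega) hw hl hη
      ((congrArg _ (trA_sff h.met hx')).trans e1)
    have k2 : η t / (lapse g x * wf g K x) * lapse g x = η t / wf g K x := by field_simp
    have k3 : η t / (lapse g x * wf g K x) * lapse g x * ((lapse g x * wf g K x) ^ 2 / η t ^ 2) =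
        wf g K x * lapse g x ^ 2 / η t := by field_simp
    rw [e3, e4]
    change -(η t / ((n : ℝ) - 1)) * (DS g γ S (exs g K φ) x ⬝ᵥ exs g K φ x)
      + 2 * l * (η t / wf g K x) * (DS g γ S (exs g K φ) x ⬝ᵥ DS g γ S (exs g K φ) x) / _ + _
      ≤ _ * cr g γ S (exs g K φ) x + _ * nT g γ S (exs g K φ) x + _ * sq2 g x * _ at k1
    linear_combination k1 - 2 * l * nT g γ S (exs g K φ) x * k2
      - l / 2 * sq2 g x * (exs g K φ x ⬝ᵥ exs g K φ x) * k3

end

end Vale.Agent.P366
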