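import Vale.Agent.P366I.Sm1
import Vale.Agent.P366I.Nor
import Vale.Agent.P366I.PA1

/-! The Lichnerowicz divergence identity. -/

noncomputable section

open Matrix MeasureTheory Set Filter Topology Asymptotics
open scoped ContDiff

namespace Vale.Agent.P366

variable {n : ℕ} {ι : Type} [Fintype ι] [DecidableEq ι]

/-- The antisymmetric coefficient field of the Witten vector field. -/
def lich_M (g : Fld n) (γ : Euc n → Fin n → Ms ι) (k l : Fin n) (y : Euc n) : Ms ι :=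
  (g y)⁻¹ k l • (1 : Ms ι) + γ y k * γ y l

theorem lich_d {f : Euc n → ℝ} {x : Euc n} (h : ContDiffAt ℝ ∞ f x) : DifferentiableAt ℝ f x :=
  h.differentiableAt (by simp)

theorem lich_anti (F : Fin n → Fin n → ℝ) (h : ∀ k l, F l k = -F k l) : ∑ k, ∑ l, F k l = 0 := by
  have e : ∑ k, ∑ l, F k l = -∑ k, ∑ l, F k l := by
    conv_lhs => rw [Finset.sum_comm]
    simp only [← Finset.sum_neg_distrib]
    exact Finset.sum_congr rfl fun k _ => Finset.sum_congr rfl fun l _ => h k l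
  linarith

omit [DecidableEq ι] in
theorem lich_skew {B : Ms ι} (hB : Bᵀ = -B) (u v : ι → ℝ) : (B *ᵥ u) ⬝ᵥ v = -(u ⬝ᵥ B *ᵥ v) := by
  rw [dotProduct_mulVec, ← mulVec_transpose, hB, neg_mulVec, neg_dotProduct, neg_neg]

section
variable {x : Euc n} {k : Fin n} {ψ χ : Euc n → ι → ℝ} {A B : Euc n → Ms ι}

omit [DecidableEq ι] in
theorem lich_dot (hψ : ∀ s, DifferentiableAt ℝ (fun y => ψ y s) x)
    (hχ : ∀ s, DifferentiableAt ℝ (fun y => χ y s) x) :
    pd (fun y => ψ y ⬝ᵥ χ y) k x = pdV ψ k x ⬝ᵥ χ x + ψ x ⬝ᵥ pdV χ k x := by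
  simp only [dotProduct, pdV]
  rw [pd_sum _ fun s _ => (hψ s).fun_mul (hχ s), ← Finset.sum_add_distrib]
  exact Finset.sum_congr rfl fun s _ => pd_mul (hψ s) (hχ s)

omit [DecidableEq ι] in
theorem lich_mulVec (hA : ∀ s t, DifferentiableAt ℝ (fun y => A y s t) x)
    (hψ : ∀ s, DifferentiableAt ℝ (fun y => ψ y s) x) :
    pdV (fun y => A y *ᵥ ψ y) k x = pdM A k x *ᵥ ψ x + A x *ᵥ pdV ψ k x :=
  funext fun s => lich_dot (ψ := fun y => A y s) (hA s) hψ

omit [DecidableEq ι] in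
theorem lich_mul (hA : ∀ s t, DifferentiableAt ℝ (fun y => A y s t) x)
    (hB : ∀ s t, DifferentiableAt ℝ (fun y => B y s t) x) :
    pdM (fun y => A y * B y) k x = pdM A k x * B x + A x * pdM B k x :=
  Matrix.ext fun s t => lich_dot (ψ := fun y => A y s) (χ := fun y u => B y u t) (hA s)
    fun u => hB u t

omit [DecidableEq ι] in
theorem lich_cov_mul (S : Euc n → Fin n → Ms ι)
    (hA : ∀ s t, DifferentiableAt ℝ (fun y => A y s t) x)
    (hψ : ∀ s, DifferentiableAt ℝ (fun y => ψ y s) x) :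
    cov S (fun y => A y *ᵥ ψ y) x k =
      (pdM A k x + (S x k * A x - A x * S x k)) *ᵥ ψ x + A x *ᵥ cov S ψ x k := by
  simp only [cov, lich_mulVec hA hψ, add_mulVec, sub_mulVec, mulVec_add, mulVec_mulVec]
  abel

omit [DecidableEq ι] in
theorem lich_cov_sum (S : Euc n → Fin n → Ms ι) {F : Fin n → Euc n → ι → ℝ}
    (hF : ∀ l s, DifferentiableAt ℝ (fun y => F l y s) x) :
    cov S (fun y => ∑ l, F l y) x k = ∑ l, cov S (F l) x k := by
  have e : pdV (fun y => ∑ l, F l y) k x = ∑ l, pdV (F l) k x := by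
    funext s
    simp only [pdV, Finset.sum_apply]
    exact pd_sum _ fun l _ => hF l s
  simp only [cov, e, mulVec_sum, Finset.sum_add_distrib]

omit [DecidableEq ι] in
theorem lich_sm_mulVec (hA : ∀ s t, ContDiffAt ℝ ∞ (fun y => A y s t) x)
    (hψ : ∀ s, ContDiffAt ℝ ∞ (fun y => ψ y s) x) (s : ι) :
    ContDiffAt ℝ ∞ (fun y => (A y *ᵥ ψ y) s) x :=
  ContDiffAt.sum fun t _ => (hA s t).mul (hψ t)

end

section
variable {ρ : ℝ} {g : Fld n} {γ S : Euc n → Fin n → Ms ι} (h : Geo ρ g γ S) {x : Euc n}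
  (hx : ρ < ‖x‖)
include h hx

theorem lich_sm_gg (k l : Fin n) (s t : ι) : ContDiffAt ℝ ∞ (fun y => (γ y k * γ y l) s t) x :=
  ContDiffAt.sum fun u _ => (h.smγ x hx k s u).mul (h.smγ x hx l u t)

theorem lich_sm_M (k l : Fin n) (s t : ι) : ContDiffAt ℝ ∞ (fun y => lich_M g γ k l y s t) x :=
  ((h.met.sm_inv hx k l).mul contDiffAt_const).add (lich_sm_gg h hx k l s t)

theorem lich_gi (k l : Fin n) : (g x)⁻¹ l k = (g x)⁻¹ k l :=
  (h.met.posDef x hx).inv.isHermitian.apply k l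

theorem lich_M_anti (k l : Fin n) : lich_M g γ l k x = -lich_M g γ k l x := by
  rw [lich_M, lich_M, lich_gi h hx k l, eq_sub_of_add_eq' (h.ac x hx k l)]
  module

theorem lich_Dg (j k : Fin n) : pdM (fun y => γ y k) j x + (S x j * γ x k - γ x k * S x j)
    = -∑ m, chr g k j m x • γ x m := by
  rw [← sub_eq_zero, ← h.compat x hx j k]
  abel

theorem lich_DM (j k l : Fin n) :
    pdM (lich_M g γ k l) j x + (S x j * lich_M g γ k l x - lich_M g γ k l x * S x j)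
      = -∑ m, (chr g k j m x • lich_M g γ m l x + chr g l j m x • lich_M g γ k m x) := by
  have e1 : pdM (lich_M g γ k l) j x = pd (fun y => (g y)⁻¹ k l) j x • (1 : Ms ι) +
      pdM (fun y => γ y k * γ y l) j x := by
    ext s t
    have d1 := lich_d (h.met.sm_inv hx k l)
    refine (pd_add (d1.mul_const ((1 : Ms ι) s t)) (lich_d (lich_sm_gg h hx k l s t))).trans ?_
    rw [pd_mul d1 (differentiableAt_const _), pd_const, mul_zero, add_zero]
    rfl
  have e2 : pdM (fun y => γ y k) j x * γ x l + γ x k * pdM (fun y => γ y l) j x +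
      (S x j * (γ x k * γ x l) - γ x k * γ x l * S x j) =
      (-∑ m, chr g k j m x • γ x m) * γ x l + γ x k * -∑ m, chr g l j m x • γ x m := by
    rw [← lich_Dg h hx j k, ← lich_Dg h hx j l]
    noncomm_ring
  have e3 : S x j * lich_M g γ k l x - lich_M g γ k l x * S x j =
      S x j * (γ x k * γ x l) - γ x k * γ x l * S x j := by
    simp only [lich_M, mul_add, add_mul, mul_smul_comm, smul_mul_assoc, mul_one, one_mul]
    abel
  rw [e1, e3, lich_mul (fun s t => lich_d (h.smγ x hx k s t)) fun s t => lich_d (h.smγ x hx l s t),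
    add_assoc, e2, h.met.pd_inv hx]
  simp only [lich_M, neg_mul, mul_neg, Finset.sum_mul, Finset.mul_sum, smul_mul_assoc,
    mul_smul_comm, neg_smul, Finset.sum_smul, add_smul, smul_add, smul_smul,
    Finset.sum_add_distrib]
  abel

end

section
variable {ρ : ℝ} {g : Fld n} {γ S : Euc n → Fin n → Ms ι} (h : Geo ρ g γ S) {x : Euc n}
  (hx : ρ < ‖x‖) {ψ : Euc n → ι → ℝ} (hψ : SmU ρ ψ)
include h hx hψ

theorem pd_dot {χ : Euc n → ι → ℝ} (hχ : SmU ρ χ) (k : Fin n) :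
    pd (fun y => ψ y ⬝ᵥ χ y) k x = cov S ψ x k ⬝ᵥ χ x + ψ x ⬝ᵥ cov S χ x k := by
  rw [lich_dot (fun s => lich_d (hψ x hx s)) fun s => lich_d (hχ x hx s), cov, cov, add_dotProduct,
    dotProduct_add, lich_skew (h.skS x hx k)]
  ring

theorem cov_gam (k i : Fin n) : cov S (fun y => γ y i *ᵥ ψ y) x k
    = γ x i *ᵥ cov S ψ x k - ∑ l, chr g i k l x • (γ x l *ᵥ ψ x) := by
  rw [lich_cov_mul S (fun s t => lich_d (h.smγ x hx i s t)) fun s => lich_d (hψ x hx s),
    lich_Dg h hx, neg_mulVec, sum_mulVec]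
  simp only [smul_mulVec]
  abel

theorem cov_comm (k l : Fin n) :
    cov S (fun y => cov S ψ y l) x k - cov S (fun y => cov S ψ y k) x l
      = (pdM (fun y => S y l) k x - pdM (fun y => S y k) l x
          + (S x k * S x l - S x l * S x k)) *ᵥ ψ x := by
  have e : ∀ k l, pdV (fun y => cov S ψ y l) k x = (fun s => pd (pd (fun y => ψ y s) l) k x) +
      (pdM (fun y => S y l) k x *ᵥ ψ x + S x l *ᵥ pdV ψ k x) := fun k l => by
    rw [← lich_mulVec (fun s t => lich_d (h.smS x hx l s t)) fun s => lich_d (hψ x hx s)]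
    funext s
    exact pd_add (lich_d (contDiffAt_pd (hψ x hx s) l))
      (lich_d (lich_sm_mulVec (h.smS x hx l) (hψ x hx) s))
  have c : (fun s => pd (pd (fun y => ψ y s) l) k x) = fun s => pd (pd (fun y => ψ y s) k) l x :=
    funext fun s => pd_comm (hψ x hx s) l k
  rw [cov, cov.eq_1 S (fun y => cov S ψ y k), e, e, c]
  simp only [cov, add_mulVec, sub_mulVec, mulVec_add, mulVec_mulVec]
  abel

theorem lich_wit (k : Fin n) : pd (wit g γ S ψ k) k x =
    ∑ l, cov S ψ x k ⬝ᵥ lich_M g γ k l x *ᵥ cov S ψ x l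
      - ∑ m, chr g k k m x * wit g γ S ψ m x
      - ∑ m, ∑ l, chr g l k m x * (ψ x ⬝ᵥ lich_M g γ k m x *ᵥ cov S ψ x l)
      + ∑ l, ψ x ⬝ᵥ lich_M g γ k l x *ᵥ cov S (fun y => cov S ψ y l) x k := by
  have hs : ∀ l, SmU ρ fun y => lich_M g γ k l y *ᵥ cov S ψ y l := fun l y hy =>
    lich_sm_mulVec (lich_sm_M h hy k l) (h.smU_cov hψ l y hy)
  have hs' : SmU ρ fun y => ∑ l, lich_M g γ k l y *ᵥ cov S ψ y l := fun y hy s => by
    simp only [Finset.sum_apply]
    exact ContDiffAt.sum fun l _ => hs l y hy s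
  refine (pd_dot h hx hψ hs' k).trans ?_
  have e : ∀ l, cov S (fun y => lich_M g γ k l y *ᵥ cov S ψ y l) x k = _ := fun l =>
    lich_cov_mul S (fun s t => lich_d (lich_sm_M h hx k l s t))
      fun s => lich_d (h.smU_cov hψ l x hx s)
  have w : ∀ m, wit g γ S ψ m x = ∑ l, ψ x ⬝ᵥ lich_M g γ m l x *ᵥ cov S ψ x l := fun m =>
    dotProduct_sum _ _ _
  rw [lich_cov_sum S fun l s => lich_d (hs l x hx s)]
  simp only [e, lich_DM h hx, w, dotProduct_sum, dotProduct_add, neg_mulVec, sum_mulVec, add_mulVec,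
    smul_mulVec, dotProduct_neg, dotProduct_smul, smul_eq_mul, Finset.sum_add_distrib,
    Finset.sum_neg_distrib, Finset.mul_sum, neg_add]
  rw [Finset.sum_comm (f := fun l m => chr g k k m x * (ψ x ⬝ᵥ lich_M g γ m l x *ᵥ cov S ψ x l)),
    Finset.sum_comm (f := fun l m => chr g l k m x * (ψ x ⬝ᵥ lich_M g γ k m x *ᵥ cov S ψ x l))]
  ring

/-- `M^{kl} = g^{kl} + γ^k γ^l` is antisymmetric in `k, l` and parallel. -/
theorem div_wit : divg g (wit g γ S ψ) x
    = lichA (g x)⁻¹ (γ x) (cov S ψ x) + scal g x / 4 * (ψ x ⬝ᵥ ψ x) := by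
  have e1 : ∑ k, ∑ l, cov S ψ x k ⬝ᵥ lich_M g γ k l x *ᵥ cov S ψ x l =
      lichA (g x)⁻¹ (γ x) (cov S ψ x) := by
    simp only [lichA, lich_M, add_mulVec, smul_mulVec, one_mulVec, dotProduct_add, dotProduct_smul,
      smul_eq_mul, Finset.sum_add_distrib, sum_dotProduct, dotProduct_sum,
      lich_skew (h.skγ x hx _), mulVec_mulVec, Finset.sum_neg_distrib, sub_neg_eq_add]
    exact congrArg _ Finset.sum_comm
  have e2 : ∑ k, ∑ m, ∑ l, chr g l k m x * (ψ x ⬝ᵥ lich_M g γ k m x *ᵥ cov S ψ x l) = 0 := by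
    refine lich_anti _ fun k m => ?_
    simp only [lich_M_anti h hx k m, neg_mulVec, dotProduct_neg, mul_neg, Finset.sum_neg_distrib,
      h.met.chr_symm hx _ m k]
  obtain ⟨R, hR⟩ : ∃ R : Fin n → Fin n → Ms ι, ∀ k l, R k l = pdM (fun y => S y l) k x
    - pdM (fun y => S y k) l x + (S x k * S x l - S x l * S x k) := ⟨_, fun _ _ => rfl⟩
  obtain ⟨Q, hQ⟩ : ∃ Q : Fin n → Fin n → ι → ℝ, ∀ k l, Q k l = cov S (fun y => cov S ψ y l) x k :=
    ⟨_, fun _ _ => rfl⟩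
  have c : ∀ k l, R k l *ᵥ ψ x = Q k l - Q l k := fun k l => by
    rw [hR, hQ, hQ, cov_comm h hx hψ]
  have e3 : ∑ k, ∑ l, (ψ x ⬝ᵥ lich_M g γ k l x *ᵥ Q k l + ψ x ⬝ᵥ lich_M g γ k l x *ᵥ Q l k) = 0 := by
    refine lich_anti _ fun k l => ?_
    rw [lich_M_anti h hx k l, neg_mulVec, neg_mulVec, dotProduct_neg, dotProduct_neg]
    ring
  have e4 : ∑ k, ∑ l, (g x)⁻¹ k l * (ψ x ⬝ᵥ (Q k l - Q l k)) = 0 := by
    refine lich_anti _ fun k l => ?_
    rw [lich_gi h hx k l, dotProduct_sub, dotProduct_sub]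
    ring
  have e5 : ∑ k, ∑ l, ψ x ⬝ᵥ (γ x k * γ x l) *ᵥ (Q k l - Q l k) = scal g x / 2 * (ψ x ⬝ᵥ ψ x) := by
    have h1 := congrArg (fun B : Ms ι => ψ x ⬝ᵥ B *ᵥ ψ x) (h.curv x hx)
    simpa only [← hR, sum_mulVec, dotProduct_sum, ← mulVec_mulVec (ψ x), c, smul_mulVec,
      one_mulVec, dotProduct_smul, smul_eq_mul] using h1
  have e6 : ∑ k, ∑ l, (ψ x ⬝ᵥ lich_M g γ k l x *ᵥ Q k l - ψ x ⬝ᵥ lich_M g γ k l x *ᵥ Q l k) =
      scal g x / 2 * (ψ x ⬝ᵥ ψ x) := by
    rw [← e5, ← zero_add (∑ k, ∑ l, ψ x ⬝ᵥ (γ x k * γ x l) *ᵥ (Q k l - Q l k)), ← e4]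
    simp only [← Finset.sum_add_distrib]
    refine Finset.sum_congr rfl fun k _ => Finset.sum_congr rfl fun l _ => ?_
    rw [← dotProduct_sub, ← mulVec_sub, lich_M, add_mulVec, smul_mulVec, one_mulVec, dotProduct_add,
      dotProduct_smul, smul_eq_mul]
  simp only [Finset.sum_add_distrib, Finset.sum_sub_distrib] at e3 e6
  simp only [divg, lich_wit h hx hψ, ← hQ, Finset.sum_add_distrib, Finset.sum_sub_distrib, e1, e2]
  linarith

end

end Vale.Agent.P366
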