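import Vale.Agent.P366I.Base

/-! One variable arguments. -/

noncomputable section

open Matrix MeasureTheory Set Filter Topology Asymptotics
open scoped ContDiff

namespace Vale.Agent.P366

variable {n : ℕ} {ι : Type} [Fintype ι] [DecidableEq ι]

/-- `ρ` is the supremum of `{r ≥ r₀ | Tp r ≤ 0 ∨ Tm r ≤ 0}`. -/
theorem exists_outer {Tp Tm : ℝ → ℝ} {r₁ r₀ : ℝ} (h10 : r₁ < r₀)
    (hp : ∀ r, r₁ < r → ContinuousAt Tp r) (hm : ∀ r, r₁ < r → ContinuousAt Tm r)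
    (h0 : Tp r₀ ≤ 0) (hev : ∀ᶠ r in atTop, 0 < Tp r ∧ 0 < Tm r) :
    ∃ ρ, r₀ ≤ ρ ∧ Tp ρ * Tm ρ = 0 ∧ ∀ r, ρ < r → 0 < Tp r ∧ 0 < Tm r := by
  obtain ⟨R, hR⟩ := eventually_atTop.1 hev
  have hb : BddAbove {r | r₀ ≤ r ∧ min (Tp r) (Tm r) ≤ 0} := ⟨R, fun r hr => by
    by_contra h
    exact absurd (lt_min_iff.2 (hR r (not_le.1 h).le)) (not_lt.2 hr.2)⟩
  have h1 : r₀ ∈ {r | r₀ ≤ r ∧ min (Tp r) (Tm r) ≤ 0} := ⟨le_rfl, (min_le_left _ _).trans h0⟩
  have h2 := le_csSup hb h1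
  have h3 := csSup_mem_closure ⟨_, h1⟩ hb
  have h4 : ∀ r, sSup {r | r₀ ≤ r ∧ min (Tp r) (Tm r) ≤ 0} < r → 0 < Tp r ∧ 0 < Tm r := by
    intro r hr
    by_contra h
    exact absurd (le_csSup hb ⟨h2.trans hr.le, not_lt.1 fun h5 => h (lt_min_iff.1 h5)⟩)
      (not_le.2 hr)
  generalize sSup {r | r₀ ≤ r ∧ min (Tp r) (Tm r) ≤ 0} = ρ at h2 h3 h4
  have c1 := hp ρ (h10.trans_le h2)
  have c2 := hm ρ (h10.trans_le h2)
  have c3 : ContinuousAt (fun r => min (Tp r) (Tm r)) ρ := c1.min c2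
  have h5 : min (Tp ρ) (Tm ρ) ≤ 0 := ContinuousWithinAt.closure_le (g := fun _ => (0 : ℝ))
    (f := fun r => min (Tp r) (Tm r)) h3 c3.continuousWithinAt continuousWithinAt_const
    fun r hr => hr.2
  have h6 : 0 ≤ Tp ρ := ge_of_tendsto (c1.continuousWithinAt (s := Ioi ρ))
    (eventually_mem_nhdsWithin.mono fun r hr => (h4 r hr).1.le)
  have h7 : 0 ≤ Tm ρ := ge_of_tendsto (c2.continuousWithinAt (s := Ioi ρ))
    (eventually_mem_nhdsWithin.mono fun r hr => (h4 r hr).2.le)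
  refine ⟨ρ, h2, ?_, h4⟩
  rcases min_le_iff.1 h5 with h | h
  · rw [le_antisymm h h6, zero_mul]
  · rw [le_antisymm h h7, mul_zero]

/-- A continuous function whose lower left Dini derivative is non-negative wherever it is positive:
first time `τ` at which `M s + η (s - a)` reaches a level `c` slightly below `M a`. -/
theorem dini_mono {M : ℝ → ℝ} {a b : ℝ} (hab : a ≤ b) (hM : ContinuousOn M (Icc a b))
    (h0 : 0 < M a)
    (h : ∀ t ∈ Ioc a b, 0 < M t → ∀ ε > 0, ∀ᶠ s in 𝓝[<] t, M s ≤ M t + (t - s) * ε) :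
    M a ≤ M b := by
  by_contra hlt
  obtain ⟨δ, hδ⟩ : ∃ δ, δ = (M a - max (M b) 0) / 3 := ⟨_, rfl⟩
  have m1 := le_max_left (M b) 0
  have m2 := le_max_right (M b) 0
  have m3 : max (M b) 0 < M a := max_lt (not_le.1 hlt) h0
  generalize max (M b) 0 = c at *
  have hδ0 : 0 < δ := by linarith
  obtain ⟨η, hη⟩ : ∃ η, η = δ / (b - a + 1) := ⟨_, rfl⟩
  have hη0 : 0 < η := by
    rw [hη]
    exact div_pos hδ0 (by linarith)
  have hη1 : η * (b - a + 1) = δ := by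
    rw [hη]
    exact div_mul_cancel₀ _ (by linarith)
  have hN : ContinuousOn (fun s => M s + η * (s - a)) (Icc a b) := hM.add (by fun_prop)
  have hS : IsClosed (Icc a b ∩ (fun s => M s + η * (s - a)) ⁻¹' Iic (c + 2 * δ)) :=
    hN.preimage_isClosed_of_isClosed isClosed_Icc isClosed_Iic
  have hb : b ∈ Icc a b ∩ (fun s => M s + η * (s - a)) ⁻¹' Iic (c + 2 * δ) :=
    ⟨⟨hab, le_rfl⟩, show M b + η * (b - a) ≤ c + 2 * δ by linarith⟩
  have hbd : BddBelow (Icc a b ∩ (fun s => M s + η * (s - a)) ⁻¹' Iic (c + 2 * δ)) :=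
    ⟨a, fun s hs => hs.1.1⟩
  have h1 := hS.csInf_mem ⟨b, hb⟩ hbd
  have h2 : ∀ s, a ≤ s →
      s < sInf (Icc a b ∩ (fun s => M s + η * (s - a)) ⁻¹' Iic (c + 2 * δ)) →
      c + 2 * δ < M s + η * (s - a) := fun s h3 h4 => by
    by_contra h5
    exact absurd (csInf_le hbd ⟨⟨h3, h4.le.trans h1.1.2⟩, not_lt.1 h5⟩) (not_le.2 h4)
  generalize sInf (Icc a b ∩ (fun s => M s + η * (s - a)) ⁻¹' Iic (c + 2 * δ)) = τ at h1 h2
  obtain ⟨⟨t1, t2⟩, t3⟩ := h1
  replace t3 : M τ + η * (τ - a) ≤ c + 2 * δ := t3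
  have t4 : a < τ := t1.lt_of_ne fun e => by
    rw [← e, sub_self, mul_zero] at t3
    linarith
  have t5 : ∀ᶠ s in 𝓝[<] τ, s ∈ Ioo a τ := Ioo_mem_nhdsLT t4
  have t8 : ContinuousWithinAt (fun s => M s + η * (s - a)) (Iio τ) τ :=
    (hN τ ⟨t1, t2⟩).mono_of_mem_nhdsWithin
      (mem_of_superset (Ioo_mem_nhdsLT t4) fun s hs => ⟨hs.1.le, hs.2.le.trans t2⟩)
  have t6 : c + 2 * δ ≤ M τ + η * (τ - a) :=
    ge_of_tendsto t8.tendsto (t5.mono fun s hs => (h2 s hs.1.le hs.2).le)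
  have t7 : 0 < M τ := by nlinarith
  obtain ⟨s, s1, s2⟩ := ((h τ ⟨t4, t2⟩ t7 (η / 2) (half_pos hη0)).and t5).exists
  have s3 := h2 s s2.1.le s2.2
  nlinarith [mul_pos hη0 (sub_pos.2 s2.2)]

theorem ode2_slope {g : ℝ → ℝ} {g' t ε : ℝ} (h : HasDerivAt g g' t) (hε : -ε < g') :
    ∀ᶠ s in 𝓝[<] t, g s ≤ g t + (t - s) * ε := by
  have h1 := ((hasDerivAt_iff_tendsto_slope.1 h).mono_left (nhdsLT_le_nhdsNE t)).eventually
    (lt_mem_nhds hε)
  filter_upwards [h1, self_mem_nhdsWithin] with s h2 h3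
  rw [slope_def_field, lt_div_iff_of_neg (sub_neg.2 h3)] at h2
  linarith

/-- The cut profile. -/
def ode2_f (x : ℝ) : ℝ := 1 - 1 / (4 * max x (1 / 4) ^ 2)

theorem ode2_f_eq {x : ℝ} (h : 1 / 4 ≤ x) : ode2_f x = 1 - 1 / (4 * x ^ 2) := by
  rw [ode2_f, max_eq_left h]

theorem ode2_f_mono {x y : ℝ} (h : x ≤ y) : ode2_f x ≤ ode2_f y := by
  have h1 : 0 < max x (1 / 4) := lt_max_of_lt_right (by norm_num)
  have h2 := max_le_max_right (1 / 4) h
  unfold ode2_f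
  gcongr

theorem ode2_f_pos {x : ℝ} (h : 0 < ode2_f x) : 1 / 2 < x := by
  by_contra h1
  have h2 := ode2_f_mono (not_lt.1 h1)
  rw [ode2_f_eq (x := 1 / 2) (by norm_num)] at h2
  norm_num at h2
  linarith

theorem ode2_f_cont : Continuous ode2_f := by
  refine continuous_const.sub (continuous_const.div (by fun_prop) fun x => ?_)
  have h1 : 0 < max x (1 / 4) := lt_max_of_lt_right (by norm_num)
  positivity

theorem ode2_pos {x : ℝ} (h : 1 / 2 < x) : 0 < 1 - 1 / (4 * x ^ 2) := by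
  rw [sub_pos, div_lt_one (by nlinarith)]
  nlinarith

/-- Apply `dini_mono` to `M s = α s ^ p * φ (l s)`, `φ x = 1 - 1 / (4 * max x (1/4) ^ 2)`, which is
increasing, positive only for `x > 1/2` and differentiable there with derivative `1 / (2 x^3)`;
`M s ≤ α s ^ p * φ (l t - (t - s) (m - ε'))`, a function differentiable at `t` with derivative
`-α^p ε' / (2 l^3)`. -/
theorem mass_mono {α l η : ℝ → ℝ} {ρ p a b : ℝ} (ha : ρ < a) (hab : a ≤ b)
    (hα : ∀ t, ρ < t → 0 < α t ∧ HasDerivAt α (η t * α t) t)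
    (hl : ∀ t, ρ < t → ContinuousAt l t) (hla : 1 / 2 < l a)
    (hd : ∀ t, ρ < t → 1 / 2 ≤ l t → ∀ ε > 0, ∀ᶠ s in 𝓝[<] t,
      l s ≤ l t - (t - s) * (l t * η t * p * (1 / 2 - 2 * l t ^ 2) - ε)) :
    1 / 2 < l b ∧ α a ^ p * (1 - 1 / (4 * l a ^ 2)) ≤ α b ^ p * (1 - 1 / (4 * l b ^ 2)) := by
  have hp : ∀ t, ρ < t → 0 < α t ^ p := fun t ht => Real.rpow_pos_of_pos (hα t ht).1 p
  have hD : ∀ t, ρ < t → HasDerivAt (fun s => α s ^ p) (η t * p * α t ^ p) t := fun t ht => by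
    refine ((hα t ht).2.rpow_const (p := p) (Or.inl (hα t ht).1.ne')).congr_deriv ?_
    rw [Real.rpow_sub_one (hα t ht).1.ne']
    field_simp [(hα t ht).1.ne']
  have h0 : 0 < α a ^ p * ode2_f (l a) := by
    rw [ode2_f_eq (by linarith)]
    exact mul_pos (hp a ha) (ode2_pos hla)
  have key : α a ^ p * ode2_f (l a) ≤ α b ^ p * ode2_f (l b) := by
    refine dini_mono (M := fun s => α s ^ p * ode2_f (l s)) hab
      (fun t ht => ((hD t (ha.trans_le ht.1)).continuousAt.mul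
        (ode2_f_cont.continuousAt.comp (hl t (ha.trans_le ht.1)))).continuousWithinAt) h0
      fun t ht hM ε hε => ?_
    have t1 : ρ < t := ha.trans ht.1
    have t2 := hp t t1
    have t3 : 1 / 2 < l t := ode2_f_pos ((mul_pos_iff_of_pos_left t2).1 hM)
    have t4 : 0 < l t := by linarith
    have h1 := hd t t1 t3.le (ε * l t ^ 3 / α t ^ p) (by positivity)
    generalize hm : l t * η t * p * (1 / 2 - 2 * l t ^ 2) - ε * l t ^ 3 / α t ^ p = m at h1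
    have d1 : HasDerivAt (fun s => l t - (t - s) * m) m t := by
      simpa using (((hasDerivAt_id t).const_sub t).mul_const m).const_sub (l t)
    have d2 : HasDerivAt (fun s => 1 - 1 / (4 * (l t - (t - s) * m) ^ 2)) (m / (2 * l t ^ 3)) t := by
      have d3 := (((d1.pow 2).const_mul 4).inv (by simpa using t4.ne')).const_sub 1
      simp only [one_div]
      refine d3.congr_deriv ?_
      simp only [Pi.pow_apply, sub_self, zero_mul, sub_zero]
      field_simp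
      norm_num
      ring
    have d4 := ode2_slope (ε := ε) ((hD t t1).mul d2) (by
      have e : η t * p * α t ^ p * (1 - 1 / (4 * (l t - (t - t) * m) ^ 2)) +
          α t ^ p * (m / (2 * l t ^ 3)) = -(ε / 2) := by
        rw [sub_self, zero_mul, sub_zero, ← hm]
        field_simp
        ring
      rw [e]
      linarith)
    have d5 : ∀ᶠ s in 𝓝[<] t, 1 / 4 < l t - (t - s) * m :=
      (d1.continuousAt.eventually (lt_mem_nhds (by
        simp only [sub_self, zero_mul, sub_zero]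
        linarith))).filter_mono nhdsWithin_le_nhds
    filter_upwards [h1, d4, d5, Ioo_mem_nhdsLT t1] with s s1 s2 s3 s4
    have s5 := ode2_f_mono s1
    rw [ode2_f_eq s3.le] at s5
    simp only [Pi.mul_apply, sub_self, zero_mul, sub_zero] at s2
    rw [ode2_f_eq (x := l t) (by linarith)]
    exact (mul_le_mul_of_nonneg_left s5 (hp s s4.1).le).trans s2
  have h1 : 1 / 2 < l b :=
    ode2_f_pos ((mul_pos_iff_of_pos_left (hp b (ha.trans_le hab))).1 (h0.trans_le key))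
  rw [ode2_f_eq (by linarith), ode2_f_eq (by linarith)] at key
  exact ⟨h1, key⟩

/-- Otherwise `(log ξ)' ≤ C` on `(ρ, ρ + δ)`, so `ξ` stays bounded below as `t ↓ ρ`. -/
theorem lam_unbdd {ξ η l : ℝ → ℝ} {ρ C₀ : ℝ} (h0 : ξ ρ = 0) (hc : ContinuousAt ξ ρ)
    (hξ : ∀ t, ρ < t → 0 < ξ t ∧ DifferentiableAt ℝ ξ t) (hη : ContinuousAt η ρ)
    (hl : ∀ t, 0 ≤ l t)
    (h : ∀ t, ρ < t → t ≤ ρ + 1 → deriv ξ t / (2 * ξ t) - C₀ ≤ 2 * η t * l t ^ 2) (Λ : ℝ) :
    ∃ᶠ t in 𝓝[>] ρ, Λ < l t := by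
  by_contra hf
  rw [not_frequently] at hf
  have h1 : ∀ᶠ t in 𝓝[>] ρ, η t < |η ρ| + 1 :=
    (hη.eventually (gt_mem_nhds (by linarith [le_abs_self (η ρ)]))).filter_mono nhdsWithin_le_nhds
  obtain ⟨b, hb, h2⟩ := (mem_nhdsGT_iff_exists_Ioc_subset.1
    ((hf.and h1).and (Ioc_mem_nhdsGT (show ρ < ρ + 1 by linarith))))
  obtain ⟨C, hC⟩ : ∃ C, C = 2 * (C₀ + 2 * (|η ρ| + 1) * Λ ^ 2) := ⟨_, rfl⟩
  have hd : ∀ t, ρ < t → HasDerivAt (fun s => ξ s * Real.exp (-C * s))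
      ((deriv ξ t - C * ξ t) * Real.exp (-C * t)) t := fun t ht => by
    refine ((hξ t ht).2.hasDerivAt.mul
      ((hasDerivAt_id t).const_mul (-C)).exp).congr_deriv ?_
    simp only [id]
    ring
  have h3 : AntitoneOn (fun s => ξ s * Real.exp (-C * s)) (Icc ρ b) := by
    refine antitoneOn_of_deriv_nonpos (convex_Icc ρ b) (fun t ht => ?_) (fun t ht => ?_)
      fun t ht => ?_
    · rcases ht.1.eq_or_lt with rfl | h4
      · exact (hc.mul (by fun_prop)).continuousWithinAt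
      · exact (hd t h4).continuousAt.continuousWithinAt
    · rw [interior_Icc] at ht
      exact (hd t ht.1).differentiableAt.differentiableWithinAt
    · rw [interior_Icc] at ht
      obtain ⟨⟨a1, a2⟩, a3⟩ := h2 ⟨ht.1, ht.2.le⟩
      have a4 := h t ht.1 a3.2
      have a5 := (hξ t ht.1).1
      have a6 : l t ^ 2 ≤ Λ ^ 2 := pow_le_pow_left₀ (hl t) (not_lt.1 a1) 2
      have a7 : η t * l t ^ 2 ≤ (|η ρ| + 1) * Λ ^ 2 :=
        (mul_le_mul_of_nonneg_right a2.le (sq_nonneg _)).trans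
          (mul_le_mul_of_nonneg_left a6 (by positivity))
      have a8 : deriv ξ t / (2 * ξ t) ≤ C / 2 := by linarith
      rw [div_le_iff₀ (by positivity)] at a8
      rw [(hd t ht.1).deriv]
      exact mul_nonpos_of_nonpos_of_nonneg (by linarith) (Real.exp_pos _).le
  have h4 := h3 ⟨le_rfl, le_of_lt hb⟩ ⟨le_of_lt hb, le_rfl⟩ (le_of_lt hb)
  simp only [h0, zero_mul] at h4
  exact absurd (mul_pos (hξ b hb).1 (Real.exp_pos _)) (not_lt.2 h4)

/-- From `t ↓ ρ` with `l t → ∞`, `mass_mono`, and `1 - 1/x ≤ x - 1`. -/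
theorem mass_final {α l B : ℝ → ℝ} {ρ p E2 : ℝ} (hα : ContinuousAt α ρ) (hα0 : 0 < α ρ)
    (hpos : ∀ t, ρ < t → 0 < α t) (hu : ∀ Λ, ∃ᶠ t in 𝓝[>] ρ, Λ < l t)
    (hm : ∀ a b, ρ < a → a ≤ b → 1 / 2 < l a →
      1 / 2 < l b ∧ α a ^ p * (1 - 1 / (4 * l a ^ 2)) ≤ α b ^ p * (1 - 1 / (4 * l b ^ 2)))
    (hB : ∀ᶠ t in atTop, α t ^ p * (4 * l t ^ 2 - 1) ≤ B t) (hE : Tendsto B atTop (𝓝 E2)) :
    α ρ ^ p ≤ E2 := by
  have h1 : ∀ a, ρ < a → 1 / 2 < l a → α a ^ p * (1 - 1 / (4 * l a ^ 2)) ≤ E2 := fun a ha hl => by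
    refine ge_of_tendsto hE ?_
    filter_upwards [hB, eventually_ge_atTop a] with b b1 b2
    obtain ⟨b3, b4⟩ := hm a b ha b2 hl
    refine b4.trans (le_trans (mul_le_mul_of_nonneg_left ?_
      (Real.rpow_pos_of_pos (hpos b (ha.trans_le b2)) p).le) b1)
    have b5 : 0 < 4 * l b ^ 2 := by nlinarith
    generalize 4 * l b ^ 2 = x at b5
    have b6 : 2 - x ≤ 1 / x := by
      rw [le_div_iff₀ b5]
      nlinarith [sq_nonneg (x - 1)]
    linarith
  have h2 : ∀ Λ, 1 / 2 < Λ → α ρ ^ p * (1 - 1 / (4 * Λ ^ 2)) ≤ E2 := fun Λ hΛ => by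
    have c1 : ContinuousAt (fun a => α a ^ p * (1 - 1 / (4 * Λ ^ 2))) ρ :=
      (hα.rpow_const (Or.inl hα0.ne')).mul continuousAt_const
    refine isClosed_Iic.mem_of_frequently_of_tendsto
      (((hu Λ).and_eventually self_mem_nhdsWithin).mono fun a ha => ?_)
      (c1.continuousWithinAt (s := Ioi ρ))
    refine le_trans (mul_le_mul_of_nonneg_left ?_ (Real.rpow_pos_of_pos (hpos a ha.2) p).le)
      (h1 a ha.2 (hΛ.trans ha.1))
    have := ode2_f_mono ha.1.le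
    rwa [ode2_f_eq (by linarith), ode2_f_eq (by linarith [ha.1])] at this
  have h3 : Tendsto (fun Λ : ℝ => α ρ ^ p * (1 - 1 / (4 * Λ ^ 2))) atTop
      (𝓝 (α ρ ^ p * (1 - 0))) :=
    (tendsto_const_nhds.sub (tendsto_const_nhds.div_atTop
      ((tendsto_pow_atTop two_ne_zero).const_mul_atTop (by norm_num)))).const_mul _
  rw [sub_zero, mul_one] at h3
  exact le_of_tendsto h3 ((eventually_gt_atTop (1 / 2)).mono h2)

end Vale.Agent.P366
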