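import Vale.Agent.P366I.Top
import Vale.Agent.P366I.Ode2
import Vale.Agent.P366I.As4
import Vale.Agent.P366I.Fr0

/-! Assembly. -/

noncomputable section

open Matrix MeasureTheory Set Filter Topology Asymptotics
open scoped ContDiff

namespace Vale.Agent.P366

variable {n : ℕ} {ι : Type} [Fintype ι] [DecidableEq ι]

theorem exists_rad (hn : 0 < n) {r₁ : ℝ} (hr : 0 < r₁) {f : Euc n → ℝ}
    (hf : ∀ x : Euc n, r₁ < ‖x‖ → ContDiffAt ℝ ∞ f x)
    (hc : ∀ x y : Euc n, r₁ < ‖x‖ → ‖x‖ = ‖y‖ → f x = f y) :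
    ∃ φ : ℝ → ℝ, (∀ r, r₁ < r → ContDiffAt ℝ ∞ φ r) ∧ ∀ x : Euc n, r₁ < ‖x‖ → f x = φ ‖x‖ := by
  have he : ‖(EuclideanSpace.single (⟨0, hn⟩ : Fin n) (1 : ℝ) : Euc n)‖ = 1 := by simp
  refine ⟨fun r => f (r • EuclideanSpace.single ⟨0, hn⟩ 1), fun r h => ?_, fun x hx => ?_⟩
  · exact (hf _ (by rwa [norm_smul_sph (hr.trans h) he])).comp r
      (contDiffAt_id.smul contDiffAt_const)
  · exact hc _ _ hx (norm_smul_sph (hr.trans hx) he).symm

theorem main_bd {ρ r : ℝ} {g : Fld n} (h : Met r g) (hρ : r < ρ) :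
    ∃ C₀, ∀ x : Euc n, ρ ≤ ‖x‖ → ‖x‖ ≤ ρ + 1 → dn g (lapse g) x ≤ C₀ := by
  have hc : IsCompact (Metric.closedBall (0 : Euc n) (ρ + 1) ∩ {x | ρ ≤ ‖x‖}) :=
    (isCompact_closedBall _ _).inter_right (isClosed_le continuous_const continuous_norm)
  obtain ⟨C, hC⟩ := hc.exists_bound_of_continuousOn (f := dn g (lapse g)) fun x hx =>
    (ContDiffAt.sum fun k _ => (h.sm_nu (hρ.trans_le hx.2) k).mul
      (contDiffAt_pd (h.sm_lapse (hρ.trans_le hx.2)) k)).continuousAt.continuousWithinAt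
  exact ⟨C, fun x h1 h2 => (le_abs_self _).trans (hC x ⟨mem_closedBall_zero_iff.2 h2, h1⟩)⟩

theorem main_area (hn : 0 < n) {r t : ℝ} {g : Fld n} (h : Met r g) (ht : r < t) {η : ℝ → ℝ}
    (hη : ∀ x : Euc n, r < ‖x‖ → lapse g x * meanH g x = η ‖x‖) :
    0 < area g t / omega n ∧
      HasDerivAt (fun s => area g s / omega n) (η t * (area g t / omega n)) t := by
  refine ⟨div_pos (area_pos' h ht hn) (omega_pos' hn), ?_⟩
  have h1 := (area_deriv h ht hn).div_const (omega n)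
  rwa [LI_congr h ht (G := fun _ => η t * 1) (fun x hx => by rw [hη x (hx ▸ ht), hx, mul_one]),
    LI_cmul, ← area_LI h ht, mul_div_assoc] at h1

/-- `exists_rad` gives `η, κ`; `exists_outer` for `η + κ`, `η - κ` (`thetaP = meanH + trS`,
`ev_untr`) gives `ρ` and `Sh ρ g K η κ`; `exists_cl`, `exists_frameFn`, `geo_of`; then `mass_final`
with `α = area / omega`, `l = lam`, `mass_mono` (`area_deriv`: `LI (lapse * meanH) = η * area`,
`lam_cont`, `lam_dini`), `lam_unbdd` (`lam_low`, `C₀` a bound of `dn lapse` on the compact shell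
`ρ ≤ ‖x‖ ≤ ρ + 1`), `lam_bound`, `bound_lim`. -/
theorem main_imcf (hn : 3 ≤ n) {r₁ r₀ : ℝ} (hr₀ : r₁ < r₀) {g K : Fld n} (h : Met r₁ g)
    (hK : ∀ x : Euc n, r₁ < ‖x‖ → ∀ i j, ContDiffAt ℝ ∞ (fun y => K y i j) x)
    (hsym : ∀ x : Euc n, r₁ < ‖x‖ → (K x).IsSymm)
    (hH : ∀ x y : Euc n, r₁ < ‖x‖ → ‖x‖ = ‖y‖ → lapse g x * meanH g x = lapse g y * meanH g y)
    (hk : ∀ x y : Euc n, r₁ < ‖x‖ → ‖x‖ = ‖y‖ → lapse g x * trS g K x = lapse g y * trS g K y)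
    (hX : ∀ x : Euc n, r₁ < ‖x‖ → divg g (fun i y => lapse g y * Xv g K i y) x = 0)
    {q : ℝ} (hq : ((n : ℝ) - 2) / 2 < q) (hd : DecU q g K)
    (hDEC : ∀ x, r₀ ≤ ‖x‖ → curNorm g K x ≤ mu g K x)
    (htrap : ∀ x, ‖x‖ = r₀ → thetaP g K x ≤ 0)
    {En : ℝ} {P : Euc n} (hE : Tendsto (enFlux g) atTop (𝓝 En))
    (hP : ∀ i, Tendsto (momFlux g K i) atTop (𝓝 (P i))) :
    P = 0 ∧ 0 < En ∧ ∃ R, r₀ ≤ R ∧
      (1 / 2) * (area g R / omega n) ^ (((n : ℝ) - 2) / ((n : ℝ) - 1)) ≤ En := by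
  have hn0 : 0 < n := by omega
  have hq0 : 0 < q := lt_of_le_of_lt (div_nonneg (sub_nonneg.2 (by
    exact_mod_cast (by omega : 2 ≤ n))) zero_le_two) hq
  obtain ⟨η, sη, hη⟩ := exists_rad hn0 h.pos (f := fun x => lapse g x * meanH g x)
    (fun x hx => (h.sm_lapse hx).mul (h.sm_meanH hx)) hH
  obtain ⟨κ, sκ, hκ⟩ := exists_rad hn0 h.pos (f := fun x => lapse g x * trS g K x)
    (fun x hx => (h.sm_lapse hx).mul (h.sm_trS hx (hK x hx)).2.1) hk
  have hP0 : P = 0 := by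
    ext i
    exact tendsto_nhds_unique (hP i) (mom_zero h hq0 hd hn hκ hq hK hX i)
  have h0 : η r₀ + κ r₀ ≤ 0 := by
    have he : ‖(EuclideanSpace.single (⟨0, hn0⟩ : Fin n) (1 : ℝ) : Euc n)‖ = 1 := by simp
    have hx := norm_smul_sph (h.pos.trans hr₀) he
    generalize r₀ • (EuclideanSpace.single (⟨0, hn0⟩ : Fin n) (1 : ℝ) : Euc n) = x at hx
    have hx' : r₁ < ‖x‖ := hx ▸ hr₀
    rw [← hx, ← hη x hx', ← hκ x hx', ← mul_add]
    exact mul_nonpos_of_nonneg_of_nonpos (h.lapse_pos hx').le (htrap x hx)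
  obtain ⟨ρ, hρ, hz, hpos⟩ := exists_outer (Tp := fun r => η r + κ r) (Tm := fun r => η r - κ r)
    hr₀ (fun r hr => ((sη r hr).add (sκ r hr)).continuousAt)
    (fun r hr => ((sη r hr).sub (sκ r hr)).continuousAt) h0 (ev_untr h hq0 hd hn hη hκ)
  have h1 : r₁ < ρ := hr₀.trans_le hρ
  have hS : Sh ρ g K η κ :=
    ⟨h.mono h1.le, fun x hx => hK x (h1.trans hx), fun x hx => hsym x (h1.trans hx),
      fun r hr => sη r (h1.trans hr), fun r hr => sκ r (h1.trans hr),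
      fun x hx => hη x (h1.trans hx), fun x hx => hκ x (h1.trans hx),
      fun x hx => hX x (h1.trans hx), fun x hx => hDEC x (hρ.trans hx.le),
      fun r hr => abs_lt.2 ⟨by linarith [(hpos r hr).1], by linarith [(hpos r hr).2]⟩⟩
  obtain ⟨ι, _, _, _, c, hc⟩ := exists_cl n
  obtain ⟨Φ, hΦ⟩ := exists_frameFn n
  have hG := geo_of hS.met hΦ hc
  obtain ⟨C₀, hC₀⟩ := main_bd h h1
  have hα := fun t (ht : r₁ < t) => main_area hn0 h ht hη
  have sξ : ∀ t, r₁ < t → ContDiffAt ℝ ∞ (fun r => η r ^ 2 - κ r ^ 2) t := fun t ht =>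
    ((sη t ht).pow 2).sub ((sκ t ht).pow 2)
  have key := mass_final (α := fun s => area g s / omega n)
    (l := lam g K (gamF c fun z => Φ (g z)) (spinF c g fun z => Φ (g z))) (ρ := ρ)
    (p := ((n : ℝ) - 2) / ((n : ℝ) - 1)) (hα ρ h1).2.continuousAt (hα ρ h1).1
    (fun t ht => (hα t (h1.trans ht)).1)
    (lam_unbdd (ξ := fun r => η r ^ 2 - κ r ^ 2) (η := η) (C₀ := C₀) (by linarith)
      (sξ ρ h1).continuousAt
      (fun t ht => ⟨by nlinarith [mul_pos (hpos t ht).1 (hpos t ht).2],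
        (sξ t (h1.trans ht)).differentiableAt (by simp)⟩)
      (sη ρ h1).continuousAt (fun _ => lamO_nonneg)
      fun t ht ht' => lam_low hn hS hG ht fun x hx => hC₀ x (hx ▸ ht.le) (hx ▸ ht'))
    (fun a b ha hab hla => mass_mono (η := η) ha hab (fun t ht => hα t (h1.trans ht))
      (fun t ht => lam_cont hn hS hG ht) hla fun t ht hl ε hε => lam_dini hn hS hG ht hl hε)
    ((eventually_gt_atTop ρ).mono fun t ht => mul_le_mul_of_nonneg_left (lam_bound hn hS hG ht)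
      (Real.rpow_nonneg (hα t (h1.trans ht)).1.le _))
    (bound_lim hn hS hq hd hΦ hc hE)
  have h2 := Real.rpow_pos_of_pos (hα ρ h1).1 (((n : ℝ) - 2) / ((n : ℝ) - 1))
  exact ⟨hP0, by linarith, ρ, hρ, by linarith⟩

end Vale.Agent.P366
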