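import Vale.Agent.P366I.Base

/-! Calculus rules for `pd` and smoothness of the metric quantities. -/

noncomputable section

open Matrix MeasureTheory Set Filter Topology Asymptotics
open scoped ContDiff

namespace Vale.Agent.P366

variable {n : ℕ} {ι : Type} [Fintype ι] [DecidableEq ι]

section
variable {f h : Euc n → ℝ} {x : Euc n} {k : Fin n}

theorem pd_add (hf : DifferentiableAt ℝ f x) (hh : DifferentiableAt ℝ h x) :
    pd (fun y => f y + h y) k x = pd f k x + pd h k x := by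
  rw [pd, fderiv_fun_add hf hh]
  rfl

theorem pd_sub (hf : DifferentiableAt ℝ f x) (hh : DifferentiableAt ℝ h x) :
    pd (fun y => f y - h y) k x = pd f k x - pd h k x := by
  rw [pd, fderiv_fun_sub hf hh]
  rfl

theorem pd_mul (hf : DifferentiableAt ℝ f x) (hh : DifferentiableAt ℝ h x) :
    pd (fun y => f y * h y) k x = pd f k x * h x + f x * pd h k x := by
  rw [pd, fderiv_fun_mul hf hh, add_comm, mul_comm (pd f k x)]
  rfl

theorem pd_cmul (c : ℝ) (hf : DifferentiableAt ℝ f x) :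
    pd (fun y => c * f y) k x = c * pd f k x := by
  rw [pd, fderiv_const_mul hf]
  rfl

theorem pd_const (c : ℝ) : pd (fun _ : Euc n => c) k x = 0 := by
  simp [pd]

theorem pd_sum {α : Type} (s : Finset α) {F : α → Euc n → ℝ}
    (hF : ∀ a ∈ s, DifferentiableAt ℝ (F a) x) :
    pd (fun y => ∑ a ∈ s, F a y) k x = ∑ a ∈ s, pd (F a) k x := by
  rw [pd, fderiv_fun_sum hF, _root_.sum_apply]
  rfl

theorem pd_coord (j : Fin n) : pd (fun y : Euc n => y j) k x = if j = k then 1 else 0 := by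
  have e : HasFDerivAt (fun y : Euc n => y j) (EuclideanSpace.proj j : Euc n →L[ℝ] ℝ) x :=
    (EuclideanSpace.proj j : Euc n →L[ℝ] ℝ).hasFDerivAt
  rw [pd, e.fderiv]
  simp

theorem pd_comp {φ : ℝ → ℝ} (hφ : DifferentiableAt ℝ φ (f x)) (hf : DifferentiableAt ℝ f x) :
    pd (fun y => φ (f y)) k x = deriv φ (f x) * pd f k x := by
  have e : HasFDerivAt (fun y => φ (f y)) _ x := hφ.hasDerivAt.comp_hasFDerivAt x hf.hasFDerivAt
  rw [pd, e.fderiv]
  rfl

theorem pd_norm (hx : x ≠ 0) : pd (fun y : Euc n => ‖y‖) k x = x k / ‖x‖ := by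
  have h0 := norm_ne_zero_iff.2 hx
  have e := (hasStrictFDerivAt_norm_sq x).hasFDerivAt.sqrt (pow_ne_zero 2 h0)
  simp only [Real.sqrt_sq (norm_nonneg _)] at e
  rw [pd, e.fderiv]
  simp [EuclideanSpace.inner_single_right]
  field_simp

theorem pd_congr (hfh : f =ᶠ[𝓝 x] h) : pd f k x = pd h k x := by
  rw [pd, hfh.fderiv_eq]
  rfl

theorem contDiffAt_pd (hf : ContDiffAt ℝ ∞ f x) (k : Fin n) : ContDiffAt ℝ ∞ (pd f k) x :=
  (hf.fderiv_right (m := ∞) le_rfl).clm_apply contDiffAt_const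

theorem pd_comm (hf : ContDiffAt ℝ ∞ f x) (k l : Fin n) :
    pd (pd f k) l x = pd (pd f l) k x := by
  have hd := (hf.fderiv_right (m := ∞) le_rfl).differentiableAt (by simp)
  have e : ∀ a b : Fin n, pd (pd f a) b x =
      fderiv ℝ (fderiv ℝ f) x (EuclideanSpace.single b 1) (EuclideanSpace.single a 1) := by
    intro a b
    have e1 := fderiv_clm_apply hd (differentiableAt_const (EuclideanSpace.single a (1 : ℝ)))
    exact (DFunLike.congr_fun e1 _).trans (by simp)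
  rw [e, e]
  refine hf.isSymmSndFDerivAt ?_ _ _
  rw [minSmoothness_of_isRCLikeNormedField]
  exact WithTop.coe_le_coe.2 le_top

end

theorem ev_out {ρ : ℝ} {x : Euc n} (hx : ρ < ‖x‖) : ∀ᶠ y in 𝓝 x, ρ < ‖y‖ :=
  continuous_norm.continuousAt.eventually (lt_mem_nhds hx)

theorem Met.mono {ρ ρ' : ℝ} {g : Fld n} (h : Met ρ g) (hρ : ρ ≤ ρ') : Met ρ' g :=
  ⟨h.pos.trans_le hρ, fun x hx => h.sm x (hρ.trans_lt hx), fun x hx => h.posDef x (hρ.trans_lt hx)⟩

theorem Geo.mono {ρ ρ' : ℝ} {g : Fld n} {γ S : Euc n → Fin n → Ms ι} (h : Geo ρ g γ S)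
    (hρ : ρ ≤ ρ') : Geo ρ' g γ S :=
  ⟨h.met.mono hρ, fun x hx => h.smγ x (hρ.trans_lt hx), fun x hx => h.smS x (hρ.trans_lt hx),
    fun x hx => h.skγ x (hρ.trans_lt hx), fun x hx => h.ac x (hρ.trans_lt hx),
    fun x hx => h.skS x (hρ.trans_lt hx), fun x hx => h.compat x (hρ.trans_lt hx),
    fun x hx => h.curv x (hρ.trans_lt hx)⟩

section
variable {ρ : ℝ} {g : Fld n} (h : Met ρ g) {x : Euc n} (hx : ρ < ‖x‖)
include h hx

theorem sm0_det : (g x).det ≠ 0 := (h.posDef x hx).det_pos.ne'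

theorem sm0_ne : x ≠ 0 := norm_pos_iff.1 (h.pos.trans hx)

theorem sm0_q : 0 < ∑ a, ∑ b, (g x)⁻¹ a b * x a * x b := by
  have h1 := (h.posDef x hx).inv.dotProduct_mulVec_pos (x := x.ofLp)
    fun h0 => sm0_ne h hx (by ext i; exact congrFun h0 i)
  refine h1.trans_eq ?_
  simp only [dotProduct, mulVec, star_trivial, Finset.mul_sum]
  exact Finset.sum_congr rfl fun a _ => Finset.sum_congr rfl fun b _ => by ring

omit h hx in
theorem sm0_co (j : Fin n) : ContDiffAt ℝ ∞ (fun y : Euc n => y j) x :=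
  (EuclideanSpace.proj j : Euc n →L[ℝ] ℝ).contDiff.contDiffAt


theorem Met.symm : (g x).IsSymm :=
  isHermitian_iff_isSymm.1 (h.posDef x hx).isHermitian

theorem Met.dg_symm (k : Fin n) : (dg g x k).IsSymm :=
  scal_dgs ((ev_out hx).mono fun _ hy => h.symm hy) k

theorem Met.sm_inv (i j : Fin n) : ContDiffAt ℝ ∞ (fun y => (g y)⁻¹ i j) x :=
  contDiffAt_inv (h.sm x hx) (sm0_det h hx) i j

theorem Met.sm_det : ContDiffAt ℝ ∞ (fun y => (g y).det) x :=
  contDiffAt_det (h.sm x hx)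

theorem Met.sm_chr (k i j : Fin n) : ContDiffAt ℝ ∞ (chr g k i j) x :=
  contDiffAt_const.mul (ContDiffAt.sum fun l _ => (h.sm_inv hx k l).mul
    (((contDiffAt_pd (h.sm x hx j l) i).add (contDiffAt_pd (h.sm x hx i l) j)).sub
      (contDiffAt_pd (h.sm x hx i j) l)))

theorem Met.chr_symm (k i j : Fin n) : chr g k i j x = chr g k j i x :=
  scal_sym (h.dg_symm hx) k i j

theorem Met.pd_inv (k i j : Fin n) : pd (fun y => (g y)⁻¹ i j) k x
    = -∑ l, (chr g i k l x * (g x)⁻¹ l j + chr g j k l x * (g x)⁻¹ i l) :=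
  (fderiv_minv (fun a b => (h.sm x hx a b).differentiableAt (by simp)) (sm0_det h hx) _ i j).trans
    (congrArg Neg.neg (dinv_chA (h.symm hx).inv (h.dg_symm hx) k i j))

theorem Met.pd_met (k i j : Fin n) : pd (fun y => g y i j) k x
    = ∑ l, (chr g l k i x * g x l j + chr g l k j x * g x i l) := by
  have e : ∀ (v : Fin n → ℝ) (j : Fin n),
      ∑ l, (1 / 2) * (∑ m, (g x)⁻¹ l m * v m) * g x l j = (1 / 2) * v j := fun v j => by
    have e1 : (g x *ᵥ ((g x)⁻¹ *ᵥ v)) j = v j := by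
      rw [mulVec_mulVec, mul_nonsing_inv _ (sm0_det h hx).isUnit, one_mulVec]
    rw [← e1]
    simp only [mulVec, dotProduct, Finset.mul_sum _ _ (1 / 2 : ℝ)]
    refine Finset.sum_congr rfl fun l _ => ?_
    rw [← Finset.mul_sum, (h.symm hx).apply j l]
    ring
  have e2 : pd (fun y => g y j i) k x = pd (fun y => g y i j) k x := (h.dg_symm hx k).apply i j
  simp only [Finset.sum_add_distrib, chr]
  rw [e, Finset.sum_congr rfl fun l _ => by rw [← (h.symm hx).apply i l], e, e2]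
  ring

theorem Met.sm_scal : ContDiffAt ℝ ∞ (scal g) x := by
  have c := h.sm_chr hx
  exact ContDiffAt.sum fun i _ => ContDiffAt.sum fun j _ => (h.sm_inv hx i j).mul
    (((ContDiffAt.sum fun k _ => contDiffAt_pd (c k i j) k).sub
      (ContDiffAt.sum fun k _ => contDiffAt_pd (c k i k) j)).add
      (ContDiffAt.sum fun k _ => ContDiffAt.sum fun l _ =>
        ((c k k l).mul (c l i j)).sub ((c k j l).mul (c l i k))))

theorem Met.lapse_pos : 0 < lapse g x :=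
  div_pos (h.pos.trans hx) (Real.sqrt_pos.2 (sm0_q h hx))

theorem sm0_sq : ContDiffAt ℝ ∞ (fun y => √(∑ a, ∑ b, (g y)⁻¹ a b * y a * y b)) x :=
  (ContDiffAt.sum fun a _ => ContDiffAt.sum fun b _ =>
    ((h.sm_inv hx a b).mul (sm0_co a)).mul (sm0_co b)).sqrt (sm0_q h hx).ne'


theorem Met.sm_lapse : ContDiffAt ℝ ∞ (lapse g) x :=
  (contDiffAt_norm ℝ (sm0_ne h hx)).div (sm0_sq h hx) (Real.sqrt_pos.2 (sm0_q h hx)).ne'

theorem Met.sm_nu (i : Fin n) : ContDiffAt ℝ ∞ (nu g i) x :=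
  (ContDiffAt.sum fun j _ => (h.sm_inv hx i j).mul (sm0_co j)).div (sm0_sq h hx)
    (Real.sqrt_pos.2 (sm0_q h hx)).ne'

theorem Met.sm_nl (i : Fin n) : ContDiffAt ℝ ∞ (nl g i) x :=
  ((h.sm_lapse hx).mul (sm0_co i)).div (contDiffAt_norm ℝ (sm0_ne h hx)) (h.pos.trans hx).ne'

theorem sm0_dnu (k j : Fin n) : ContDiffAt ℝ ∞ (dnu g k j) x :=
  (contDiffAt_pd (h.sm_nl hx j) k).sub
    (ContDiffAt.sum fun m _ => (h.sm_chr hx m k j).mul (h.sm_nl hx m))


theorem Met.sm_acc (j : Fin n) : ContDiffAt ℝ ∞ (fun y => acc g y j) x :=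
  ContDiffAt.sum fun k _ => (h.sm_nu hx k).mul (sm0_dnu h hx k j)

theorem Met.sm_sff (k j : Fin n) : ContDiffAt ℝ ∞ (fun y => sff g y k j) x :=
  (sm0_dnu h hx k j).sub ((h.sm_nl hx k).mul (h.sm_acc hx j))

theorem Met.sm_meanH : ContDiffAt ℝ ∞ (meanH g) x :=
  (ContDiffAt.sum fun i _ => contDiffAt_pd (h.sm_nu hx i) i).add
    (ContDiffAt.sum fun i _ => ContDiffAt.sum fun k _ => (h.sm_chr hx i i k).mul (h.sm_nu hx k))

theorem Met.sm_sq2 : ContDiffAt ℝ ∞ (sq2 g) x := by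
  unfold sq2 ipA
  exact ContDiffAt.sum fun k _ => ContDiffAt.sum fun l _ => ContDiffAt.sum fun j _ =>
    ContDiffAt.sum fun m _ =>
      (((h.sm_inv hx k l).mul (h.sm_inv hx j m)).mul (h.sm_sff hx k j)).mul (h.sm_sff hx l m)

theorem Met.dens_pos : 0 < dens g x :=
  div_pos (Real.sqrt_pos.2 (h.posDef x hx).det_pos) (h.lapse_pos hx)

theorem Met.sm_dens : ContDiffAt ℝ ∞ (dens g) x :=
  ((h.sm_det hx).sqrt (sm0_det h hx)).div (h.sm_lapse hx) (h.lapse_pos hx).ne'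

theorem Met.Jf_pos : 0 < Jf g x :=
  mul_pos (pow_pos (h.pos.trans hx) _) (h.dens_pos hx)

theorem Met.sm_Jf : ContDiffAt ℝ ∞ (Jf g) x :=
  ((contDiffAt_norm ℝ (sm0_ne h hx)).pow _).mul (h.sm_dens hx)

theorem Met.sm_trS {K : Fld n} (hK : ∀ i j, ContDiffAt ℝ ∞ (fun y => K y i j) x) :
    ContDiffAt ℝ ∞ (trK g K) x ∧ ContDiffAt ℝ ∞ (trS g K) x ∧
      ∀ i, ContDiffAt ℝ ∞ (Xv g K i) x := by
  have h1 : ContDiffAt ℝ ∞ (trK g K) x :=
    ContDiffAt.sum fun i _ => ContDiffAt.sum fun j _ => (h.sm_inv hx i j).mul (hK i j)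
  have h2 : ContDiffAt ℝ ∞ (fun y => ∑ i, ∑ j, K y i j * nu g i y * nu g j y) x :=
    ContDiffAt.sum fun i _ => ContDiffAt.sum fun j _ =>
      ((hK i j).mul (h.sm_nu hx i)).mul (h.sm_nu hx j)
  exact ⟨h1, h1.sub h2, fun i => (ContDiffAt.sum fun j _ => ContDiffAt.sum fun l _ =>
    ((h.sm_inv hx i j).mul (hK j l)).mul (h.sm_nu hx l)).sub (h2.mul (h.sm_nu hx i))⟩

end

end Vale.Agent.P366
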