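import Vale.Agent.P366I.Sm0

/-! Integrals over Euclidean spheres. -/

noncomputable section

open Matrix MeasureTheory Set Filter Topology Asymptotics
open scoped ContDiff

namespace Vale.Agent.P366

variable {n : ℕ} {ι : Type} [Fintype ι] [DecidableEq ι]

/-- Continuity at the points of the sphere of radius `t`. -/
def CS (t : ℝ) (f : Euc n → ℝ) : Prop := ∀ x : Euc n, ‖x‖ = t → ContinuousAt f x

theorem sph1_fin (n : ℕ) : IsFiniteMeasure (sph n) :=
  inferInstanceAs (IsFiniteMeasure (volume : Measure (Euc n)).toSphere)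

/-- `Measure.toSphere_real_apply_univ` (see `omega_pos` in P366/Geo2, not imported). -/
theorem omega_pos' (hn : 0 < n) : 0 < omega n := by
  have : Nonempty (Fin n) := ⟨⟨0, hn⟩⟩
  unfold omega sph
  rw [Measure.toSphere_real_apply_univ, finrank_euclideanSpace_fin]
  refine mul_pos (by exact_mod_cast hn) ?_
  exact ENNReal.toReal_pos (Metric.measure_ball_pos _ _ one_pos).ne' measure_ball_lt_top.ne

theorem norm_smul_sph {t : ℝ} (ht : 0 < t) {θ : Euc n} (hθ : ‖θ‖ = 1) : ‖t • θ‖ = t := by
  rw [norm_smul, hθ, mul_one, Real.norm_of_nonneg ht.le]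

section
variable {t : ℝ} (ht : 0 < t) {f h : Euc n → ℝ}
include ht

theorem sph1_norm (θ : Metric.sphere (0 : Euc n) 1) :
    ‖t • (θ : Euc n)‖ = t := norm_smul_sph ht (norm_eq_of_mem_sphere θ)

omit ht in
theorem sph1_on (hf : CS t f) : ContinuousOn f (Metric.sphere 0 t) :=
  fun x hx => (hf x (mem_sphere_zero_iff_norm.1 hx)).continuousWithinAt

theorem CS.integrable (hf : CS t f) :
    Integrable (fun θ : Metric.sphere (0 : Euc n) 1 => f (t • (θ : Euc n))) (sph n) := by
  have := sph1_fin n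
  exact integrableOn_univ.1 (((sph1_on hf).comp (s := univ) (by fun_prop) fun θ _ =>
    mem_sphere_zero_iff_norm.2 (sph1_norm ht θ)).integrableOn_compact isCompact_univ)

theorem sInt_congr (e : ∀ x, ‖x‖ = t → f x = h x) : sInt t f = sInt t h := by
  simp only [sInt, fun θ => e _ (sph1_norm ht θ)]

theorem sInt_add (hf : CS t f) (hh : CS t h) :
    sInt t (fun x => f x + h x) = sInt t f + sInt t h := by
  rw [sInt, integral_add (hf.integrable ht) (hh.integrable ht), mul_add, sInt, sInt]

theorem sInt_sub (hf : CS t f) (hh : CS t h) :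
    sInt t (fun x => f x - h x) = sInt t f - sInt t h := by
  rw [sInt, integral_sub (hf.integrable ht) (hh.integrable ht), mul_sub, sInt, sInt]

omit ht in
theorem sInt_cmul (c : ℝ) : sInt t (fun x => c * f x) = c * sInt t f := by
  rw [sInt, integral_const_mul, mul_left_comm, sInt]

theorem sInt_sum {α : Type} (s : Finset α) {F : α → Euc n → ℝ} (hF : ∀ a ∈ s, CS t (F a)) :
    sInt t (fun x => ∑ a ∈ s, F a x) = ∑ a ∈ s, sInt t (F a) := by
  rw [sInt, integral_finsetSum s fun a ha => (hF a ha).integrable ht, Finset.mul_sum]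
  rfl

theorem sInt_mono (hf : CS t f) (hh : CS t h) (e : ∀ x, ‖x‖ = t → f x ≤ h x) :
    sInt t f ≤ sInt t h := by
  exact mul_le_mul_of_nonneg_left (integral_mono (hf.integrable ht) (hh.integrable ht) fun θ =>
    e _ (sph1_norm ht θ)) (pow_nonneg ht.le _)

omit ht in
theorem sInt_cst (c : ℝ) : sInt t (fun _ : Euc n => c) = t ^ (n - 1) * omega n * c := by
  rw [sInt, integral_const, smul_eq_mul, omega, mul_assoc]

theorem sInt_abs_le {c : ℝ} (e : ∀ x, ‖x‖ = t → |f x| ≤ c) :
    |sInt t f| ≤ t ^ (n - 1) * omega n * c := by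
  have := sph1_fin n
  rw [sInt, abs_mul, abs_of_nonneg (pow_nonneg ht.le _), mul_assoc, mul_comm (omega n)]
  exact mul_le_mul_of_nonneg_left ((Real.norm_eq_abs _).symm.trans_le
    (norm_integral_le_of_norm_le_const (.of_forall fun θ => e _ (sph1_norm ht θ)))) (pow_nonneg ht.le _)

theorem CS.bdd (hf : CS t f) : ∃ C, 0 < C ∧ ∀ x, ‖x‖ = t → |f x| ≤ C := by
  obtain ⟨C, hC⟩ := (isCompact_sphere (0 : Euc n) t).exists_bound_of_continuousOn (sph1_on hf)
  exact ⟨max C t, ht.trans_le (le_max_right _ _), fun x hx =>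
    (hC x (mem_sphere_zero_iff_norm.2 hx)).trans (le_max_left _ _)⟩

theorem CS.low (hf : CS t f) (h0 : ∀ x, ‖x‖ = t → 0 < f x) :
    ∃ c, 0 < c ∧ ∀ x, ‖x‖ = t → c ≤ f x := by
  obtain ⟨c, h1, h2⟩ := (isCompact_sphere (0 : Euc n) t).exists_forall_le' (sph1_on hf)
    fun x hx => h0 x (mem_sphere_zero_iff_norm.1 hx)
  exact ⟨min c t, lt_min h1 ht, fun x hx =>
    (min_le_left _ _).trans (h2 x (mem_sphere_zero_iff_norm.2 hx))⟩

end

theorem sInt_cont {ρ t : ℝ} (hρ : 0 < ρ) (ht : ρ < t) {f : Euc n → ℝ}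
    (hf : ∀ x : Euc n, ρ < ‖x‖ → ContinuousAt f x) : ContinuousAt (fun s => sInt s f) t := by
  have := sph1_fin n
  obtain ⟨m, h1, h2⟩ := exists_between ht
  have c : Continuous (Function.uncurry fun (s : ℝ) (θ : Metric.sphere (0 : Euc n) 1) =>
      f (max s m • (θ : Euc n))) := continuous_iff_continuousAt.2 fun p =>
    (hf _ (by rw [sph1_norm (lt_max_of_lt_right (hρ.trans h1))]; exact lt_max_of_lt_right h1)).comp
      (f := fun p : ℝ × Metric.sphere (0 : Euc n) 1 => max p.1 m • (p.2 : Euc n)) (by fun_prop)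
  refine (continuousAt_id.pow _).mul ((continuous_parametric_integral_of_continuous (μ := sph n) c
    isCompact_univ).continuousAt.congr ((lt_mem_nhds h2).mono fun s hs => ?_))
  simp only [Measure.restrict_univ, max_eq_left hs.le]

/-- Polar coordinates: `Measure.measurePreserving_homeomorphUnitSphereProd`, compare the proof of
`integral_fun_norm_addHaar`. -/
theorem polar (hn : 0 < n) {F : Euc n → ℝ} (hF : Integrable F) :
    IntegrableOn (fun σ => sInt σ F) (Ioi 0) ∧ ∫ x, F x = ∫ σ in Ioi (0 : ℝ), sInt σ F := by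
  have : Nonempty (Fin n) := ⟨⟨0, hn⟩⟩
  have mp := (volume : Measure (Euc n)).measurePreserving_homeomorphUnitSphereProd
  rw [finrank_euclideanSpace_fin] at mp
  have he := (homeomorphUnitSphereProd (Euc n)).measurableEmbedding
  have m0 := (measurableSet_singleton (0 : Euc n)).compl
  obtain ⟨G, hG⟩ : ∃ G : Metric.sphere (0 : Euc n) 1 × Ioi (0 : ℝ) → ℝ,
      G = fun p => F (p.2.1 • p.1.1) := ⟨_, rfl⟩
  have e : ∀ x, G (homeomorphUnitSphereProd (Euc n) x) = F x := fun x => by
    rw [hG]
    exact congrArg (F ∘ Subtype.val) ((homeomorphUnitSphereProd (Euc n)).symm_apply_apply x)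
  have i : Integrable G _ := (mp.integrable_comp_emb he).1
    (((integrableOn_iff_comap_subtypeVal m0).1 hF.integrableOn).congr (.of_forall fun x => (e x).symm))
  have md : Measurable fun r : Ioi (0 : ℝ) => ENNReal.ofReal (r.1 ^ (n - 1)) := by fun_prop
  have e2 : ∀ r : Ioi (0 : ℝ), (ENNReal.ofReal (r.1 ^ (n - 1))).toReal •
      ∫ θ, G (θ, r) ∂(volume : Measure (Euc n)).toSphere = sInt r F := fun r => by
    rw [ENNReal.toReal_ofReal (pow_nonneg r.2.out.le _), hG]
    rfl
  refine ⟨(integrableOn_iff_comap_subtypeVal measurableSet_Ioi).2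
    (((integrable_withDensity_iff_integrable_smul' md (by simp)).1 i.integral_prod_right).congr
      (.of_forall e2)), ?_⟩
  rw [← restrict_compl_singleton (μ := volume) (0 : Euc n), ← integral_subtype_comap m0,
    ← integral_congr_ae (.of_forall e), mp.integral_comp he, integral_prod_symm _ i,
    Measure.volumeIoiPow, integral_withDensity_eq_integral_toReal_smul md (by simp),
    integral_congr_ae (.of_forall e2),
    integral_subtype_comap measurableSet_Ioi fun r => sInt r F]

/-- A function vanishing on the sphere has a radial gradient: differentiate along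
`s ↦ t • (x + s v) / ‖x + s v‖` for `v ⊥ x`, here `v = e_k - x_k x / ‖x‖ ^ 2`. -/
theorem pd_of_vanish {f : Euc n → ℝ} {x : Euc n} (hx : x ≠ 0) (hf : DifferentiableAt ℝ f x)
    (h0 : ∀ y : Euc n, ‖y‖ = ‖x‖ → f y = 0) : ∃ c : ℝ, ∀ k, pd f k x = c * x k := by
  refine ⟨fderiv ℝ f x x / ‖x‖ ^ 2, fun k => ?_⟩
  have hn := norm_pos_iff.2 hx
  have h1 : HasDerivAt (fun s : ℝ => x + s • EuclideanSpace.single k (1 : ℝ))
      (EuclideanSpace.single k 1) 0 :=
    (((hasDerivAt_id _).smul_const _).const_add x).congr_deriv (one_smul _ _)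
  have h2 := ((h1.norm_sq.sqrt (by simpa using hx)).inv (by simpa using hx)).const_mul ‖x‖
  have h3 := hf.hasFDerivAt.comp_hasDerivAt_of_eq 0 (h2.smul h1) (by simp [hn.ne'])
  have h4 := h3.unique ((hasDerivAt_const (0 : ℝ) (0 : ℝ)).congr_of_eventuallyEq
    ((h1.continuousAt.eventually_ne (y := 0) (by simpa using hx)).mono fun s hs => h0 _ (by
      have := norm_pos_iff.2 hs
      simp only [Pi.smul_apply', Pi.inv_apply, norm_smul, Real.sqrt_sq this.le, norm_mul, norm_inv,
        norm_norm]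
      field_simp)))
  simp only [zero_smul, add_zero, Pi.inv_apply, Real.sqrt_sq hn.le, map_add, map_smul, smul_eq_mul,
    EuclideanSpace.inner_single_right, conj_trivial, one_mul] at h4
  rw [pd]
  field_simp at h4 ⊢
  linarith

end Vale.Agent.P366
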