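import Vale.Agent.P366I.Sm0
import Vale.Agent.P366I.Cl0

/-! The spin connection of a frame: smoothness and compatibility. -/

noncomputable section

open Matrix MeasureTheory Set Filter Topology Asymptotics
open scoped ContDiff

namespace Vale.Agent.P366

variable {n : ℕ} {ι : Type} [Fintype ι] [DecidableEq ι]

theorem spin1_mul {A B : Fld n} {x : Euc n} (k : Fin n)
    (hA : ∀ i j, ContDiffAt ℝ ∞ (fun y => A y i j) x)
    (hB : ∀ i j, ContDiffAt ℝ ∞ (fun y => B y i j) x) :
    pdM (fun y => A y * B y) k x = pdM A k x * B x + A x * pdM B k x := by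
  ext i j
  simp only [pdM, Matrix.mul_apply, Matrix.add_apply, Matrix.of_apply]
  rw [pd_sum _ fun a _ => ((hA i a).mul (hB a j)).differentiableAt (by simp), ← Finset.sum_add_distrib]
  exact Finset.sum_congr rfl fun a _ =>
    pd_mul ((hA i a).differentiableAt (by simp)) ((hB a j).differentiableAt (by simp))

theorem spin1_sm {A B : Fld n} {x : Euc n} (hA : ∀ i j, ContDiffAt ℝ ∞ (fun y => A y i j) x)
    (hB : ∀ i j, ContDiffAt ℝ ∞ (fun y => B y i j) x) (i j : Fin n) :
    ContDiffAt ℝ ∞ (fun y => (A y * B y) i j) x := by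
  simp only [Matrix.mul_apply]
  exact ContDiffAt.sum fun a _ => (hA i a).mul (hB a j)

section
variable {ρ : ℝ} {g : Fld n} (h : Met ρ g) {Φ : Mn n → Mn n} (hΦ : FrameFn Φ)
  {x : Euc n} (hx : ρ < ‖x‖)
include h hΦ hx

theorem fr_sm (i j : Fin n) : ContDiffAt ℝ ∞ (fun y => Φ (g y) i j) x := by
  exact (hΦ.sm (g x) (h.posDef x hx) i j).comp x
    (contDiffAt_pi.2 fun a => contDiffAt_pi.2 fun b => h.sm x hx a b)

theorem fr_inv : (Φ (g x))⁻¹ = (Φ (g x))ᵀ * g x := by
  exact Matrix.inv_eq_left_inv (hΦ.orth _ (h.posDef x hx))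

theorem fr_det : (Φ (g x)).det ≠ 0 := by
  exact (Matrix.isUnit_det_of_left_inverse (hΦ.orth _ (h.posDef x hx))).ne_zero

theorem fr_mul_tr : Φ (g x) * (Φ (g x))ᵀ = (g x)⁻¹ := by
  refine (Matrix.inv_eq_left_inv ?_).symm
  rw [Matrix.mul_assoc]
  exact mul_eq_one_comm.1 (hΦ.orth _ (h.posDef x hx))

theorem omF_sm (k i j : Fin n) :
    ContDiffAt ℝ ∞ (fun y => omF g (fun z => Φ (g z)) y k i j) x := by
  have h1 := fr_sm h hΦ hx
  refine (spin1_sm (A := fun y => (Φ (g y))ᵀ * g y)
    (B := fun y => pdM (fun z => Φ (g z)) k y + chM g k y * Φ (g y))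
    (spin1_sm (A := fun y => (Φ (g y))ᵀ) (fun a b => h1 b a) (h.sm x hx))
    (fun a b => (contDiffAt_pd (h1 a b) k).add (spin1_sm (A := chM g k)
      (fun a b => h.sm_chr hx a k b) h1 a b)) i j).congr_of_eventuallyEq ?_
  filter_upwards [ev_out hx] with y hy
  rw [omF, fr_inv h hΦ hy]

/-- Differentiate `Eᵀ g E = 1` and use `Met.pd_met`. -/
theorem omF_skew (k : Fin n) :
    (omF g (fun z => Φ (g z)) x k)ᵀ = -omF g (fun z => Φ (g z)) x k := by
  have h1 := fr_sm h hΦ hx
  have h2 : ∀ a b, ContDiffAt ℝ ∞ (fun y => (Φ (g y))ᵀ a b) x := fun a b => h1 b a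
  have h3 : pdM (fun y => (Φ (g y))ᵀ * g y * Φ (g y)) k x = 0 := by
    ext a b
    refine (pd_congr ?_).trans (pd_const ((1 : Mn n) a b))
    filter_upwards [ev_out hx] with y hy
    rw [hΦ.orth _ (h.posDef y hy)]
  have h4 : pdM g k x = (chM g k x)ᵀ * g x + g x * chM g k x := by
    ext a b
    simp only [pdM, chM, Matrix.of_apply, h.pd_met hx, Matrix.add_apply, Matrix.mul_apply,
      Matrix.transpose_apply, Finset.sum_add_distrib, mul_comm]
  rw [spin1_mul k (spin1_sm h2 (h.sm x hx)) h1, spin1_mul k h2 (h.sm x hx), h4,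
    show pdM (fun y => (Φ (g y))ᵀ) k x = (pdM (fun y => Φ (g y)) k x)ᵀ from rfl] at h3
  rw [omF, fr_inv h hΦ hx, eq_neg_iff_add_eq_zero, ← h3]
  simp only [Matrix.transpose_mul, Matrix.transpose_add, Matrix.transpose_transpose,
    (h.symm hx).eq, Matrix.mul_add, Matrix.add_mul, Matrix.mul_assoc]
  abel

variable {c : Fin n → Ms ι} (hc : Cl c)
include hc

omit hc in
theorem gamF_sm (i : Fin n) (s t : ι) :
    ContDiffAt ℝ ∞ (fun y => gamF c (fun z => Φ (g z)) y i s t) x := by
  simp only [gamF, cv, Matrix.sum_apply, Matrix.smul_apply, smul_eq_mul]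
  exact ContDiffAt.sum fun a _ => (fr_sm h hΦ hx i a).mul contDiffAt_const

omit hc in
theorem spinF_sm (i : Fin n) (s t : ι) :
    ContDiffAt ℝ ∞ (fun y => spinF c g (fun z => Φ (g z)) y i s t) x := by
  simp only [spinF, sig, Matrix.sum_apply, Matrix.smul_apply, smul_eq_mul]
  exact ContDiffAt.sum fun a _ => ContDiffAt.sum fun b _ =>
    (contDiffAt_const.mul (omF_sm h hΦ hx i a b)).mul contDiffAt_const

theorem gamF_ac (i j : Fin n) :
    gamF c (fun z => Φ (g z)) x i * gamF c (fun z => Φ (g z)) x j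
      + gamF c (fun z => Φ (g z)) x j * gamF c (fun z => Φ (g z)) x i
      = (-2 * (g x)⁻¹ i j) • (1 : Ms ι) := by
  rw [← fr_mul_tr h hΦ hx]
  exact cv_ac hc _ _

/-- The first two terms are `cv` of row `i` of `E ω_k`, which is `-cv (ω_k *ᵥ row i)`. -/
theorem spinF_compat (k i : Fin n) : pdM (fun y => gamF c (fun z => Φ (g z)) y i) k x
    + ∑ l, chr g i k l x • gamF c (fun z => Φ (g z)) x l
    + (spinF c g (fun z => Φ (g z)) x k * gamF c (fun z => Φ (g z)) x i
      - gamF c (fun z => Φ (g z)) x i * spinF c g (fun z => Φ (g z)) x k) = 0 := by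
  have h1 : pdM (fun y => gamF c (fun z => Φ (g z)) y i) k x =
      cv c (pdM (fun z => Φ (g z)) k x i) := by
    ext s t
    simp only [pdM, gamF, cv, Matrix.sum_apply, Matrix.smul_apply, smul_eq_mul, Matrix.of_apply]
    rw [pd_sum _ fun a _ => ((fr_sm h hΦ hx i a).mul contDiffAt_const).differentiableAt (by simp)]
    refine Finset.sum_congr rfl fun a _ => ?_
    rw [pd_mul ((fr_sm h hΦ hx i a).differentiableAt (by simp)) (differentiableAt_const _), pd_const,
      mul_zero, add_zero]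
  have h2 : ∑ l, chr g i k l x • gamF c (fun z => Φ (g z)) x l =
      cv c ((chM g k x * Φ (g x)) i) := by
    simp only [gamF, cv, chM, Matrix.mul_apply, Matrix.of_apply, Finset.smul_sum, Finset.sum_smul,
      smul_smul]
    exact Finset.sum_comm
  have h3 : Φ (g x) * omF g (fun z => Φ (g z)) x k =
      pdM (fun z => Φ (g z)) k x + chM g k x * Φ (g x) :=
    Matrix.mul_nonsing_inv_cancel_left _ _ (fr_det h hΦ hx).isUnit
  have h4 := omF_skew h hΦ hx k
  rw [h1, h2, spinF, gamF, sig_comm_cv hc h4]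
  simp only [cv, ← Finset.sum_add_distrib, ← add_smul]
  refine Finset.sum_eq_zero fun a _ => ?_
  rw [← Matrix.add_apply, ← h3, Matrix.mul_apply, Matrix.mulVec, dotProduct, ← Finset.sum_add_distrib,
    Finset.sum_eq_zero, zero_smul]
  intro b _
  have h5 : omF g (fun z => Φ (g z)) x k b a = -omF g (fun z => Φ (g z)) x k a b :=
    congrFun (congrFun h4 a) b
  rw [h5]
  ring

end

end Vale.Agent.P366
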