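import Vale.Agent.P366I.Spin1
import Vale.Agent.P366I.Cl1

/-! Curvature of the spin connection. -/

noncomputable section

open Matrix MeasureTheory Set Filter Topology Asymptotics
open scoped ContDiff

namespace Vale.Agent.P366

variable {n : ℕ} {ι : Type} [Fintype ι] [DecidableEq ι]

/-- Coordinate curvature matrices: `(rmM g k l x) i j = R^i_{j k l}`. -/
def rmM (g : Fld n) (k l : Fin n) (x : Euc n) : Mn n :=
  pdM (chM g l) k x - pdM (chM g k) l x + (chM g k x * chM g l x - chM g l x * chM g k x)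

theorem spin2_ent (g : Fld n) (k l : Fin n) (x : Euc n) (i j : Fin n) :
    rmM g k l x i j = pd (chr g i l j) k x - pd (chr g i k j) l x
      + (∑ m, chr g i k m x * chr g m l j x - ∑ m, chr g i l m x * chr g m k j x) := rfl

theorem spin2_mul {A B : Fld n} {x : Euc n} (hA : ∀ i j, DifferentiableAt ℝ (fun y => A y i j) x)
    (hB : ∀ i j, DifferentiableAt ℝ (fun y => B y i j) x) (k : Fin n) :
    pdM (fun y => A y * B y) k x = pdM A k x * B x + A x * pdM B k x := by
  ext i j
  simp only [pdM, Matrix.of_apply, Matrix.add_apply, Matrix.mul_apply]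
  rw [pd_sum _ fun m _ => (hA i m).fun_mul (hB m j), ← Finset.sum_add_distrib]
  exact Finset.sum_congr rfl fun m _ => pd_mul (hA i m) (hB m j)

theorem spin2_add {A B : Fld n} {x : Euc n} (hA : ∀ i j, DifferentiableAt ℝ (fun y => A y i j) x)
    (hB : ∀ i j, DifferentiableAt ℝ (fun y => B y i j) x) (k : Fin n) :
    pdM (fun y => A y + B y) k x = pdM A k x + pdM B k x := by
  ext i j
  exact pd_add (hA i j) (hB i j)

theorem spin2_congr {A B : Fld n} {x : Euc n} (e : ∀ᶠ y in 𝓝 x, A y = B y) (k : Fin n) :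
    pdM A k x = pdM B k x := by
  ext i j
  exact pd_congr (e.mono fun y hy => by simp only [hy])

theorem spin2_alg {R : Type} [Ring R] {E Dk Dl wk wl Pkl Plk H Gkl Glk Γk Γl : R}
    (a1 : Dk * wl + E * Pkl = H + (Gkl * E + Γl * Dk))
    (a2 : Dl * wk + E * Plk = H + (Glk * E + Γk * Dl))
    (bk : E * wk = Dk + Γk * E) (bl : E * wl = Dl + Γl * E) :
    E * (Pkl - Plk + (wk * wl - wl * wk)) = (Gkl - Glk + (Γk * Γl - Γl * Γk)) * E := by
  have c1 : E * (wk * wl) = Dk * wl + Γk * (Dl + Γl * E) := by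
    rw [← mul_assoc, bk, add_mul, mul_assoc, bl]
  have c2 : E * (wl * wk) = Dl * wk + Γl * (Dk + Γk * E) := by
    rw [← mul_assoc, bl, add_mul, mul_assoc, bk]
  rw [mul_add, mul_sub, mul_sub, c1, c2, eq_sub_of_add_eq' a1, eq_sub_of_add_eq' a2]
  noncomm_ring

section
variable {ρ : ℝ} {g : Fld n} (h : Met ρ g) {x : Euc n} (hx : ρ < ‖x‖)
include h hx

theorem spin2_pd (i a b k : Fin n) : pd (chr g i a b) k x = pd (chr g i b a) k x :=
  pd_congr ((ev_out hx).mono fun _ hy => h.chr_symm hy i a b)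

theorem rmM_bianchi (k l i j : Fin n) :
    rmM g k l x i j + rmM g l j x i k + rmM g j k x i l = 0 := by
  simp only [spin2_ent, fun m => h.chr_symm hx m j k, fun m => h.chr_symm hx m k l,
    fun m => h.chr_symm hx m j l, spin2_pd h hx i j k, spin2_pd h hx i k l, spin2_pd h hx i j l]
  ring

theorem rmM_scal : ∑ j, ∑ l, (g x)⁻¹ j l * ∑ i, rmM g i l x i j = scal g x := by
  refine Finset.sum_congr rfl fun j _ => Finset.sum_congr rfl fun l _ => congrArg _ ?_
  rw [ric, ← Finset.sum_sub_distrib, ← Finset.sum_add_distrib]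
  refine Finset.sum_congr rfl fun i _ => ?_
  rw [spin2_ent, spin2_pd h hx i l j, spin2_pd h hx i i j, Finset.sum_sub_distrib]
  congr 2
  · exact Finset.sum_congr rfl fun m _ => by rw [h.chr_symm hx m l j]
  · exact Finset.sum_congr rfl fun m _ => by rw [h.chr_symm hx m i j]

variable {Φ : Mn n → Mn n} (hΦ : FrameFn Φ)
include hΦ

/-- Gauge transformation: from `E ω_l = ∂_l E + Γ_l E` near `x`, differentiate, antisymmetrise and
use `pd_comm`. -/
theorem omF_curv (k l : Fin n) :
    pdM (fun y => omF g (fun z => Φ (g z)) y l) k x - pdM (fun y => omF g (fun z => Φ (g z)) y k) l x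
      + (omF g (fun z => Φ (g z)) x k * omF g (fun z => Φ (g z)) x l
        - omF g (fun z => Φ (g z)) x l * omF g (fun z => Φ (g z)) x k)
      = (Φ (g x))⁻¹ * rmM g k l x * Φ (g x) := by
  have b : ∀ y : Euc n, ρ < ‖y‖ → ∀ l, Φ (g y) * omF g (fun z => Φ (g z)) y l =
      pdM (fun z => Φ (g z)) l y + chM g l y * Φ (g y) := fun y hy l =>
    Matrix.mul_nonsing_inv_cancel_left _ _ (fr_det h hΦ hy).isUnit
  have dE : ∀ i j, DifferentiableAt ℝ (fun y => Φ (g y) i j) x := fun i j =>
    (fr_sm h hΦ hx i j).differentiableAt (by simp)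
  have dG : ∀ l i j, DifferentiableAt ℝ (fun y => chM g l y i j) x := fun l i j =>
    (h.sm_chr hx i l j).differentiableAt (by simp)
  have a : ∀ k l, pdM (fun z => Φ (g z)) k x * omF g (fun z => Φ (g z)) x l +
      Φ (g x) * pdM (fun y => omF g (fun z => Φ (g z)) y l) k x =
      pdM (pdM (fun z => Φ (g z)) l) k x +
        (pdM (chM g l) k x * Φ (g x) + chM g l x * pdM (fun z => Φ (g z)) k x) := fun k l => by
    rw [← spin2_mul dE (fun i j => (omF_sm h hΦ hx l i j).differentiableAt (by simp)) k,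
      spin2_congr ((ev_out hx).mono fun y hy => b y hy l) k, ← spin2_mul (dG l) dE k]
    refine spin2_add (fun i j =>
      (contDiffAt_pd (fr_sm h hΦ hx i j) l).differentiableAt (by simp)) (fun i j => ?_) k
    simp only [Matrix.mul_apply]
    exact DifferentiableAt.fun_sum fun m _ => (dG l i m).mul (dE m j)
  have c : pdM (pdM (fun z => Φ (g z)) k) l x = pdM (pdM (fun z => Φ (g z)) l) k x := by
    ext i j
    exact pd_comm (fr_sm h hΦ hx i j) k l
  have a2 := a l k
  rw [c] at a2
  rw [Matrix.mul_assoc, rmM, ← spin2_alg (a k l) a2 (b x hx k) (b x hx l),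
    Matrix.nonsing_inv_mul_cancel_left _ _ (fr_det h hΦ hx).isUnit]

end

end Vale.Agent.P366
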