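import Vale.Agent.P366I.Key
import Vale.Agent.P366I.Eig
import Vale.Agent.P366I.Dini

/-! Differential inequalities for the lowest eigenvalue. -/

noncomputable section

open Matrix MeasureTheory Set Filter Topology Asymptotics
open scoped ContDiff

namespace Vale.Agent.P366

variable {n : ℕ} {ι : Type} [Fintype ι] [DecidableEq ι]

theorem top_sq {N l e : ℝ} (hl : 0 ≤ l) (he : e ≤ 1) (hN : |N - l| ≤ e) :
    |N ^ 2 - l ^ 2| ≤ (2 * l + 1) * e := by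
  have h0 : 0 ≤ e := (abs_nonneg _).trans hN
  have h1 : |N + l| ≤ 2 * l + 1 := by
    rw [abs_le] at hN ⊢
    constructor <;> linarith [hN.1, hN.2]
  rw [show N ^ 2 - l ^ 2 = (N + l) * (N - l) by ring, abs_mul]
  exact mul_le_mul h1 hN (abs_nonneg _) (by linarith)

theorem top_alg {η W l d e p N A T Ba Cr Pn I C₁ C₂ : ℝ} (hη : 0 < η) (hW : 0 < W)
    (hl : 1 / 2 ≤ l) (hd : 2 ≤ d) (he : e ≤ 1) (hp : |p - l| ≤ e) (hN : |N - l| ≤ e)
    (hBa : |Ba| ≤ C₁ * e) (hPn : |Pn| ≤ C₂ * e)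
    (k3 : W / η * A + T ≤ W * (2 * N ^ 2 - 1 / 2) - 2 * Ba)
    (hI : I = Cr + η * (p - l) + 2 * Pn - l * A - Ba)
    (tw : -(η / d) * p + 2 * l * η * N ^ 2 / d + (1 / 2) * l * η / d ≤ Cr + l * (η / W) * T) :
    l * η * ((d - 1) / d) * (1 / 2 - 2 * l ^ 2)
      - (η + 2 * l * η * (2 * l + 1) + 2 * C₂ + (2 * l * (η / W) + 1) * C₁) * e ≤ I := by
  have hl0 : 0 < l := by linarith
  have hd0 : 0 < d := by linarith
  have h0 : 0 ≤ e := (abs_nonneg _).trans hN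
  have hq : 0 < l * (η / W) := mul_pos hl0 (div_pos hη hW)
  have k4 := mul_le_mul_of_nonneg_left k3 hq.le
  have e1 : l * (η / W) * (W / η * A + T) = l * A + l * (η / W) * T := by
    field_simp
  have e2 : l * (η / W) * (W * (2 * N ^ 2 - 1 / 2) - 2 * Ba)
      = l * η * (2 * N ^ 2 - 1 / 2) - 2 * (l * (η / W)) * Ba := by
    field_simp
  rw [e1, e2] at k4
  obtain ⟨r, hr⟩ : ∃ r, r = (d - 1) / d := ⟨_, rfl⟩
  have hr0 : 0 ≤ r := by
    rw [hr]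
    exact div_nonneg (by linarith) hd0.le
  have hr1 : r ≤ 1 := by
    rw [hr, div_le_one hd0]
    linarith
  have e3 : -(η / d) * p + 2 * l * η * N ^ 2 / d + (1 / 2) * l * η / d
      = (1 - r) * (-η * p + 2 * l * η * N ^ 2 + (1 / 2) * l * η) := by
    rw [hr]
    field_simp
    ring
  rw [e3] at tw
  rw [← hr]
  have hN2 := top_sq hl0.le he hN
  have b1 : -(η * e) ≤ r * (η * (p - l)) := by
    have h1 := mul_le_mul_of_nonneg_left (abs_le.1 hp).1 hη.le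
    have h2 := mul_le_mul_of_nonneg_left h1 hr0
    have h3 := mul_le_mul_of_nonneg_right hr1 (mul_nonneg hη.le h0)
    linarith
  have b2 : r * (2 * l * η * (N ^ 2 - l ^ 2)) ≤ 2 * l * η * ((2 * l + 1) * e) := by
    have h2 : 0 ≤ 2 * l * η := by positivity
    have h1 : 2 * l * η * (N ^ 2 - l ^ 2) ≤ 2 * l * η * ((2 * l + 1) * e) :=
      mul_le_mul_of_nonneg_left (abs_le.1 hN2).2 h2
    have h3 : 0 ≤ 2 * l * η * ((2 * l + 1) * e) := by positivity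
    have h4 := mul_le_mul_of_nonneg_left h1 hr0
    have h5 := mul_le_mul_of_nonneg_right hr1 h3
    linarith
  have b3 := (abs_le.1 hPn).1
  have b4 : -(2 * (l * (η / W)) * (C₁ * e)) ≤ 2 * (l * (η / W)) * Ba := by
    have h1 := mul_le_mul_of_nonneg_left (abs_le.1 hBa).1 hq.le
    linarith
  have b5 := (abs_le.1 hBa).2
  rw [hI]
  generalize η / W = q at *
  linarith

theorem top_ip {φ χ : Euc n → ι → ℝ} (hφ : Sm φ) (hχ : Sm χ) (h1 : nm φ = 1) {l e : ℝ}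
    (he : nm (χ - l • φ) ≤ e) : |ip χ φ - l| ≤ e := by
  have h2 := abs_ip_le (hχ.sub (hφ.smul l)) hφ
  rw [ip_sub hχ (hφ.smul l) hφ, ip_smul, ← nm_sq, h1] at h2
  simp only [one_pow, mul_one] at h2
  exact h2.trans he

theorem top_nm {φ χ : Euc n → ι → ℝ} (hφ : Sm φ) (hχ : Sm χ) (h1 : nm φ = 1) {l e : ℝ}
    (hl : 0 ≤ l) (he : nm (χ - l • φ) ≤ e) : |nm χ - l| ≤ e := by
  have h2 := nm_add_le (hχ.sub (hφ.smul l)) (hφ.smul l)
  have h3 := nm_sub_le hχ (hχ.sub (hφ.smul l))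
  rw [sub_add_cancel, nm_smul, abs_of_nonneg hl, h1] at h2
  rw [sub_sub_cancel, nm_smul, abs_of_nonneg hl, h1] at h3
  rw [abs_le]
  constructor <;> linarith

theorem top_eta {ρ : ℝ} {g K : Fld n} {η κ : ℝ → ℝ} (h : Sh ρ g K η κ) {t : ℝ} (ht : ρ < t) :
    0 < η t ∧ 0 < η t ^ 2 - κ t ^ 2 := by
  have h1 := h.un t ht
  have h2 := abs_nonneg (κ t)
  refine ⟨by linarith, ?_⟩
  rw [← sq_abs (κ t)]
  nlinarith

section
variable {ρ : ℝ} {g K : Fld n} {η κ : ℝ → ℝ} {γ S : Euc n → Fin n → Ms ι} (hn : 3 ≤ n)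
  (h : Sh ρ g K η κ) (hG : Geo ρ g γ S) {t : ℝ} (ht : ρ < t)
include hn h hG ht

/-- Combine `Lt'_eq`, `key_three`, `twistor_int`, `ba_small`, `pn_bound`, `garding`;
`|ip (Lt φ) φ - l| ≤ e`, `|nm (Lt φ) - l| ≤ e`. -/
theorem key_one {l : ℝ} (hl : 1 / 2 ≤ l) : ∃ C, 0 < C ∧ ∀ (φ : Euc n → ι → ℝ) (e : ℝ), Sm φ →
    nm φ = 1 → e ≤ 1 → nm (Lt g K γ S t φ - l • φ) ≤ e →
    l * η t * (((n : ℝ) - 2) / ((n : ℝ) - 1)) * (1 / 2 - 2 * l ^ 2) - C * e
      ≤ ip (Lt' g K γ S t φ) φ := by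
  obtain ⟨C₁, hC₁, H₁⟩ := ba_small hn h hG ht
  obtain ⟨C₂, hC₂, H₂⟩ := pn_bound hn h hG ht
  obtain ⟨C₃, hC₃, H₃⟩ := garding hn h hG ht
  obtain ⟨hη, hx⟩ := top_eta h ht
  have hW : 0 < √(η t ^ 2 - κ t ^ 2) := Real.sqrt_pos.2 hx
  have hl0 : 0 < l := by linarith
  have hd : (2 : ℝ) ≤ (n : ℝ) - 1 := by
    have : (3 : ℝ) ≤ n := by exact_mod_cast hn
    linarith
  refine ⟨η t + 2 * l * η t * (2 * l + 1) + 2 * (C₂ * (C₃ * (l + 2)))
    + (2 * l * (η t / √(η t ^ 2 - κ t ^ 2)) + 1) * C₁, by positivity, ?_⟩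
  intro φ e hφ h1 he1 he
  have hL := Lt_sm hn h hG ht hφ
  have hp := top_ip hφ hL h1 he
  have hN := top_nm hφ hL h1 hl0.le he
  have k3 := key_three hn h hG ht hφ
  have hI := Lt'_eq hn h hG ht hφ l
  have tw := twistor_int hn h hG ht hφ hl
  have b1 := H₁ φ l hφ
  have b2 := H₂ φ _ hφ (hL.sub (hφ.smul l))
  have b3 := H₃ φ hφ
  rw [h1] at k3 hI tw b1 b3
  simp only [one_pow, mul_one] at k3 hI tw b1
  have b4 : √(H1 φ) ≤ C₃ * (l + 2) :=
    b3.trans (mul_le_mul_of_nonneg_left (by linarith [(abs_le.1 hN).2]) hC₃.le)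
  have hBa := b1.trans (mul_le_mul_of_nonneg_left he hC₁.le)
  have hPn := b2.trans (mul_le_mul (mul_le_mul_of_nonneg_left b4 hC₂.le) he nm_nonneg
    (by positivity))
  have := top_alg hη hW hl hd he1 hp hN hBa hPn k3 hI tw
  rw [show (n : ℝ) - 1 - 1 = (n : ℝ) - 2 by ring] at this
  exact this

variable [Nonempty ι]

/-- `approx_eig` and `Lt_flip`. -/
theorem lam_eig {e : ℝ} (he : 0 < e) : ∃ φ : Euc n → ι → ℝ, Sm φ ∧ nm φ = 1 ∧
    nm (Lt g K γ S t φ - lam g K γ S t • φ) ≤ e := by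
  obtain ⟨φ, hφ, h1, h2 | h2⟩ := approx_eig (by omega) (aa_sm hn h hG ht) (bb_sm hn h hG ht)
    (aa_tan hn h hG ht) (aa_skew hn h hG ht) (Lt_symO hn h hG ht) he
  · exact ⟨φ, hφ, h1, h2⟩
  · obtain ⟨φ', hφ', h3, h4⟩ := Lt_flip hn h hG ht hφ (lam g K γ S t)
    exact ⟨φ', hφ', h3.trans h1, h4.le.trans h2⟩

theorem lam_cont : ContinuousAt (lam g K γ S) t := by
  obtain ⟨C, -, H⟩ := garding hn h hG ht
  exact (fam_of hn h hG ht).cont (by omega) H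

theorem lam_dini (hl : 1 / 2 ≤ lam g K γ S t) {ε : ℝ} (hε : 0 < ε) :
    ∀ᶠ s in 𝓝[<] t, lam g K γ S s ≤ lam g K γ S t - (t - s) *
      (lam g K γ S t * η t * (((n : ℝ) - 2) / ((n : ℝ) - 1)) * (1 / 2 - 2 * lam g K γ S t ^ 2)
        - ε) := by
  obtain ⟨C, -, H⟩ := garding hn h hG ht
  obtain ⟨C', hC', H'⟩ := key_one hn h hG ht hl
  refine (fam_of hn h hG ht).dini (by omega) H (by linarith) (fun e he => ?_) hε
  have h0 : 0 < min 1 (min e (e / C')) := lt_min one_pos (lt_min he (div_pos he hC'))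
  obtain ⟨φ, hφ, h1, h2⟩ := lam_eig hn h hG ht h0
  have h3 := H' φ _ hφ h1 (min_le_left _ _) h2
  have h4 : min 1 (min e (e / C')) ≤ e / C' := (min_le_right _ _).trans (min_le_right _ _)
  rw [le_div_iff₀ hC'] at h4
  refine ⟨φ, hφ, h1, h2.trans ((min_le_right _ _).trans (min_le_left _ _)), le_trans ?_ h3⟩
  linarith

/-- `key_three` for approximate eigenvectors, `Sh.dn_wf'`, `nTA_nonneg`, `ipA_nonneg`, `e → 0`. -/
theorem lam_low {C₀ : ℝ} (hC : ∀ x : Euc n, ‖x‖ = t → dn g (lapse g) x ≤ C₀) :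
    deriv (fun r => η r ^ 2 - κ r ^ 2) t / (2 * (η t ^ 2 - κ t ^ 2)) - C₀
      ≤ 2 * η t * lam g K γ S t ^ 2 := by
  obtain ⟨C₁, hC₁, H₁⟩ := ba_small hn h hG ht
  obtain ⟨hη, hx⟩ := top_eta h ht
  have hW : 0 < √(η t ^ 2 - κ t ^ 2) := Real.sqrt_pos.2 hx
  have hl : 0 ≤ lam g K γ S t := lamO_nonneg
  obtain ⟨D, hD⟩ : ∃ D, D = deriv (fun r => η r ^ 2 - κ r ^ 2) t / (2 * (η t ^ 2 - κ t ^ 2)) :=
    ⟨_, rfl⟩
  rw [← hD]
  refine dini_lim (c := 2 * η t * (2 * lam g K γ S t + 1)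
    + 2 * C₁ * (η t / √(η t ^ 2 - κ t ^ 2))) (by positivity) fun e he he1 => ?_
  obtain ⟨φ, hφ, h1, h2⟩ := lam_eig hn h hG ht he
  have hL := Lt_sm hn h hG ht hφ
  have hN := top_sq hl he1 (top_nm hφ hL h1 hl h2)
  have k3 := key_three hn h hG ht hφ
  have b1 := H₁ φ (lam g K γ S t) hφ
  rw [h1] at k3 b1
  simp only [one_pow, mul_one] at k3 b1
  have hBa := b1.trans (mul_le_mul_of_nonneg_left h2 hC₁.le)
  have hT : 0 ≤ LI g t (fun x => lapse g x * (2 * nT g γ S (exs g K φ) x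
      + (1 / 2) * ((η t ^ 2 - κ t ^ 2) / η t ^ 2) * sq2 g x * (exs g K φ x ⬝ᵥ exs g K φ x))) := by
    refine LI_nonneg h.met ht fun x hxt => ?_
    have hx' : ρ < ‖x‖ := hxt ▸ ht
    have p1 := h.met.lapse_pos hx'
    have p2 : 0 ≤ nT g γ S (exs g K φ) x := nTA_nonneg (h.met.posDef x hx').inv _
    have p3 : 0 ≤ sq2 g x := ipA_nonneg (h.met.posDef x hx').inv _
    have p4 := ipb_nn (exs g K φ x)
    positivity
  have hA : D - C₀ ≤
      LI g t (fun x => lapse g x * dn g (wf g K) x * (exs g K φ x ⬝ᵥ exs g K φ x)) := by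
    have q1 : ip φ φ = 1 := by rw [← nm_sq, h1, one_pow]
    rw [ip_LI hn h ht] at q1
    have hs := h.smU_exs hφ
    have c1 : ∀ x : Euc n, ‖x‖ = t → ContinuousAt (fun y => exs g K φ y ⬝ᵥ exs g K φ y) x :=
      fun x hxt => (SmU.dot hs hs (hxt ▸ ht)).continuousAt
    rw [← mul_one (D - C₀), ← q1, ← LI_cmul]
    refine LI_mono h.met ht (fun x hxt => ?_) (fun x hxt => ?_) fun x hxt => ?_
    · exact continuousAt_const.mul ((h.sm_wf (hxt ▸ ht)).continuousAt.mul (c1 x hxt))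
    · have hx' : ρ < ‖x‖ := hxt ▸ ht
      refine ((h.met.sm_lapse hx').continuousAt.mul ?_).mul (c1 x hxt)
      exact (ContDiffAt.sum fun k _ =>
        (h.met.sm_nu hx' k).mul (contDiffAt_pd (h.sm_wf hx') k)).continuousAt
    · have hx' : ρ < ‖x‖ := hxt ▸ ht
      rw [h.dn_wf' hx', hxt, ← hD]
      have p1 := mul_nonneg (h.wf_pos hx').le (ipb_nn (exs g K φ x))
      nlinarith [mul_le_mul_of_nonneg_left (hC x hxt) p1]
  obtain ⟨W, hWe⟩ : ∃ W, W = √(η t ^ 2 - κ t ^ 2) := ⟨_, rfl⟩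
  rw [← hWe] at k3 hW ⊢
  have k4 : W / η t * (D - C₀) ≤ W * (2 * (lam g K γ S t ^ 2 + (2 * lam g K γ S t + 1) * e))
      + 2 * (C₁ * e) := by
    have q1 := mul_le_mul_of_nonneg_left hA (div_pos hW hη).le
    have q2 := mul_le_mul_of_nonneg_left (abs_le.1 hN).2 hW.le
    linarith [(abs_le.1 hBa).1]
  have k5 := mul_le_mul_of_nonneg_left k4 (div_pos hη hW).le
  have e1 : η t / W * (W / η t * (D - C₀)) = D - C₀ := by field_simp
  have e2 : η t / W * (W * (2 * (lam g K γ S t ^ 2 + (2 * lam g K γ S t + 1) * e)) + 2 * (C₁ * e))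
      = 2 * η t * lam g K γ S t ^ 2
        + e * (2 * η t * (2 * lam g K γ S t + 1) + 2 * C₁ * (η t / W)) := by
    field_simp
    ring
  rwa [e1, e2] at k5

end

end Vale.Agent.P366
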